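import Crest.Agent.R275.LnkP5_476
import Crest.Agent.R275.MI_683

/-!
R275, block LINK, leaf D4 (helper476), part 6: the index of the resolution of a point.

`ind_pt`: for helper683's module index `G` on `Sec (lam2 A)` which computes the supertraces of the
superbundles (`IsCoh G` = the cohesive theorem), the resolution `Res h q io` of the ideal of a point
has `ind q = 2 ind 1 + 1`.
-/

set_option autoImplicit false
set_option linter.unusedSectionVars false

open Set Filter Topology Complex
open scoped ContDiff ComplexConjugate Matrix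
open Crest.Agent.R275.Geo Crest.Agent.R275.SmR425 Crest.Agent.R275.Smf798
open Crest.Agent.R275.LnkP2476 Crest.Agent.R275.LnkP4476 Crest.Agent.R275.LnkP5476
open Crest.Agent.R275.NA6b763 Crest.Agent.R275.NA7763 Crest.Agent.R275.NA3m425
open Crest.Agent.R275.Lam2130 Crest.Agent.R275.MI683

namespace Crest.Agent.R275.LnkP6476

noncomputable section

/-! ### the trivial superbundle -/

section triv

variable {k R Om : Type*} [Field k] [CommRing R] [Algebra k R] [AddCommGroup Om] [Module k Om]
  [Module R Om] [IsScalarTower k R Om] (E : Dol k R Om)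

/-- the trivial superbundle of rank `|N|` -/
def triv (N : Type) [Fintype N] [DecidableEq N] : Super E N where
  P := 1
  hd _ := 0
  t _ := 1
  Z := 0
  idem := one_mul 1
  P_hd i j h := absurd rfl h
  P_t i j := by
    rw [one_smul, one_smul, Matrix.one_apply]
    split_ifs <;> simp
  PZ w := by simp
  ZP w := by simp
  Z_deg q w := by simp
  Z_T w := by simp
  DD w _ := by
    funext i
    simp only [act_one, LinearMap.zero_apply, add_zero, diag_apply, sgn_zero, one_smul,
      Pi.zero_apply]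
    exact E.dd _

theorem triv_D {N : Type} [Fintype N] [DecidableEq N] (w : N → Om) (i : N) :
    (triv E N).D w i = E.d (w i) := by
  rw [Super.D_apply]
  show (act (1 : Matrix N N R) (diag E (fun _ => 0) w) + 0) i = _
  rw [act_one, add_zero, diag_apply, sgn_zero, one_smul]

/-- the supercomplex of the trivial superbundle of rank one -/
def trivHom : SC.Hom (triv E (Fin 1)).sc E.sc where
  f :=
    { toFun := fun w => w.1 0
      map_add' := fun _ _ => rfl
      map_smul' := fun _ _ => rfl }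
  d w := (triv_D E w.1 0).symm
  T w := by
    show E.T (w.1 0) = totT E (fun _ => 0) (fun _ => 1) w.1 0
    rw [totT_apply, sgn_zero, one_mul, one_smul]

theorem trivHom_quasi : (trivHom E).Quasi := by
  refine quasi_of_bijective _ ⟨fun v w h => ?_, fun w => ⟨⟨fun _ => w, ?_⟩, rfl⟩⟩
  · apply Subtype.ext
    funext j
    rw [Subsingleton.elim j 0]
    exact h
  · show act (1 : Matrix (Fin 1) (Fin 1) R) (fun _ => w) = _
    rw [act_one]

end triv

variable {M : Type} [TopologicalSpace M] {A : Atl 2 M}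

/-- the module index computes the supertraces of the superbundles -/
def IsCoh (G : ModSc (smf A) (Sec (lam2 A))) : Prop :=
  ∀ (N : Type) [Fintype N] (X : Super (dol2 A) N), (∀ i, 0 ≤ X.hd i) →
    FiniteDimensional ℂ X.sc.H ∧
      X.sc.st = ((G.ind X.P (fun i => sgn (X.hd i) * X.t i) : ℤ) : ℂ)

variable {G : ModSc (smf A) (Sec (lam2 A))}

theorem IsCoh.finite (hG : IsCoh G) : FiniteDimensional ℂ (dol2 A).sc.H := by
  have := (hG (Fin 1) (triv (dol2 A) (Fin 1)) fun _ => le_rfl).1
  exact (trivHom_quasi (dol2 A)).finite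

theorem IsCoh.st_eq (hG : IsCoh G) : (dol2 A).sc.st = ((G.chi : ℤ) : ℂ) := by
  rw [← (trivHom_quasi (dol2 A)).st_eq,
    (hG (Fin 1) (triv (dol2 A) (Fin 1)) fun _ => le_rfl).2]
  congr 1
  show G.ind (1 : Matrix (Fin 1) (Fin 1) (smf A)) (fun _ => sgn 0 * 1) = _
  rw [G.ind_one]
  simp

variable {p : M} {i : A.ι} [T2Space M] [CompactSpace M]

/-- **D4**: the resolution of the ideal of a point and its index -/
theorem ind_pt (hσ : ∀ f : smf A, G.σ f = f) (hG : IsCoh G) (P : Part A)
    (hp : p ∈ (A.e i).source) :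
    ∃ (h : Fin 3 → smf A) (N : ℕ) (q : Matrix (Fin N) (Fin N) (smf A))
      (io : Matrix (Fin 3) (Fin N) (smf A)) (R : NA3m425.Res h q io),
      (∀ᶠ x in 𝓝 p, (h 0).1 x = A.e i x 0 - A.e i p 0) ∧
      (∀ᶠ x in 𝓝 p, (h 1).1 x = A.e i x 1 - A.e i p 1) ∧
      (∀ᶠ x in 𝓝 p, (h 2).1 x = 0) ∧
      (∀ x ≠ p, ∃ a, (h a).1 x ≠ 0) ∧ Ideal.span (range h) = Ip A i p hp ∧
      (G.kIndex hσ).data.indR ((G.kIndex hσ).c q R.idem) =
        2 * (G.kIndex hσ).data.indR 1 + 1 := by
  have := hG.finite
  obtain ⟨h, N, q, io, R, h0, h1, h2, h3, h4, X, hP, hhd, ht, h5, h6⟩ :=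
    exists_pt_super P hp
  refine ⟨h, N, q, io, R, h0, h1, h2, h3, h4, ?_⟩
  have h7 := (hG _ X (by
    rw [hhd]
    rintro (j | j)
    · exact le_rfl
    · exact zero_le_one)).2
  rw [h6, hG.st_eq, hP] at h7
  have h8 : (fun j => sgn (X.hd j) * X.t j) =
      Sum.elim (1 : Fin 3 → ℤˣ) (-1 : Fin N → ℤˣ) := by
    rw [hhd, ht]
    funext j
    rcases j with j | j
    · simp
    · simp
  have h9 : G.ind (Matrix.fromBlocks 1 0 0 q) (Sum.elim (1 : Fin 3 → ℤˣ) (-1 : Fin N → ℤˣ)) =
      3 * G.chi - G.ind q 1 := by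
    have e1 : ∀ {N M : Type} (t : N → ℤˣ) (u : M → ℤˣ) (m : Matrix N M (smf A)),
        (∀ i j, t i * u j = 1) → G.Eqv t u m := by
      intro N M t u m htu i j
      rw [hσ, smul_smul, htu, one_smul]
    rw [G.ind_blocks (one_mul _) R.idem (e1 _ _ _ fun _ _ => by simp)
      (e1 _ _ _ fun _ _ => by simp), G.ind_one, G.ind_neg R.idem (e1 _ _ _ fun _ _ => by simp)]
    simp
    ring
  rw [h8, h9] at h7
  have h10 : G.chi - 1 = 3 * G.chi - G.ind q 1 := by exact_mod_cast h7
  have h11 : (G.kIndex hσ).data.indR 1 = G.chi := by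
    rw [← (G.kIndex hσ).c_one (n := Fin 1), KR798.KIndex.indR_c]
    show G.ind (1 : Matrix (Fin 1) (Fin 1) (smf A)) 1 = _
    rw [G.ind_one]
    simp
  have h12 : (G.kIndex hσ).data.indR ((G.kIndex hσ).c q R.idem) = G.ind q 1 := by
    rw [KR798.KIndex.indR_c]
    rfl
  rw [h11, h12]
  linarith

end

end Crest.Agent.R275.LnkP6476
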