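import Crest.Agent.R275.Dg4_199
import Crest.Agent.R275.ProdAtl_363

/-!
# R275, leaf NA3g, part 5 (helper199): instances

* `ptA A p : Adapted 0 A` for a point `p` of a surface `(M, A)`;
* `dgA A : Adapted 2 (A.prod A)` the diagonal of `M × M`, with the involution
  `dgS A : Swap (dgA A).reg`.
-/

set_option autoImplicit false
set_option linter.unusedSectionVars false

open Set Filter Topology Complex
open scoped ContDiff Matrix ComplexConjugate
open Crest.Agent.R275.Geo Crest.Agent.R275.Smf798 Crest.Agent.R275.Prod363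

namespace Crest.Agent.R275.Dg199

noncomputable section

variable {M : Type} [TopologicalSpace M]

/-- `Cn 2 ≃ ℂ × (ℂ × Cn 0)` -/
def T0 : Cn 2 ≃L[ℂ] ℂ × (ℂ × Cn 0) :=
  LinearEquiv.toContinuousLinearEquiv
    { toFun := fun z => (z 0, (z 1, 0))
      map_add' := fun z w => by ext a <;> simp
      map_smul' := fun c z => by ext a <;> simp
      invFun := fun w => WithLp.toLp 2 ![w.1, w.2.1]
      left_inv := fun z => by
        ext a; fin_cases a <;> rfl
      right_inv := fun w => by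
        obtain ⟨a, b, c⟩ := w
        have : c = 0 := by ext a; exact a.elim0
        subst this
        rfl }

@[simp] theorem T0_apply (z : Cn 2) : T0 z = (z 0, (z 1, 0)) := rfl

/-- the adapted data of a point -/
def ptA (A : Atl 2 M) [T1Space M] (p : M) : Adapted 0 A where
  D := {p}
  closed := isClosed_singleton
  K := {i : A.ι // p ∈ (A.e i).source}
  ix := Subtype.val
  T := fun _ => T0
  c := fun k => A.e k.1 p
  cover := by
    rintro q rfl
    obtain ⟨i, hi⟩ := A.cover q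
    exact ⟨⟨i, hi⟩, hi⟩
  eq := by
    rintro ⟨i, hi⟩ q hq
    simp only [mem_singleton_iff, T0_apply]
    constructor
    · rintro rfl
      simp
    · rintro ⟨h1, h2⟩
      refine (A.e i).injOn hq hi ?_
      ext a
      fin_cases a
      · have : (A.e i q) 0 - (A.e i p) 0 = 0 := h1
        exact sub_eq_zero.1 this
      · have : (A.e i q) 1 - (A.e i p) 1 = 0 := h2
        exact sub_eq_zero.1 this

theorem ptA_uu (A : Atl 2 M) [T1Space M] (p : M) (k : (ptA A p).K) (a : Fin 2) (q : M) :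
    (ptA A p).uu k a q = A.e k.1 q a - A.e k.1 p a := by
  fin_cases a <;> rfl

/-- `Cn (2 + 2) ≃ ℂ × (ℂ × Cn 2)`, `(x, y) ↦ (x₀ - y₀, (x₁ - y₁, y))` -/
def TD : Cn (2 + 2) ≃L[ℂ] ℂ × (ℂ × Cn 2) :=
  LinearEquiv.toContinuousLinearEquiv
    { toFun := fun z => (fstL 2 2 z 0 - sndL 2 2 z 0, (fstL 2 2 z 1 - sndL 2 2 z 1, sndL 2 2 z))
      map_add' := fun z w => by
        refine Prod.ext ?_ (Prod.ext ?_ ?_)
        · simp; ring
        · simp; ring
        · simp
      map_smul' := fun c z => by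
        refine Prod.ext ?_ (Prod.ext ?_ ?_)
        · simp; ring
        · simp; ring
        · simp
      invFun := fun w => app (w.2.2 + WithLp.toLp 2 ![w.1, w.2.1]) w.2.2
      left_inv := fun z => by
        refine ext_prod ?_ ?_
        · rw [fstL_app]
          ext a
          fin_cases a
          · show sndL 2 2 z 0 + (fstL 2 2 z 0 - sndL 2 2 z 0) = _
            ring_nf; rfl
          · show sndL 2 2 z 1 + (fstL 2 2 z 1 - sndL 2 2 z 1) = _
            ring_nf; rfl
        · rw [sndL_app]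
      right_inv := fun w => by
        obtain ⟨a, b, y⟩ := w
        simp only [fstL_app, sndL_app]
        refine Prod.ext ?_ (Prod.ext ?_ rfl)
        · show y 0 + a - y 0 = a
          ring
        · show y 1 + b - y 1 = b
          ring }

theorem TD_apply (z : Cn (2 + 2)) : TD z =
    (fstL 2 2 z 0 - sndL 2 2 z 0, (fstL 2 2 z 1 - sndL 2 2 z 1, sndL 2 2 z)) := rfl

variable [T2Space M]

/-- the adapted data of the diagonal -/
def dgA (A : Atl 2 M) : Adapted 2 (A.prod A) where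
  D := {p | p.1 = p.2}
  closed := isClosed_eq continuous_fst continuous_snd
  K := A.ι
  ix := fun i => (i, i)
  T := fun _ => TD
  c := fun _ => 0
  cover := by
    rintro ⟨x, y⟩ (h : x = y)
    subst h
    obtain ⟨i, hi⟩ := A.cover x
    exact ⟨i, hi, hi⟩
  eq := by
    rintro i ⟨x, y⟩ ⟨hx, hy⟩
    have e1 : TD ((A.prod A).e (i, i) (x, y) - 0) =
        (A.e i x 0 - A.e i y 0, (A.e i x 1 - A.e i y 1, A.e i y)) := by
      rw [sub_zero, prod_e_apply, TD_apply, fstL_app, sndL_app]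
    show x = y ↔ (TD ((A.prod A).e (i, i) (x, y) - 0)).1 = 0 ∧
      (TD ((A.prod A).e (i, i) (x, y) - 0)).2.1 = 0
    rw [e1]
    constructor
    · rintro rfl
      simp
    · rintro ⟨h1, h2⟩
      refine (A.e i).injOn hx hy ?_
      ext a
      fin_cases a
      · exact sub_eq_zero.1 h1
      · exact sub_eq_zero.1 h2

theorem dgA_D (A : Atl 2 M) (x y : M) : (x, y) ∈ (dgA A).D ↔ x = y := Iff.rfl

theorem dgA_uu (A : Atl 2 M) (i : A.ι) (a : Fin 2) (p : M × M) :
    (dgA A).uu i a p = A.e i p.1 a - A.e i p.2 a := by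
  have e1 : TD ((A.prod A).e (i, i) p - 0) =
      (A.e i p.1 0 - A.e i p.2 0, (A.e i p.1 1 - A.e i p.2 1, A.e i p.2)) := by
    rw [sub_zero]
    show TD (app (A.e i p.1) (A.e i p.2)) = _
    rw [TD_apply, fstL_app, sndL_app]
  fin_cases a
  · show (TD ((A.prod A).e (i, i) p - 0)).1 = _
    rw [e1]; rfl
  · show (TD ((A.prod A).e (i, i) p - 0)).2.1 = _
    rw [e1]; rfl

theorem smN_swap (A : Atl 2 M) {f : M × M → ℂ} {q : M × M} (h : SmN (A.prod A) f q.swap) :
    SmN (A.prod A) (fun p => f p.swap) q := by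
  obtain ⟨x, y⟩ := q
  obtain ⟨i, hi⟩ := A.cover x
  obtain ⟨j, hj⟩ := A.cover y
  have h1 := (smN_iff (A := A.prod A) (i := (j, i)) (p := (y, x)) ⟨hj, hi⟩).1 h
  refine (smN_iff (A := A.prod A) (i := (i, j)) (p := (x, y)) ⟨hi, hj⟩).2 ?_
  let L : Cn (2 + 2) →L[ℝ] Cn (2 + 2) :=
    ((appL 2 2).comp ((sndL 2 2).prod (fstL 2 2))).restrictScalars ℝ
  have hL : ∀ z, L z = app (sndL 2 2 z) (fstL 2 2 z) := fun z => rfl
  have h2 : ContDiffAt ℝ ∞ (fun z => f ((((A.prod A).e (j, i)).symm) z))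
      (L ((A.prod A).e (i, j) (x, y))) := by
    rw [hL, prod_e_apply, fstL_app, sndL_app]
    exact h1
  have h3 := ContDiffAt.comp (g := fun z => f ((((A.prod A).e (j, i)).symm) z))
    ((A.prod A).e (i, j) (x, y)) h2 L.contDiff.contDiffAt
  refine h3.congr_of_eventuallyEq (Eventually.of_forall fun z => ?_)
  show f (Prod.swap ((A.e i).symm (fstL 2 2 z), (A.e j).symm (sndL 2 2 z))) =
    f ((A.e j).symm (fstL 2 2 (L z)), (A.e i).symm (sndL 2 2 (L z)))
  rw [hL, fstL_app, sndL_app]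
  rfl

/-- the swap of the two factors -/
def dgS (A : Atl 2 M) : Swap (dgA A).reg where
  σ := Prod.swap
  cont := continuous_swap
  invol := Prod.swap_swap
  sm := fun f q h => smN_swap A h
  V_inv := by
    rintro i ⟨x, y⟩ ⟨hx, hy⟩
    exact ⟨hy, hx⟩
  odd := by
    intro i a q _
    have e1 := dgA_uu A i a q.swap
    have e2 := dgA_uu A i a q
    refine (e1.trans ?_).trans (congrArg Neg.neg e2).symm
    rw [Prod.fst_swap, Prod.snd_swap]
    ring
  ne := by
    rintro ⟨x, y⟩ hq h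
    exact hq (Prod.ext_iff.1 h).2

variable [CompactSpace M]

/-- **NA3g** for the diagonal of a compact surface: odd generators -/
theorem dg_gens (A : Atl 2 M) : ∃ (r : ℕ) (h : Fin r → smf (A.prod A)), 4 ≤ r ∧
    (∀ a, (dgS A).τ (h a) = - h a) ∧ Ideal.span (range h) = (dgA A).reg.J :=
  (dgS A).exists_gens_span

/-- **NA3g** for the diagonal of a compact surface: local structure -/
theorem dg_loc (A : Atl 2 M) : ∃ (N : ℕ) (s : Fin N → smf (A.prod A)), ∑ i, s i = 1 ∧
    (∀ i, (dgS A).τ (s i) = s i) ∧ ∀ i, s i ∈ (dgA A).reg.J ∨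
    ∃ u1 ∈ (dgA A).reg.J, ∃ u2 ∈ (dgA A).reg.J, (dgS A).τ u1 = - u1 ∧ (dgS A).τ u2 = - u2 ∧
      (∀ f ∈ (dgA A).reg.J, ∃ a b, s i * f = u1 * a + u2 * b) ∧
      (∀ g, u1 * g = 0 → s i * g = 0) ∧ (∀ f g, u1 * g = u2 * f → ∃ c, s i * f = u1 * c) :=
  (dgS A).exists_loc

/-- **G3** for the diagonal -/
theorem dg_pow (A : Atl 2 M) {f : smf (A.prod A)} (m : ℕ) :
    f ∈ (dgA A).reg.J ^ m ↔ ∀ i x, x ∈ (A.e i).source →
      LSpan (A.prod A) (mono m fun a p => A.e i p.1 a - A.e i p.2 a) f.1 (x, x) := by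
  have h0 : ∀ i, (dgA A).reg.u i = fun a p => A.e i p.1 a - A.e i p.2 a := by
    intro i
    funext a p
    exact dgA_uu A i a p
  rw [RegData.mem_pow_iff]
  constructor
  · intro h i x hx
    have h1 := h i (x, x) rfl ⟨hx, hx⟩
    exact (h0 i) ▸ h1
  · rintro h i ⟨x, y⟩ hq hk
    have hxy : x = y := hq
    subst hxy
    exact (h0 i).symm ▸ (h i x hk.1)

end

end Crest.Agent.R275.Dg199
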