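import Crest.Agent.R275.DolG_763
import Crest.Agent.R275.ProdC_363
import Crest.Agent.R275.Dg5_199
import Crest.Agent.R275.SmRP_425

/-!
R275, PART I' (helper763): the graded swap on `M × M` as a `Lift`.

`swLift B : Lift (B.prod B)` (`σ = swpL B` of `ProdC_363`, `s = (dgS A).τ` of `Dg5_199`).
-/

set_option autoImplicit false
set_option linter.unusedSectionVars false

open Set Filter Topology Complex
open scoped ContDiff Matrix ComplexConjugate

noncomputable section

namespace Crest.Agent.R275.DolG763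

open Crest.Agent.R275.Geo Crest.Agent.R275.NA3m425 Crest.Agent.R275.Smf798
  Crest.Agent.R275.SmR425 Crest.Agent.R275.Con425 Crest.Agent.R275.NA6b763
  Crest.Agent.R275.NA7763 Crest.Agent.R275.Prod363 Crest.Agent.R275.Dg199

variable {M : Type} [TopologicalSpace M] [T2Space M] {A : Atl 2 M} (B : FBun A)

/-- the graded swap -/
def swLift : Lift (B.prod B) where
  s := ((dgS A).τ : smf (A.prod A) →+* smf (A.prod A))
  σ := swpL B
  ss f := (dgS A).τ_τ f
  σσ w := swpL_swpL B w
  σs f w := by
    refine Subtype.ext (funext fun i => funext fun p => funext fun k => ?_)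
    obtain ⟨i, j⟩ := i
    obtain ⟨x, y⟩ := p
    obtain ⟨k, l⟩ := k
    change (-1 : ℂ) ^ (B.deg k * B.deg l) * (f.1 (y, x) * w.1 (j, i) (y, x) (l, k)) =
      f.1 (y, x) * ((-1 : ℂ) ^ (B.deg k * B.deg l) * w.1 (j, i) (y, x) (l, k))
    ring
  σn w := (nabL_swpL B w).symm
  σd c w := by
    refine Subtype.ext (funext fun i => funext fun p => funext fun k => ?_)
    obtain ⟨i, j⟩ := i
    obtain ⟨x, y⟩ := p
    obtain ⟨k, l⟩ := k
    change (-1 : ℂ) ^ (B.deg k * B.deg l) *
        (c (B.deg l + B.deg k) * w.1 (j, i) (y, x) (l, k)) =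
      c (B.deg k + B.deg l) * ((-1 : ℂ) ^ (B.deg k * B.deg l) * w.1 (j, i) (y, x) (l, k))
    rw [add_comm (B.deg l)]
    ring

theorem swLift_s (f : smf (A.prod A)) : (swLift B).s f = (dgS A).τ f := rfl

theorem swLift_σ (w : Sec (B.prod B)) : (swLift B).σ w = swpL B w := rfl

end Crest.Agent.R275.DolG763
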