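import Crest.Agent.R275.SwTor_763
import Crest.Agent.R275.SwLift_763
import Crest.Agent.R275.RetD_666

/-!
R275, PART I' (helper763): the graded swap is an isometry of the scale of `Sec (B.prod B)` built
with the product partition `P.prod P`; in particular it is of order `0`.
-/

set_option autoImplicit false
set_option linter.unusedSectionVars false

open Set Filter Topology Complex
open scoped ContDiff Matrix ComplexConjugate

noncomputable section

namespace Crest.Agent.R275.SwOp763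

open Crest.Agent.R275.Geo Crest.Agent.R275.Tor812 Crest.Agent.R275.SwTor763
  Crest.Agent.R275.Prod363 Crest.Agent.R275.Ret666 Crest.Agent.R275.RetC666 Crest.Agent.R275.C1c193
  Crest.Agent.R275.TorS666 Crest.Agent.R275.Fred685

variable {n : ℕ} {M : Type} [TopologicalSpace M] {A : Atl n M} {B : FBun A}

/-- swap of the real coordinates -/
def swR (n : ℕ) : RI (n + n) ≃ RI (n + n) := finAddFlip.prodCongr (Equiv.refl _)

theorem fstL_cc (x : RI (n + n) → ℝ) :
    fstL n n (cc fun p => x (swR n p)) = sndL n n (cc x) := by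
  ext a
  simp [swR]

theorem sndL_cc (x : RI (n + n) → ℝ) :
    sndL n n (cc fun p => x (swR n p)) = fstL n n (cc x) := by
  ext a
  have h : (finAddFlip : Fin (n + n) ≃ Fin (n + n)) (Fin.natAdd n a) = Fin.castAdd n a :=
    finAddFlip_apply_natAdd a n
  rw [sndL_apply, fstL_apply, cc_apply, cc_apply]
  simp only [swR, Equiv.prodCongr_apply, Prod.map_apply, h, Equiv.refl_apply]

theorem rd_sw (i j : A.ι) (G : M × M → ℂ) (x : RI (n + n) → ℝ) :
    rd (A.prod A) (i, j) (fun p => G (p.2, p.1)) x =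
      rd (A.prod A) (j, i) G fun p => x (swR n p) := by
  have h : (cc x ∈ ((A.prod A).e (i, j)).target) ↔
      (cc fun p => x (swR n p)) ∈ ((A.prod A).e (j, i)).target := by
    rw [mem_prod_target, mem_prod_target, fstL_cc, sndL_cc]
    exact and_comm
  unfold rd
  by_cases h1 : cc x ∈ ((A.prod A).e (i, j)).target
  · rw [if_pos h1, if_pos (h.1 h1)]
    rw [prodE_symm_apply, prodE_symm_apply, fstL_cc, sndL_cc]
  · rw [if_neg h1, if_neg fun h2 => h1 (h.2 h2)]

theorem fr_reix (x : RI (n + n) → ℝ) : (fr fun p => x (swR n p)) = fun p => fr x (swR n p) := rfl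

variable {P : Part A}

/-- localisation of the swapped section -/
theorem loc_swp {w : (A.prod A).ι → M × M → B.κ × B.κ → ℂ} (hw : w ∈ Sec (B.prod B)) (i j : A.ι)
    (k l : B.κ) :
    loc (A.prod A) (i, j) ((P.prod P).psi (B.κ × B.κ) (i, j)) (swp (A := A) B.deg w (i, j)) (k, l) =
      ((-1 : ℂ) ^ (B.deg k * B.deg l)) • reix (swR n)
        (loc (A.prod A) (j, i) ((P.prod P).psi (B.κ × B.κ) (j, i)) (w (j, i)) (l, k)) := by
  refine SPer.ext fun x => ?_
  rw [SPer.smul_apply, reix_apply, loc_apply (((P.prod P).amp_psi (B.κ × B.κ)).amp (i, j))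
    ((swp_mem B hw).1 (i, j)), loc_apply (((P.prod P).amp_psi (B.κ × B.κ)).amp (j, i)) (hw.1 (j, i)),
    fr_reix, ← rd_sw]
  have h : (fun y : M × M => ((P.prod P).psi (B.κ × B.κ) (i, j) y *ᵥ
        swp (A := A) B.deg w (i, j) y) (k, l)) =
      fun y => (-1 : ℂ) ^ (B.deg k * B.deg l) * ((P.prod P).psi (B.κ × B.κ) (j, i) (y.2, y.1) *ᵥ
        w (j, i) (y.2, y.1)) (l, k) := by
    funext y
    obtain ⟨x, y⟩ := y
    have e1 : ∀ (i j : A.ι) (x y : M) (v : B.κ × B.κ → ℂ) (q : B.κ × B.κ),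
        ((P.prod P).psi (B.κ × B.κ) (i, j) (x, y) *ᵥ v) q = (P.ψ i x * P.ψ j y : ℝ) * v q := by
      intro i j x y v q
      show ((((P.ψ i x * P.ψ j y : ℝ) : ℂ) • (1 : Matrix (B.κ × B.κ) (B.κ × B.κ) ℂ)) *ᵥ v) q = _
      rw [Matrix.smul_mulVec, Matrix.one_mulVec]
      rfl
    rw [e1, e1, swp_apply]
    push_cast
    ring
  rw [h]
  by_cases hx : fr x ∈ rdU (A.prod A) (i, j)
  · rw [rd_of_mem hx, rd_of_mem hx]
  · rw [rd_of_not hx, rd_of_not hx, mul_zero]

/-- the swap of the index set of the localisations -/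
def swJ (A : Atl n M) (κ : Type) : (A.prod A).ι × (κ × κ) ≃ (A.prod A).ι × (κ × κ) :=
  (Equiv.prodComm A.ι A.ι).prodCongr (Equiv.prodComm κ κ)

variable [PTy (P.prod P) (B.prod B)] {w : Wt (P.prod P)} {V : Type*} [AddCommGroup V] [Module ℂ V]

/-- the graded swap is an isometry -/
theorem nrm_swap (X : SV w (B.prod B) V) (hw : ∀ i j : A.ι, w.w (i, j) = w.w (j, i))
    (S : V →ₗ[ℂ] V) (hS : ∀ v, X.inc (S v) = swpL B (X.inc v)) (N s : ℕ) (v : V) :
    (X.sc N).nrm s (S v) = (X.sc N).nrm s v := by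
  rw [X.sc_nrm, X.sc_nrm]
  have h1 := hasSum_nT s (X.LocA (AF.psi (P.prod P) (B.prod B)) (shB N (B.prod B)) (S v))
  have h2 := hasSum_nT s (X.LocA (AF.psi (P.prod P) (B.prod B)) (shB N (B.prod B)) v)
  rw [← (swJ A B.κ).hasSum_iff] at h2
  refine (pow_left_inj₀ (nT_nonneg _ _) (nT_nonneg _ _) two_ne_zero).1 (h1.unique ?_)
  refine (funext fun p => ?_ : (fun p : (A.prod A).ι × (B.κ × B.κ) => _) = _) ▸ h2
  obtain ⟨⟨i, j⟩, ⟨k, l⟩⟩ := p
  show (w.w (i, j) * nrm (s + (N - (B.deg k + B.deg l)))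
      (loc (A.prod A) (i, j) ((P.prod P).psi (B.κ × B.κ) (i, j)) ((X.inc (S v)).1 (i, j)) (k, l))) ^ 2 =
    (w.w (j, i) * nrm (s + (N - (B.deg l + B.deg k)))
      (loc (A.prod A) (j, i) ((P.prod P).psi (B.κ × B.κ) (j, i)) ((X.inc v).1 (j, i)) (l, k))) ^ 2
  have h3 : (X.inc (S v)).1 = swp (A := A) B.deg (X.inc v).1 := by
    rw [hS]; rfl
  rw [h3, loc_swp (X.inc v).2, nrm_smul, nrm_reix, norm_pow, norm_neg, norm_one, one_pow, one_mul,
    hw, add_comm (B.deg k)]

theorem op0_swap (X : SV w (B.prod B) V) (hw : ∀ i j : A.ι, w.w (i, j) = w.w (j, i))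
    (S : V →ₗ[ℂ] V) (hS : ∀ v, X.inc (S v) = swpL B (X.inc v)) (N : ℕ) :
    Op0 (X.sc N) (X.sc N) S := fun s =>
  ⟨1, fun v => by rw [one_mul]; exact (nrm_swap X hw S hS N s v).le⟩

/-- the case of a finite atlas with trivial weights -/
theorem op0_swpL [Finite (A.prod A).ι] (N : ℕ) :
    Op0 ((SV.full (Wt.one (P.prod P)) (B.prod B)).sc N)
      ((SV.full (Wt.one (P.prod P)) (B.prod B)).sc N) (swpL B) :=
  op0_swap _ (fun _ _ => rfl) _ (fun _ => rfl) N

theorem nrm_swpL [Finite (A.prod A).ι] (N s : ℕ) (v : Sec (B.prod B)) :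
    ((SV.full (Wt.one (P.prod P)) (B.prod B)).sc N).nrm s (swpL B v) =
      ((SV.full (Wt.one (P.prod P)) (B.prod B)).sc N).nrm s v :=
  nrm_swap _ (fun _ _ => rfl) _ (fun _ => rfl) N s v

end Crest.Agent.R275.SwOp763
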