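import Crest.Agent.R275.MIh_683
import Crest.Agent.R275.MIg_683
import Crest.Agent.R275.SwLift_763
import Crest.Agent.R275.SwOp_763
import Crest.Agent.R275.LnkP6_476

/-!
# R275, PART I' (helper683): the geometric index

* `geoI P hB : KIndex (smf A)`, `ms` lemmas, degree rule of the homotopy.
* `isCoh_geo` : 476's `IsCoh`.
* `gmodSw` : the instance on `M × M` with the swap.
-/

set_option autoImplicit false
set_option linter.unusedSectionVars false

open Set Filter Topology
open scoped ContDiff Matrix

noncomputable section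

namespace Crest.Agent.R275.MI683

open Module LinearMap Submodule Crest.Agent.R275.Fred685
open NA6b763 Geo Ret666 RetC666 DolG763 Smf798 SmR425 Tor812 FHom556

variable {n : ℕ} {M : Type} [TopologicalSpace M] {A : Atl n M}

section plain

variable [CompactSpace M] [Finite A.ι] (P : Part A) {B : FBun A}
  (hB : ∀ u : Sec B, nabL B (nabL B u) = 0)

@[simp] theorem gmodP_σ (f : smf A) : (gmodP P hB).ms.σ f = f := rfl

@[simp] theorem gmodP_d (u : Sec B) : (gmodP P hB).ms.d u = nabL B u := rfl

@[simp] theorem gmodP_T (u : Sec B) : (gmodP P hB).ms.T u = sg B u := rfl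

theorem gmodP_S : (gmodP P hB).ms.S = scS P B (Geo.topDeg B) := rfl

/-- for the trivial involution the averaged homotopy is the parametrix -/
theorem gmodP_K (u : Sec B) : (gmodP P hB).K u = KML B P u := by
  change (1 / 2 : ℂ) • (KML B P u + KML B P u) = KML B P u
  rw [← two_smul ℂ, smul_smul, one_div_mul_cancel (two_ne_zero' ℂ), one_smul]

theorem gmodP_msK (u : Sec B) :
    (gmodP P hB).ms.K u = KML B P (nabL B (KML B P u)) := by
  change (gmodP P hB).K (nabL B ((gmodP P hB).K u)) = _
  rw [gmodP_K, gmodP_K]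

theorem gmodP_msK_pq (q : ℕ) (u : Sec B) :
    (gmodP P hB).ms.K (pqL B (q + 1) u) = pqL B q ((gmodP P hB).ms.K u) := by
  have h1 : ∀ v : Sec B, KML B P (pqL B (q + 1) v) = pqL B q (KML B P v) := fun v =>
    LinearMap.congr_fun (KML_pqL P q) v
  have h2 : ∀ v : Sec B, nabL B (pqL B q v) = pqL B (q + 1) (nabL B v) := fun v =>
    LinearMap.congr_fun (nabL_pqL q) v
  rw [gmodP_msK, gmodP_msK, h1, h2, h1]

theorem gmodP_msK_zero (u : Sec B) : (gmodP P hB).ms.K (pqL B 0 u) = 0 := by
  have h1 : KML B P (pqL B 0 u) = 0 := LinearMap.congr_fun (KML_pqL_zero P) u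
  rw [gmodP_msK, h1, map_zero, map_zero]

/-- **the geometric index** of idempotent matrices over the smooth functions -/
def geoI : KR798.KIndex (smf A) := (gmodP P hB).ms.kIndex (gmodP_σ P hB)

theorem geoI_ind {N : ℕ} (p : Matrix (Fin N) (Fin N) (smf A)) :
    (geoI P hB).ind p = (gmodP P hB).ms.ind p 1 := rfl

/-- the whole complex -/
theorem dolP_st : FiniteDimensional ℂ (dolP hB).sc.H ∧
    (dolP hB).sc.st = (((gmodP P hB).ms.chi : ℤ) : ℂ) := (gmodP P hB).base

end plain

/-! ### 476's form -/

section coh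

variable {A : Atl 2 M} [CompactSpace M] [Finite A.ι]

theorem isCoh_geo (P : Part A) : LnkP6476.IsCoh (gmodP P (LnkP5476.nabL_sq A)).ms :=
  fun _ _ X h0 => (gmodP P (LnkP5476.nabL_sq A)).super X h0

end coh

/-! ### the swap -/

section swap

variable {A : Atl 2 M} [T2Space M] [CompactSpace M] [Finite A.ι]

instance finite_prod_ι : Finite (A.prod A).ι := inferInstanceAs (Finite (A.ι × A.ι))

/-- the instance on `M × M` for a lift acting by the swap -/
def gmodSwL (P : Part A) {B : FBun A}
    (hB : ∀ u : Sec (B.prod B), nabL (B.prod B) (nabL (B.prod B) u) = 0)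
    (L : Lift (B.prod B)) (hL : L.σ = Prod363.swpL B) : GMod (dolL hB L) :=
  gmodL (P.prod P) (N := Geo.topDeg (B.prod B)) (fun k => deg_le_topDeg k) hB L (by
    rw [hL]
    exact SwOp763.op0_swpL (P := P) (B := B) (Geo.topDeg (B.prod B)))

/-- the instance on `M × M` with the swap -/
def gmodSw (P : Part A) {B : FBun A}
    (hB : ∀ u : Sec (B.prod B), nabL (B.prod B) (nabL (B.prod B) u) = 0) :
    GMod (dolL hB (swLift B)) := gmodSwL P hB (swLift B) rfl

/-- **759's index on `M × M`** -/
def sindSw (P : Part A) {B : FBun A}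
    (hB : ∀ u : Sec (B.prod B), nabL (B.prod B) (nabL (B.prod B) u) = 0) :
    NA8759.SInd (dolL hB (swLift B)) := (gmodSw P hB).sind

end swap

end Crest.Agent.R275.MI683
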