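import Crest.Agent.R275.CIdx_509
import Crest.Agent.R275.MIi_683

/-!
# R275, block C (helper509): the index of a bundle, geometric instance

`M` compact, `[Finite A.ι]`, `P : Part A`, `B : FBun A` with `∇∇ = 0`, `X := (gmodP P hB).ms`:
* 683's `geoI P hB : KIndex (smf A)`;
* for EVERY `E : VBun A` (integrable or not): `indB P' (tw B E) = X.ind (pr P E.sb) 1
  = indE P (geoI P hB) E.sb`;
* integrable bundles: `(scB (tw B E) hE).st = indE P (geoI P hB) E.sb`, finite dimension, Euler
  characteristic.
-/

set_option autoImplicit false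
set_option linter.unusedSectionVars false

open Filter Topology Complex
open scoped ContDiff Matrix ComplexConjugate Kronecker

namespace Crest.Agent.R275.CIdx509

open Module LinearMap Submodule Geo Smf798 KR798 SB798 SmR425 NA3m425 NA6b763 FHom556 DolG763
  Brix509 Fred685 MI683 IndLink509 RetC666 NA7763

noncomputable section

variable {n : ℕ} {M : Type} [TopologicalSpace M] {A : Atl n M} [CompactSpace M] [Finite A.ι]
  (P P' : Part A) {B : FBun A} (hB : ∀ u : Sec B, nabL B (nabL B u) = 0)

theorem kdeg_gmodP : KDeg B (gmodP P hB).K := by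
  have h : (gmodP P hB).K = KML B P := LinearMap.ext fun u => gmodP_K P hB u
  rw [h]
  exact kdeg_KML P B

theorem indE_geoI (E : SB A) : indE P (geoI P hB) E = (gmodP P hB).ms.ind (pr P E) 1 :=
  indE_kIndex P _ _ E

/-- **the index of the twisted bundle is the index of the idempotent** -/
theorem indB_tw (E : VBun A) : indB P' (tw B E) = (gmodP P hB).ms.ind (pr P E.sb) 1 := by
  rw [indB_part P' (tw B E) P]
  exact indB_eq_ind P E (gmodP P hB) le_rfl (gmodP_S P hB) (kdeg_gmodP P hB)

/-- **the same in the ring of classes** -/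
theorem indB_tw_eq_indE (E : VBun A) : indB P' (tw B E) = indE P (geoI P hB) E.sb := by
  rw [indE_geoI, indB_tw P P' hB]

/-- quasi-complexes -/
theorem qc_tw_ind (E : VBun A) (m : ℕ) (hm : topDeg (tw B E) ≤ m) :
    (qc P' (tw B E) m hm).ind = indE P (geoI P hB) E.sb := by
  rw [qc_ind, indB_tw_eq_indE]

include hB in
/-- the index of `tw B E` depends only on the smooth bundle `E.sb` -/
theorem indB_tw_congr {E F : VBun A} (φ : SB.Iso E.sb F.sb) :
    indB P (tw B E) = indB P (tw B F) := by
  rw [indB_tw_eq_indE P P hB, indB_tw_eq_indE P P hB]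
  unfold indE
  rw [cE_congr φ]

/-- integrable bundles -/
theorem st_tw (E : VBun A) (hE : ∀ u : Sec (tw B E), nabL (tw B E) (nabL (tw B E) u) = 0) :
    FiniteDimensional ℂ (scB (tw B E) hE).H ∧
      (scB (tw B E) hE).st = ((indE P (geoI P hB) E.sb : ℤ) : ℂ) := by
  rw [← indB_tw_eq_indE P P hB]
  exact st_scB P (tw B E) hE

/-- **Euler characteristic of an integrable bundle** -/
theorem indE_euler (E : VBun A) (m : ℕ) (hm : topDeg (tw B E) ≤ m)
    (hE : ∀ u : Sec (tw B E), nabL (tw B E) (nabL (tw B E) u) = 0) :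
    (∀ q, FiniteDimensional ℂ (Eul473.Hq (qc P' (tw B E) m hm) q)) ∧
      indE P (geoI P hB) E.sb = ∑ q ∈ Finset.range (m + 1),
        (-1 : ℤ) ^ q * (finrank ℂ (Eul473.Hq (qc P' (tw B E) m hm) q) : ℤ) := by
  obtain ⟨h1, h2⟩ := indB_euler P' (tw B E) m hm hE
  refine ⟨h1, ?_⟩
  rw [← h2, indB_tw_eq_indE P P' hB]

/-- the index functional does not depend on the partition, on bundles -/
theorem indE_part (E : VBun A) : indE P (geoI P hB) E.sb = indE P' (geoI P' hB) E.sb := by
  rw [← indB_tw_eq_indE P P' hB E, ← indB_tw_eq_indE P' P' hB E]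

end

end Crest.Agent.R275.CIdx509
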