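import Crest.Agent.R240.SmInt

/-!
# Row 275, leaf NA2 (helper940): smooth division by a complex coordinate

`E` a real normed space (parameters), `U ⊆ ℂ × E` open, `f : ℂ × E → ℂ` smooth (real `C^∞`) on `U`.

* `dbar`, `dz` : Wirtinger derivatives in the first variable;
* `exists_div` : if all iterated derivatives `dbar^[k] f` vanish at the points `(0, e)` of `U` then
  there is `c`, smooth on `U`, with `f p = p.1 * c p` on `U`;
* `exists_div_of_mul_eq` : if `z * g = h * f` on `U` and `{h ≠ 0}` is dense in `{z = 0} ∩ U` then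
  `f` is divisible by `z` (no condition on `h` besides smoothness);
* `exists_div_pow` : the case `h = w ^ m` for a second complex coordinate `w`.
-/

set_option autoImplicit false
open Set Filter Topology MeasureTheory
open scoped ContDiff ComplexConjugate
set_option linter.unusedSectionVars false
open Crest.Agent.R240.SmJ

namespace Crest.Agent.R275.Div940

noncomputable section

variable {E : Type} [NormedAddCommGroup E] [NormedSpace ℝ E]

/-- the derivative `∂/∂z̄` in the first variable -/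
def dbar (g : ℂ × E → ℂ) (p : ℂ × E) : ℂ :=
  (1 / 2 : ℂ) * (fderiv ℝ g p (1, 0) + Complex.I * fderiv ℝ g p (Complex.I, 0))

/-- the derivative `∂/∂z` in the first variable -/
def dz (g : ℂ × E → ℂ) (p : ℂ × E) : ℂ :=
  (1 / 2 : ℂ) * (fderiv ℝ g p (1, 0) - Complex.I * fderiv ℝ g p (Complex.I, 0))

theorem fderiv_fst (g : ℂ × E → ℂ) (p : ℂ × E) (z : ℂ) :
    fderiv ℝ g p (z, 0) = z * dz g p + conj z * dbar g p := by
  have h : (z, (0 : E)) = z.re • ((1 : ℂ), (0 : E)) + z.im • (Complex.I, (0 : E)) := by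
    ext
    · simp [Complex.real_smul]
    · simp
  rw [h, map_add, map_smul, map_smul, Complex.real_smul, Complex.real_smul]
  unfold dz dbar
  have h1 : z = z.re + z.im * Complex.I := (Complex.re_add_im z).symm
  have h2 : conj z = z.re - z.im * Complex.I := by
    apply Complex.ext <;> simp
  rw [h2]
  conv_rhs => rw [h1]
  have h3 : ∀ w : ℂ, ((w.re : ℂ) + w.im * Complex.I).re = w.re := by intro w; simp
  simp only [Complex.add_re, Complex.ofReal_re, Complex.mul_re, Complex.I_re, mul_zero,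
    Complex.ofReal_im, Complex.I_im, mul_one, sub_self, add_zero, Complex.add_im, Complex.mul_im,
    zero_add]
  ring_nf
  simp only [Complex.I_sq]
  ring

theorem contDiffOn_fderiv_apply {U : Set (ℂ × E)} (hU : IsOpen U) {g : ℂ × E → ℂ}
    (hg : ContDiffOn ℝ ∞ g U) (v : ℂ × E) : ContDiffOn ℝ ∞ (fun p => fderiv ℝ g p v) U :=
  (hg.fderiv_of_isOpen hU (m := ∞) (by simp)).clm_apply contDiffOn_const

theorem contDiffOn_dbar {U : Set (ℂ × E)} (hU : IsOpen U) {g : ℂ × E → ℂ}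
    (hg : ContDiffOn ℝ ∞ g U) : ContDiffOn ℝ ∞ (dbar g) U :=
  contDiffOn_const.mul ((contDiffOn_fderiv_apply hU hg _).add
    (contDiffOn_const.mul (contDiffOn_fderiv_apply hU hg _)))

theorem contDiffOn_dz {U : Set (ℂ × E)} (hU : IsOpen U) {g : ℂ × E → ℂ}
    (hg : ContDiffOn ℝ ∞ g U) : ContDiffOn ℝ ∞ (dz g) U :=
  contDiffOn_const.mul ((contDiffOn_fderiv_apply hU hg _).sub
    (contDiffOn_const.mul (contDiffOn_fderiv_apply hU hg _)))

theorem contDiffOn_dbar_iter {U : Set (ℂ × E)} (hU : IsOpen U) {g : ℂ × E → ℂ}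
    (hg : ContDiffOn ℝ ∞ g U) (k : ℕ) : ContDiffOn ℝ ∞ (dbar^[k] g) U := by
  induction k with
  | zero => simpa using hg
  | succ k ih => rw [Function.iterate_succ_apply']; exact contDiffOn_dbar hU ih

theorem dbar_congr {U : Set (ℂ × E)} (hU : IsOpen U) {g h : ℂ × E → ℂ} (hgh : EqOn g h U) :
    EqOn (dbar g) (dbar h) U := by
  intro p hp
  have : fderiv ℝ g p = fderiv ℝ h p :=
    (hgh.eventuallyEq_of_mem (hU.mem_nhds hp)).fderiv_eq
  simp only [dbar, this]

theorem dbar_iter_congr {U : Set (ℂ × E)} (hU : IsOpen U) {g h : ℂ × E → ℂ} (hgh : EqOn g h U)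
    (k : ℕ) : EqOn (dbar^[k] g) (dbar^[k] h) U := by
  induction k with
  | zero => simpa using hgh
  | succ k ih =>
    rw [Function.iterate_succ_apply', Function.iterate_succ_apply']
    exact dbar_congr hU ih

/-- star shaped in the first variable -/
def Star (U : Set (ℂ × E)) : Prop := ∀ p ∈ U, ∀ s ∈ Icc (0 : ℝ) 1, (s • p.1, p.2) ∈ U

/-- the integrand of the Hadamard integral -/
def IG (m : ℕ) (g : ℂ × E → ℂ) (q : (ℂ × E) × ℝ) : ℂ :=
  ((q.2 : ℂ) ^ m) * g (q.2 • q.1.1, q.1.2)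

/-- the Hadamard integral -/
def II (m : ℕ) (g : ℂ × E → ℂ) (p : ℂ × E) : ℂ := ∫ s in Icc (0 : ℝ) 1, IG m g (p, s)

/-- the scaled domain -/
def SU (U : Set (ℂ × E)) : Set ((ℂ × E) × ℝ) := {q | (q.2 • q.1.1, q.1.2) ∈ U}

theorem isOpen_SU {U : Set (ℂ × E)} (hU : IsOpen U) : IsOpen (SU U) :=
  hU.preimage (by fun_prop)

theorem subset_SU {U : Set (ℂ × E)} (hS : Star U) : U ×ˢ Icc (0 : ℝ) 1 ⊆ SU U :=
  fun q hq => hS q.1 hq.1 q.2 hq.2

theorem contDiffOn_IG {U : Set (ℂ × E)} (m : ℕ) {g : ℂ × E → ℂ}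
    (hg : ContDiffOn ℝ ∞ g U) : ContDiffOn ℝ ∞ (IG m g) (SU U) := by
  unfold IG
  refine ContDiffOn.mul ?_ ?_
  · refine ContDiff.contDiffOn ?_
    have : ContDiff ℝ ∞ (fun q : (ℂ × E) × ℝ => ((q.2 : ℝ) : ℂ)) :=
      Complex.ofRealCLM.contDiff.comp contDiff_snd
    exact this.pow m
  · have h1 : ContDiff ℝ ∞ (fun q : (ℂ × E) × ℝ => (q.2 • q.1.1, q.1.2)) := by
      fun_prop
    exact hg.comp h1.contDiffOn (fun q hq => hq)

theorem contDiffOn_II {U : Set (ℂ × E)} (hU : IsOpen U) (hS : Star U) (m : ℕ) {g : ℂ × E → ℂ}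
    (hg : ContDiffOn ℝ ∞ g U) : ContDiffOn ℝ ∞ (II m g) U := by
  have h := contDiffOn_integral (E := ℂ × E) (E' := ℝ) (V := ℂ) (g := IG m g) (K := Icc (0 : ℝ) 1)
    (isOpen_SU hU) hU isCompact_Icc (subset_SU hS) volume (contDiffOn_IG m hg)
  exact h

theorem dx_IG {U : Set (ℂ × E)} (hU : IsOpen U) (m : ℕ) {g : ℂ × E → ℂ}
    (hg : ContDiffOn ℝ ∞ g U) {p : ℂ × E} {s : ℝ} (hp : (p, s) ∈ SU U) (v : ℂ) :
    dx (IG m g) (p, s) (v, 0)
      = ((s : ℂ) ^ (m + 1)) * fderiv ℝ g (s • p.1, p.2) (v, 0) := by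
  have hd : DifferentiableAt ℝ (IG m g) (p, s) :=
    ((contDiffOn_IG m hg).contDiffAt ((isOpen_SU hU).mem_nhds hp)).differentiableAt (by simp)
  have h1 : HasFDerivAt (fun x => IG m g (x, s)) (dx (IG m g) (p, s)) p :=
    hasFDerivAt_dx (p := (p, s)) hd
  have hgd : DifferentiableAt ℝ g (s • p.1, p.2) :=
    (hg.contDiffAt (hU.mem_nhds hp)).differentiableAt (by simp)
  let L : ℂ × E →L[ℝ] ℂ × E := (s • ContinuousLinearMap.fst ℝ ℂ E).prod
    (ContinuousLinearMap.snd ℝ ℂ E)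
  have hL : HasFDerivAt (fun x : ℂ × E => (s • x.1, x.2)) L p := L.hasFDerivAt
  have h2 : HasFDerivAt (fun x => IG m g (x, s))
      (((s : ℂ) ^ m) • ((fderiv ℝ g (s • p.1, p.2)).comp L)) p := by
    have h3 : HasFDerivAt (fun x : ℂ × E => g (s • x.1, x.2))
        ((fderiv ℝ g (s • p.1, p.2)).comp L) p :=
      HasFDerivAt.comp p (by exact hgd.hasFDerivAt) hL
    change HasFDerivAt (fun x : ℂ × E => ((s : ℂ) ^ m) * g (s • x.1, x.2)) _ p
    exact h3.const_mul _
  rw [h1.unique h2]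
  have h4 : L (v, 0) = s • ((v, 0) : ℂ × E) := by
    ext
    · simp [L]
    · simp [L]
  rw [smul_apply, ContinuousLinearMap.comp_apply, h4, map_smul]
  rw [Complex.real_smul, smul_eq_mul, pow_succ]
  ring

theorem fderiv_II {U : Set (ℂ × E)} (hU : IsOpen U) (hS : Star U) (m : ℕ) {g : ℂ × E → ℂ}
    (hg : ContDiffOn ℝ ∞ g U) {p : ℂ × E} (hp : p ∈ U) (v : ℂ) :
    fderiv ℝ (II m g) p (v, 0)
      = ∫ s in Icc (0 : ℝ) 1, ((s : ℂ) ^ (m + 1)) * fderiv ℝ g (s • p.1, p.2) (v, 0) := by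
  have h := hasFDerivAt_integral (E := ℂ × E) (E' := ℝ) (V := ℂ) (g := IG m g)
    (K := Icc (0 : ℝ) 1) (isOpen_SU hU) hU isCompact_Icc (subset_SU hS) volume
    (contDiffOn_IG m hg) hp
  have h' : HasFDerivAt (II m g) (∫ y in Icc (0 : ℝ) 1, dx (IG m g) (p, y)) p := h
  rw [h'.fderiv]
  have hint : Integrable (fun s => dx (IG m g) (p, s)) (volume.restrict (Icc (0 : ℝ) 1)) := by
    have hc : ContinuousOn (fun s => dx (IG m g) (p, s)) (Icc (0 : ℝ) 1) := by
      have h1 : ContinuousOn (dx (IG m g)) (SU U) :=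
        (contDiffOn_dx (E := ℂ × E) (E' := ℝ) (V := ℂ) (g := IG m g) (s := SU U)
          (isOpen_SU hU) (contDiffOn_IG m hg)).continuousOn
      refine h1.comp (f := fun s : ℝ => (p, s)) (by fun_prop) ?_
      intro s hs
      exact subset_SU hS ⟨hp, hs⟩
    exact hc.integrableOn_Icc
  rw [ContinuousLinearMap.integral_apply hint]
  refine setIntegral_congr_fun measurableSet_Icc fun s hs => ?_
  exact dx_IG hU m hg (subset_SU hS ⟨hp, hs⟩) v

theorem cont_aux {U : Set (ℂ × E)} (hU : IsOpen U) (hS : Star U) (m : ℕ) {g : ℂ × E → ℂ}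
    (hg : ContDiffOn ℝ ∞ g U) {p : ℂ × E} (hp : p ∈ U) (v : ℂ × E) :
    ContinuousOn (fun s : ℝ => ((s : ℂ) ^ m) * fderiv ℝ g (s • p.1, p.2) v) (Icc (0 : ℝ) 1) := by
  refine ContinuousOn.mul (by fun_prop) ?_
  refine (contDiffOn_fderiv_apply hU hg v).continuousOn.comp
    (f := fun s : ℝ => (s • p.1, p.2)) (by fun_prop) ?_
  intro s hs
  exact hS p hp s hs

theorem dbar_II {U : Set (ℂ × E)} (hU : IsOpen U) (hS : Star U) (m : ℕ) {g : ℂ × E → ℂ}
    (hg : ContDiffOn ℝ ∞ g U) : EqOn (dbar (II m g)) (II (m + 1) (dbar g)) U := by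
  intro p hp
  have h1 := fderiv_II hU hS m hg hp 1
  have h2 := fderiv_II hU hS m hg hp Complex.I
  have i1 : IntegrableOn (fun s : ℝ => ((s : ℂ) ^ (m + 1)) * fderiv ℝ g (s • p.1, p.2) (1, 0))
      (Icc (0 : ℝ) 1) := (cont_aux hU hS (m + 1) hg hp _).integrableOn_Icc
  have i2 : IntegrableOn (fun s : ℝ => ((s : ℂ) ^ (m + 1)) *
      fderiv ℝ g (s • p.1, p.2) (Complex.I, 0))
      (Icc (0 : ℝ) 1) := (cont_aux hU hS (m + 1) hg hp _).integrableOn_Icc
  unfold dbar
  rw [h1, h2, ← integral_const_mul, ← integral_add i1 (i2.const_mul _), ← integral_const_mul]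
  unfold II
  refine setIntegral_congr_fun measurableSet_Icc fun s hs => ?_
  simp only [IG]
  ring

theorem dbar_iter_II {U : Set (ℂ × E)} (hU : IsOpen U) (hS : Star U) {g : ℂ × E → ℂ}
    (hg : ContDiffOn ℝ ∞ g U) (k m : ℕ) :
    EqOn (dbar^[k] (II m g)) (II (m + k) (dbar^[k] g)) U := by
  induction k with
  | zero => intro p _; rfl
  | succ k ih =>
    intro p hp
    rw [Function.iterate_succ_apply', Function.iterate_succ_apply']
    rw [dbar_congr hU ih hp]
    exact dbar_II hU hS (m + k) (contDiffOn_dbar_iter hU hg k) hp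

theorem II_zero (m : ℕ) (g : ℂ × E → ℂ) (e : E) (h : g (0, e) = 0) : II m g (0, e) = 0 := by
  unfold II IG
  simp [h]

/-- all `z̄`-derivatives vanish on `z = 0` -/
def Van (U : Set (ℂ × E)) (g : ℂ × E → ℂ) : Prop :=
  ∀ (k : ℕ) (e : E), ((0 : ℂ), e) ∈ U → dbar^[k] g (0, e) = 0

theorem Van.II {U : Set (ℂ × E)} (hU : IsOpen U) (hS : Star U) {g : ℂ × E → ℂ}
    (hg : ContDiffOn ℝ ∞ g U) (h : Van U g) : Van U (II 0 (dbar g)) := by
  intro k e he
  rw [dbar_iter_II hU hS (contDiffOn_dbar hU hg) k 0 he]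
  apply II_zero
  have := h (k + 1) e he
  rwa [Function.iterate_succ_apply] at this

/-- Hadamard's lemma -/
theorem hadamard {U : Set (ℂ × E)} (hU : IsOpen U) (hS : Star U) {g : ℂ × E → ℂ}
    (hg : ContDiffOn ℝ ∞ g U) {p : ℂ × E} (hp : p ∈ U) :
    g p = g (0, p.2) + p.1 * II 0 (dz g) p + conj p.1 * II 0 (dbar g) p := by
  have hderiv : ∀ s ∈ uIcc (0 : ℝ) 1, HasDerivAt (fun s : ℝ => g (s • p.1, p.2))
      (fderiv ℝ g (s • p.1, p.2) (p.1, 0)) s := by
    intro s hs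
    rw [uIcc_of_le zero_le_one] at hs
    have hgd : DifferentiableAt ℝ g (s • p.1, p.2) :=
      (hg.contDiffAt (hU.mem_nhds (hS p hp s hs))).differentiableAt (by simp)
    have h1 : HasDerivAt (fun s : ℝ => (s • p.1, p.2)) (p.1, (0 : E)) s := by
      refine HasDerivAt.prodMk ?_ (hasDerivAt_const _ _)
      simpa using (hasDerivAt_id s).smul_const p.1
    exact hgd.hasFDerivAt.comp_hasDerivAt s h1
  have hcont : ContinuousOn (fun s : ℝ => fderiv ℝ g (s • p.1, p.2) (p.1, 0)) (Icc (0 : ℝ) 1) := by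
    have := cont_aux hU hS 0 hg hp (p.1, 0)
    simpa using this
  have hint : IntervalIntegrable (fun s : ℝ => fderiv ℝ g (s • p.1, p.2) (p.1, 0)) volume 0 1 :=
    ContinuousOn.intervalIntegrable_of_Icc zero_le_one hcont
  have hftc := intervalIntegral.integral_eq_sub_of_hasDerivAt hderiv hint
  rw [intervalIntegral.integral_of_le zero_le_one, ← integral_Icc_eq_integral_Ioc] at hftc
  simp only [one_smul, zero_smul] at hftc
  have h0 : ∫ s in Icc (0 : ℝ) 1, fderiv ℝ g (s • p.1, p.2) (p.1, 0)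
      = p.1 * II 0 (dz g) p + conj p.1 * II 0 (dbar g) p := by
    unfold II
    have c1 : ContinuousOn (fun s : ℝ => IG 0 (dz g) (p, s)) (Icc (0 : ℝ) 1) := by
      refine (contDiffOn_IG 0 (contDiffOn_dz hU hg)).continuousOn.comp
        (f := fun s : ℝ => (p, s)) (by fun_prop) ?_
      intro s hs
      exact subset_SU hS ⟨hp, hs⟩
    have c2 : ContinuousOn (fun s : ℝ => IG 0 (dbar g) (p, s)) (Icc (0 : ℝ) 1) := by
      refine (contDiffOn_IG 0 (contDiffOn_dbar hU hg)).continuousOn.comp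
        (f := fun s : ℝ => (p, s)) (by fun_prop) ?_
      intro s hs
      exact subset_SU hS ⟨hp, hs⟩
    have i1 : IntegrableOn (fun s : ℝ => p.1 * IG 0 (dz g) (p, s)) (Icc (0 : ℝ) 1) :=
      (continuousOn_const.mul c1).integrableOn_Icc
    have i2 : IntegrableOn (fun s : ℝ => conj p.1 * IG 0 (dbar g) (p, s)) (Icc (0 : ℝ) 1) :=
      (continuousOn_const.mul c2).integrableOn_Icc
    rw [← integral_const_mul, ← integral_const_mul, ← integral_add i1 i2]
    refine setIntegral_congr_fun measurableSet_Icc fun s hs => ?_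
    simp only [IG, pow_zero, one_mul]
    exact fderiv_fst g _ p.1
  rw [h0] at hftc
  have h5 : g p = g (p.1, p.2) := rfl
  rw [h5]
  linear_combination -hftc

/-- the expansion `g = z A + z̄ ^ N B` -/
theorem exists_decomp {U : Set (ℂ × E)} (hU : IsOpen U) (hS : Star U) {g : ℂ × E → ℂ}
    (hg : ContDiffOn ℝ ∞ g U) (hv : Van U g) (N : ℕ) :
    ∃ A B : ℂ × E → ℂ, ContDiffOn ℝ ∞ A U ∧ ContDiffOn ℝ ∞ B U ∧ Van U B ∧
      ∀ p ∈ U, g p = p.1 * A p + (conj p.1) ^ N * B p := by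
  induction N with
  | zero =>
    refine ⟨fun _ => 0, g, contDiffOn_const, hg, hv, fun p _ => by simp⟩
  | succ N ih =>
    obtain ⟨A, B, hA, hB, hvB, h⟩ := ih
    refine ⟨fun p => A p + (conj p.1) ^ N * II 0 (dz B) p, II 0 (dbar B), ?_,
      contDiffOn_II hU hS 0 (contDiffOn_dbar hU hB), hvB.II hU hS hB, ?_⟩
    · refine hA.add (ContDiffOn.mul ?_ (contDiffOn_II hU hS 0 (contDiffOn_dz hU hB)))
      have : ContDiff ℝ ∞ (fun p : ℂ × E => (conj p.1 : ℂ)) :=
        Complex.conjCLE.contDiff.comp contDiff_fst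
      exact (this.pow N).contDiffOn
    · intro p hp
      have h0 : B (0, p.2) = 0 := by
        have h1 : ((0 : ℂ), p.2) ∈ U := by
          have := hS p hp 0 (by simp)
          simpa using this
        simpa using hvB 0 p.2 h1
      have h1 := hadamard hU hS hB hp
      rw [h0, zero_add] at h1
      rw [h p hp, h1, pow_succ]
      ring

/-- `z̄ ^ N / z ^ m` -/
def hh (N m : ℕ) (z : ℂ) : ℂ := (conj z) ^ N / z ^ m

theorem norm_hh {N m : ℕ} (h : m ≤ N) (hN : 1 ≤ N) (z : ℂ) (hz : N = m → z ≠ 0) :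
    ‖hh N m z‖ = ‖z‖ ^ (N - m) := by
  unfold hh
  rw [norm_div, norm_pow, norm_pow, Complex.norm_conj]
  by_cases h0 : z = 0
  · subst h0
    have h1 : N ≠ m := fun e => hz e rfl
    have h2 : N - m ≠ 0 := by omega
    simp only [norm_zero]
    rw [zero_pow (by omega : N ≠ 0), zero_pow h2, zero_div]
  · have h1 : ‖z‖ ^ m ≠ 0 := pow_ne_zero _ (norm_ne_zero_iff.2 h0)
    rw [div_eq_iff h1, ← pow_add, Nat.sub_add_cancel h]

/-- the derivative of `hh` -/
def dhh (N m : ℕ) (z : ℂ) : ℂ →L[ℝ] ℂ :=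
  ((N : ℂ) * hh (N - 1) m z) • (Complex.conjCLE : ℂ →L[ℝ] ℂ)
    - ((m : ℂ) * hh N (m + 1) z) • (ContinuousLinearMap.id ℝ ℂ)

theorem hasFDerivAt_hh {N m : ℕ} (h : m + 2 ≤ N) (z : ℂ) :
    HasFDerivAt (hh N m) (dhh N m z) z := by
  by_cases hz : z = 0
  · subst hz
    have e1 : dhh N m 0 = 0 := by
      have a1 : hh (N - 1) m 0 = 0 := by
        unfold hh; rw [map_zero, zero_pow (by omega), zero_div]
      have a2 : hh N (m + 1) 0 = 0 := by
        unfold hh; rw [map_zero, zero_pow (by omega), zero_div]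
      unfold dhh
      rw [a1, a2]
      ext v
      simp
    rw [e1]
    have e2 : hh N m 0 = 0 := by unfold hh; rw [map_zero, zero_pow (by omega), zero_div]
    rw [hasFDerivAt_iff_isLittleO_nhds_zero]
    simp only [zero_add, e2, sub_zero, zero_apply]
    refine Asymptotics.IsLittleO.of_norm_left ?_
    have e3 : (fun z : ℂ => ‖hh N m z‖) = fun z => ‖z‖ ^ (N - m) := by
      funext z
      exact norm_hh (by omega) (by omega) z (fun e => by omega)
    rw [e3]
    have : (fun z : ℂ => ‖z‖ ^ (N - m)) =o[𝓝 0] fun z : ℂ => ‖z‖ ^ 1 := by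
      exact Asymptotics.isLittleO_pow_pow (𝕜 := ℝ) (by omega : 1 < N - m) |>.comp_tendsto
        (tendsto_norm_zero)
    simp only [pow_one] at this
    exact this.of_norm_right
  · have h1 : HasFDerivAt (fun z : ℂ => (conj z : ℂ)) (Complex.conjCLE : ℂ →L[ℝ] ℂ) z :=
      (Complex.conjCLE : ℂ →L[ℝ] ℂ).hasFDerivAt
    have h2 : HasFDerivAt (fun z : ℂ => (conj z : ℂ) ^ N)
        (((N : ℂ) * (conj z) ^ (N - 1)) • (Complex.conjCLE : ℂ →L[ℝ] ℂ)) z := by
      have := h1.pow N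
      simpa [nsmul_eq_mul, smul_smul] using this
    have hzm : z ^ m ≠ 0 := pow_ne_zero _ hz
    have h3 : HasFDerivAt (fun z : ℂ => (z ^ m)⁻¹) ((-((m : ℂ) * z ^ (m - 1)) / (z ^ m) ^ 2) •
        (ContinuousLinearMap.id ℝ ℂ)) z := by
      have h5 : HasDerivAt (fun z : ℂ => (z ^ m)⁻¹) (-((m : ℂ) * z ^ (m - 1)) / (z ^ m) ^ 2) z :=
        (hasDerivAt_pow m z).inv hzm
      have h6 := h5.hasFDerivAt.restrictScalars ℝ
      refine h6.congr_fderiv ?_
      ext v
      simp [mul_comm]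
    have h4 := h2.mul h3
    refine (h4.congr_fderiv ?_).congr_of_eventuallyEq ?_
    · ext v
      simp only [dhh, hh, sub_apply, smul_apply,
        add_apply, smul_eq_mul, ContinuousLinearMap.id_apply]
      rcases m with _ | m
      · simp
        try ring
      · simp only [Nat.add_sub_cancel]
        field_simp
        try ring
    · exact Filter.Eventually.of_forall fun z => by simp [hh, div_eq_mul_inv]

theorem contDiff_hh (k : ℕ) : ∀ {N m : ℕ}, m + 1 + k ≤ N → ContDiff ℝ k (hh N m) := by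
  induction k with
  | zero =>
    intro N m h
    rw [Nat.cast_zero, contDiff_zero, continuous_iff_continuousAt]
    intro z
    by_cases hz : z = 0
    · subst hz
      have e2 : hh N m 0 = 0 := by unfold hh; rw [map_zero, zero_pow (by omega), zero_div]
      unfold ContinuousAt
      rw [e2, tendsto_zero_iff_norm_tendsto_zero]
      have e3 : (fun z : ℂ => ‖hh N m z‖) = fun z => ‖z‖ ^ (N - m) := by
        funext z
        exact norm_hh (by omega) (by omega) z (fun e => by omega)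
      rw [e3]
      have h5 : Continuous fun z : ℂ => ‖z‖ ^ (N - m) := by fun_prop
      have h6 := h5.tendsto 0
      simpa [zero_pow (by omega : N - m ≠ 0)] using h6
    · unfold hh
      refine ContinuousAt.div (by fun_prop) (by fun_prop) (pow_ne_zero _ hz)
  | succ k ih =>
    intro N m h
    rw [Nat.cast_add, Nat.cast_one, contDiff_succ_iff_hasFDerivAt]
    refine ⟨dhh N m, ?_, fun z => hasFDerivAt_hh (by omega) z⟩
    unfold dhh
    have h1 : ContDiff ℝ k (hh (N - 1) m) := ih (by omega)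
    have h2 : ContDiff ℝ k (hh N (m + 1)) := ih (by omega)
    exact ((contDiff_const.mul h1).smul contDiff_const).sub
      ((contDiff_const.mul h2).smul contDiff_const)

/-- the quotient `f / z`, completed on `z = 0` by the derivative -/
def quo (f : ℂ × E → ℂ) (p : ℂ × E) : ℂ :=
  open Classical in if p.1 = 0 then fderiv ℝ f p (1, 0) else f p / p.1

theorem quo_mul {f : ℂ × E → ℂ} {p : ℂ × E} (h : p.1 = 0 → f p = 0) : f p = p.1 * quo f p := by
  unfold quo
  split_ifs with h0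
  · rw [h h0, h0, zero_mul]
  · rw [mul_div_cancel₀ _ h0]

theorem contDiffOn_quo_star {U : Set (ℂ × E)} (hU : IsOpen U) (hS : Star U) {f : ℂ × E → ℂ}
    (hf : ContDiffOn ℝ ∞ f U) (hv : Van U f) : ContDiffOn ℝ ∞ (quo f) U := by
  rw [contDiffOn_infty]
  intro k
  obtain ⟨A, B, hA, hB, hvB, h⟩ := exists_decomp hU hS hf hv (k + 2)
  have key : ∀ p ∈ U, quo f p = A p + hh (k + 2) 1 p.1 * B p := by
    intro p hp
    unfold quo
    split_ifs with h0
    · have e0 : hh (k + 2) 1 p.1 = 0 := by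
        unfold hh; rw [h0, map_zero, zero_pow (by omega), zero_div]
      rw [e0, zero_mul, add_zero]
      -- derivative along the real axis
      have hgd : DifferentiableAt ℝ f p :=
        (hf.contDiffAt (hU.mem_nhds hp)).differentiableAt (by simp)
      have hAd : DifferentiableAt ℝ A p :=
        (hA.contDiffAt (hU.mem_nhds hp)).differentiableAt (by simp)
      have hBd : DifferentiableAt ℝ B p :=
        (hB.contDiffAt (hU.mem_nhds hp)).differentiableAt (by simp)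
      have h1 : HasFDerivAt (fun q : ℂ × E => q.1 * A q + (conj q.1) ^ (k + 2) * B q)
          ((p.1 • fderiv ℝ A p + A p • ContinuousLinearMap.fst ℝ ℂ E)
            + (((conj p.1) ^ (k + 2)) • fderiv ℝ B p
              + B p • ((((k + 2 : ℕ) : ℂ) * (conj p.1) ^ (k + 2 - 1)) •
                ((Complex.conjCLE : ℂ →L[ℝ] ℂ).comp (ContinuousLinearMap.fst ℝ ℂ E))))) p := by
        refine HasFDerivAt.add ?_ ?_
        · exact (ContinuousLinearMap.fst ℝ ℂ E).hasFDerivAt.mul hAd.hasFDerivAt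
        · refine HasFDerivAt.mul ?_ hBd.hasFDerivAt
          have h2 : HasFDerivAt (fun q : ℂ × E => (conj q.1 : ℂ))
              ((Complex.conjCLE : ℂ →L[ℝ] ℂ).comp (ContinuousLinearMap.fst ℝ ℂ E)) p :=
            ((Complex.conjCLE : ℂ →L[ℝ] ℂ).comp (ContinuousLinearMap.fst ℝ ℂ E)).hasFDerivAt
          have := h2.pow (k + 2)
          simpa [nsmul_eq_mul, smul_smul] using this
      have h3 : fderiv ℝ f p = _ := ((h1.congr_of_eventuallyEq
        ((hU.eventually_mem hp).mono fun q hq => h q hq))).fderiv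
      rw [h3]
      simp [h0]
    · rw [h p hp]
      unfold hh
      field_simp
  refine ContDiffOn.congr ?_ key
  refine (hA.of_le (by exact_mod_cast le_top)).add (ContDiffOn.mul ?_
    (hB.of_le (by exact_mod_cast le_top)))
  have h4 : ContDiff ℝ k (hh (k + 2) 1) := contDiff_hh k (by omega)
  exact (h4.comp contDiff_fst).contDiffOn

theorem contDiffOn_quo {U : Set (ℂ × E)} (hU : IsOpen U) {f : ℂ × E → ℂ}
    (hf : ContDiffOn ℝ ∞ f U) (hv : Van U f) : ContDiffOn ℝ ∞ (quo f) U := by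
  intro p hp
  apply ContDiffAt.contDiffWithinAt
  by_cases h0 : p.1 = 0
  · obtain ⟨a, b, ha, hb, ha0, hb0, hab⟩ :=
      isOpen_prod_iff.1 hU p.1 p.2 hp
    obtain ⟨r, hr, hra⟩ := Metric.isOpen_iff.1 ha p.1 ha0
    rw [h0] at hra
    let U' : Set (ℂ × E) := Metric.ball 0 r ×ˢ b
    have hU' : IsOpen U' := Metric.isOpen_ball.prod hb
    have hUU : U' ⊆ U := (prod_mono hra subset_rfl).trans hab
    have hS' : Star U' := by
      intro q hq s hs
      refine ⟨?_, hq.2⟩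
      have h1 : ‖q.1‖ < r := by simpa using hq.1
      rw [mem_ball_zero_iff, norm_smul, Real.norm_of_nonneg hs.1]
      calc s * ‖q.1‖ ≤ 1 * ‖q.1‖ := by
            exact mul_le_mul_of_nonneg_right hs.2 (norm_nonneg _)
        _ < r := by rw [one_mul]; exact h1
    have hv' : Van U' f := fun k e he => hv k e (hUU he)
    have h2 := contDiffOn_quo_star hU' hS' (hf.mono hUU) hv'
    refine h2.contDiffAt (hU'.mem_nhds ⟨?_, hb0⟩)
    rw [h0]
    exact Metric.mem_ball_self hr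
  · have h1 : ContDiffAt ℝ ∞ (fun q : ℂ × E => f q * (q.1)⁻¹) p := by
      refine (hf.contDiffAt (hU.mem_nhds hp)).mul ?_
      exact contDiffAt_fst.inv h0
    refine h1.congr_of_eventuallyEq ?_
    have h2 : ∀ᶠ q : ℂ × E in 𝓝 p, q.1 ≠ 0 :=
      (continuous_fst.tendsto p).eventually_ne h0
    filter_upwards [h2] with q hq
    unfold quo
    rw [if_neg hq, div_eq_mul_inv]

/-- **smooth division**: NA2 of doc 1022 -/
theorem exists_div {U : Set (ℂ × E)} (hU : IsOpen U) {f : ℂ × E → ℂ}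
    (hf : ContDiffOn ℝ ∞ f U) (hv : Van U f) :
    ∃ c : ℂ × E → ℂ, ContDiffOn ℝ ∞ c U ∧ ∀ p ∈ U, f p = p.1 * c p := by
  refine ⟨quo f, contDiffOn_quo hU hf hv, fun p hp => quo_mul fun h0 => ?_⟩
  have h1 : p = (0, p.2) := by rw [← h0]
  have := hv 0 p.2 (by rw [← h1]; exact hp)
  rw [h1]
  simpa using this

theorem dbar_fst_mul {V : Set (ℂ × E)} (hV : IsOpen V) {u : ℂ × E → ℂ}
    (hu : ContDiffOn ℝ ∞ u V) : EqOn (dbar fun p => p.1 * u p) (fun p => p.1 * dbar u p) V := by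
  intro p hp
  have hud : DifferentiableAt ℝ u p :=
    (hu.contDiffAt (hV.mem_nhds hp)).differentiableAt (by simp)
  have h1 : HasFDerivAt (fun q : ℂ × E => q.1 * u q)
      (p.1 • fderiv ℝ u p + u p • ContinuousLinearMap.fst ℝ ℂ E) p :=
    (ContinuousLinearMap.fst ℝ ℂ E).hasFDerivAt.mul hud.hasFDerivAt
  unfold dbar
  rw [h1.fderiv]
  simp only [add_apply, smul_apply, smul_eq_mul,
    ContinuousLinearMap.coe_fst']
  have h2 := Complex.I_mul_I
  linear_combination (1 / 2 * u p) * h2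

theorem dbar_iter_fst_mul {V : Set (ℂ × E)} (hV : IsOpen V) {u : ℂ × E → ℂ}
    (hu : ContDiffOn ℝ ∞ u V) (k : ℕ) :
    EqOn (dbar^[k] fun p => p.1 * u p) (fun p => p.1 * (dbar^[k] u) p) V := by
  induction k with
  | zero => intro p _; rfl
  | succ k ih =>
    rw [Function.iterate_succ_apply', Function.iterate_succ_apply']
    exact (dbar_congr hV ih).trans (dbar_fst_mul hV (contDiffOn_dbar_iter hV hu k))

/-- if `z g = h f` and `h ≠ 0` on a dense subset of `{z = 0}` then `z ∣ f` -/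
theorem van_of_mul_eq {U : Set (ℂ × E)} (hU : IsOpen U) {f g h : ℂ × E → ℂ}
    (hf : ContDiffOn ℝ ∞ f U) (hg : ContDiffOn ℝ ∞ g U) (hh : ContDiffOn ℝ ∞ h U)
    (heq : ∀ p ∈ U, p.1 * g p = h p * f p)
    (hd : ∀ e : E, ((0 : ℂ), e) ∈ U → e ∈ closure {e' : E | ((0 : ℂ), e') ∈ U ∧ h (0, e') ≠ 0}) :
    Van U f := by
  -- the case `h ≠ 0`
  have key : ∀ (k : ℕ) (e : E), ((0 : ℂ), e) ∈ U → h (0, e) ≠ 0 → dbar^[k] f (0, e) = 0 := by
    intro k e he hne
    let V : Set (ℂ × E) := U ∩ {p | h p ≠ 0}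
    have hV : IsOpen V := by
      have := hh.continuousOn.isOpen_inter_preimage hU (isOpen_ne (x := (0 : ℂ)))
      exact this
    have hVU : V ⊆ U := inter_subset_left
    have hu : ContDiffOn ℝ ∞ (fun p => g p * (h p)⁻¹) V :=
      (hg.mono hVU).mul ((hh.mono hVU).inv fun p hp => hp.2)
    have h1 : EqOn f (fun p => p.1 * (g p * (h p)⁻¹)) V := by
      intro p hp
      have h2 := heq p hp.1
      have h3 : h p ≠ 0 := hp.2
      change f p = p.1 * (g p * (h p)⁻¹)
      rw [← mul_assoc, h2]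
      field_simp
    have h2 := dbar_iter_congr hV h1 k (x := ((0 : ℂ), e)) ⟨he, hne⟩
    rw [h2, dbar_iter_fst_mul hV hu k ⟨he, hne⟩]
    simp
  intro k e he
  have hc : ContinuousOn (dbar^[k] f) U := (contDiffOn_dbar_iter hU hf k).continuousOn
  have hca : ContinuousAt (fun e' : E => dbar^[k] f ((0 : ℂ), e')) e := by
    have h1 : ContinuousAt (dbar^[k] f) ((0 : ℂ), e) := hc.continuousAt (hU.mem_nhds he)
    have h2 : ContinuousAt (fun e' : E => ((0 : ℂ), e')) e := by fun_prop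
    exact ContinuousAt.comp (f := fun e' : E => ((0 : ℂ), e')) h1 h2
  by_contra hne
  have h3 : ∀ᶠ e' in 𝓝 e, dbar^[k] f ((0 : ℂ), e') ≠ 0 := hca.eventually_ne hne
  obtain ⟨e', he', hne'⟩ := mem_closure_iff_nhds.1 (hd e he) _ h3
  exact he' (key k e' hne'.1 hne'.2)

theorem exists_div_of_mul_eq {U : Set (ℂ × E)} (hU : IsOpen U) {f g h : ℂ × E → ℂ}
    (hf : ContDiffOn ℝ ∞ f U) (hg : ContDiffOn ℝ ∞ g U) (hh : ContDiffOn ℝ ∞ h U)
    (heq : ∀ p ∈ U, p.1 * g p = h p * f p)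
    (hd : ∀ e : E, ((0 : ℂ), e) ∈ U → e ∈ closure {e' : E | ((0 : ℂ), e') ∈ U ∧ h (0, e') ≠ 0}) :
    ∃ c : ℂ × E → ℂ, ContDiffOn ℝ ∞ c U ∧ ∀ p ∈ U, f p = p.1 * c p :=
  exists_div hU hf (van_of_mul_eq hU hf hg hh heq hd)

/-- two complex coordinates: `z₁ g = z₂ ^ m f` implies `z₁ ∣ f` -/
theorem exists_div_pow {E' : Type} [NormedAddCommGroup E'] [NormedSpace ℝ E']
    {U : Set (ℂ × (ℂ × E'))} (hU : IsOpen U) {f g : ℂ × (ℂ × E') → ℂ}
    (hf : ContDiffOn ℝ ∞ f U) (hg : ContDiffOn ℝ ∞ g U) (m : ℕ)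
    (heq : ∀ p ∈ U, p.1 * g p = p.2.1 ^ m * f p) :
    ∃ c : ℂ × (ℂ × E') → ℂ, ContDiffOn ℝ ∞ c U ∧ ∀ p ∈ U, f p = p.1 * c p := by
  refine exists_div_of_mul_eq hU hf hg (h := fun p => p.2.1 ^ m) ?_ heq ?_
  · exact (ContDiff.pow (contDiff_fst.comp contDiff_snd) m).contDiffOn
  · intro e he
    rw [mem_closure_iff_nhds]
    intro T hT
    have h1 : Continuous fun t : ℝ => (e.1 + t, e.2) := by fun_prop
    have h2 : Tendsto (fun t : ℝ => (e.1 + (t : ℂ), e.2)) (𝓝 0) (𝓝 e) := by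
      have := h1.tendsto 0
      simpa using this
    have h3 : ∀ᶠ t : ℝ in 𝓝 0, (e.1 + (t : ℂ), e.2) ∈ T := h2 hT
    have h4 : ∀ᶠ t : ℝ in 𝓝 0, ((0 : ℂ), (e.1 + (t : ℂ), e.2)) ∈ U := by
      have h5 : Continuous fun q : ℂ × E' => ((0 : ℂ), q) := by fun_prop
      exact h2 ((hU.preimage h5).mem_nhds he)
    have h5 : ∃ᶠ t : ℝ in 𝓝[≠] 0, True := by
      rw [frequently_true_iff_neBot]; infer_instance
    have h6 : ∀ᶠ t : ℝ in 𝓝[≠] 0, e.1 + (t : ℂ) ≠ 0 := by
      by_cases h0 : e.1 = 0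
      · filter_upwards [self_mem_nhdsWithin] with t ht
        rw [h0, zero_add]
        exact_mod_cast ht
      · have h7 : Continuous fun t : ℝ => e.1 + (t : ℂ) := by fun_prop
        have h8 : ∀ᶠ t : ℝ in 𝓝 0, e.1 + (t : ℂ) ≠ 0 := by
          refine (h7.tendsto 0).eventually_ne ?_
          simpa using h0
        exact h8.filter_mono nhdsWithin_le_nhds
    obtain ⟨t, _, ht1, ht2, ht3⟩ := (h5.and_eventually (h6.and
      ((h3.filter_mono nhdsWithin_le_nhds).and (h4.filter_mono nhdsWithin_le_nhds)))).exists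
    exact ⟨(e.1 + (t : ℂ), e.2), ht2, ht3, pow_ne_zero _ ht1⟩

end

end Crest.Agent.R275.Div940
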