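import Crest.Agent.R275.Dg3_199
import Crest.Agent.R275.Div_940

/-!
# R275, leaf NA3g, part 4 (helper199): adapted charts

`Adapted r A` : a closed set `D` of the complex manifold `(M, A)` which in some charts of `A` is
`{w₁ = w₂ = 0}`, `(w₁, (w₂, y)) = T (z - c)` affine coordinates on `Cn n ≃ ℂ × (ℂ × Cn r)`.

`Adapted.reg : RegData A`.
-/

set_option autoImplicit false
set_option linter.unusedSectionVars false

open Set Filter Topology Complex
open scoped ContDiff Matrix ComplexConjugate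
open Crest.Agent.R275.Geo Crest.Agent.R275.Smf798

namespace Crest.Agent.R275.Dg199

noncomputable section

/-! ### holomorphic functions vanishing on `{w₁ = w₂ = 0}` -/

section hadamard

open Div940

theorem dbar_holo {E : Type} [NormedAddCommGroup E] [NormedSpace ℂ E] {g : ℂ × E → ℂ} {p : ℂ × E}
    (hg : DifferentiableAt ℂ g p) : dbar g p = 0 := by
  have h1 : fderiv ℝ g p = (fderiv ℂ g p).restrictScalars ℝ := by
    rw [hg.fderiv_restrictScalars ℝ]
  have h2 : fderiv ℝ g p (Complex.I, 0) = Complex.I * fderiv ℝ g p (1, 0) := by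
    rw [h1]
    show fderiv ℂ g p (Complex.I, 0) = Complex.I * fderiv ℂ g p (1, 0)
    have h3 : ((Complex.I, 0) : ℂ × E) = Complex.I • ((1, 0) : ℂ × E) := by
      ext <;> simp
    rw [h3, map_smul, smul_eq_mul]
  unfold dbar
  rw [h2, ← mul_assoc, Complex.I_mul_I]
  ring

theorem dbar_snd {E : Type} [NormedAddCommGroup E] [NormedSpace ℝ E] {g : E → ℂ} {p : ℂ × E} :
    dbar (fun q : ℂ × E => g q.2) p = 0 := by
  unfold dbar
  have key : ∀ v : ℂ, fderiv ℝ (fun q : ℂ × E => g q.2) p (v, 0) = 0 := by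
    intro v
    by_cases hd : DifferentiableAt ℝ (fun q : ℂ × E => g q.2) p
    · have h1 := hd.hasFDerivAt.hasLineDerivAt (v := ((v, 0) : ℂ × E))
      have h2 : HasLineDerivAt ℝ (fun q : ℂ × E => g q.2) 0 p ((v, 0) : ℂ × E) := by
        unfold HasLineDerivAt
        have : (fun t : ℝ => (fun q : ℂ × E => g q.2) (p + t • ((v, 0) : ℂ × E))) =
            fun _ => g p.2 := by
          funext t; simp
        rw [this]
        exact hasDerivAt_const _ _
      exact h1.unique h2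
    · rw [fderiv_zero_of_not_differentiableAt hd]; rfl
  rw [key, key]; simp

theorem iter_dbar_of_zero {E : Type} [NormedAddCommGroup E] [NormedSpace ℝ E] {U : Set (ℂ × E)}
    (hU : IsOpen U) {g : ℂ × E → ℂ} (hg : ∀ p ∈ U, dbar g p = 0) (k : ℕ) :
    ∀ p ∈ U, (dbar^[k + 1] g) p = 0 := by
  induction k with
  | zero => exact hg
  | succ k ih =>
    intro p hp
    rw [Function.iterate_succ_apply']
    have h1 : EqOn (dbar^[k + 1] g) (fun _ => 0) U := fun q hq => ih q hq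
    rw [dbar_congr hU h1 hp]
    unfold dbar
    simp

/-- one variable division of a function vanishing at `z = 0` and holomorphic in `z` -/
theorem exists_div_holo {E : Type} [NormedAddCommGroup E] [NormedSpace ℝ E] {U : Set (ℂ × E)}
    (hU : IsOpen U) {g : ℂ × E → ℂ} (hs : ContDiffOn ℝ ∞ g U) (hg : ∀ p ∈ U, dbar g p = 0)
    (h0 : ∀ e, ((0 : ℂ), e) ∈ U → g (0, e) = 0) :
    ∃ c : ℂ × E → ℂ, ContDiffOn ℝ ∞ c U ∧ ∀ p ∈ U, g p = p.1 * c p := by
  refine exists_div hU hs fun k e he => ?_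
  rcases k with _ | k
  · exact h0 e he
  · exact iter_dbar_of_zero hU hg k _ he

variable {r : ℕ}

/-- a holomorphic function near `(0,0,y)` vanishing on `{w₁ = w₂ = 0}` is in `(w₁, w₂)` -/
theorem exists_div_two {O : Set (ℂ × (ℂ × Cn r))} (hO : IsOpen O) {H : ℂ × (ℂ × Cn r) → ℂ}
    (hH : DifferentiableOn ℂ H O) (h0 : ∀ y : Cn r, ((0 : ℂ), ((0 : ℂ), y)) ∈ O →
      H (0, (0, y)) = 0) {w : ℂ × (ℂ × Cn r)} (hw : w ∈ O) (hw1 : w.1 = 0) (hw2 : w.2.1 = 0) :
    ∃ c d : ℂ × (ℂ × Cn r) → ℂ, ∃ U : Set (ℂ × (ℂ × Cn r)), IsOpen U ∧ w ∈ U ∧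
      ContDiffOn ℝ ∞ c U ∧ ContDiffOn ℝ ∞ d U ∧ ∀ p ∈ U, H p = p.1 * c p + p.2.1 * d p := by
  obtain ⟨w1, w2, y⟩ := w
  simp only at hw1 hw2
  subst hw1; subst hw2
  obtain ⟨ε, hε, hball⟩ := Metric.isOpen_iff.1 hO _ hw
  have hsub : Metric.ball (0 : ℂ) ε ×ˢ (Metric.ball (0 : ℂ) ε ×ˢ Metric.ball y ε) ⊆ O := by
    rw [ball_prod_same, ball_prod_same]
    exact hball
  set U1 : Set (ℂ × Cn r) := Metric.ball (0 : ℂ) ε ×ˢ Metric.ball y ε with hU1
  set U : Set (ℂ × (ℂ × Cn r)) := Metric.ball (0 : ℂ) ε ×ˢ U1 with hUdef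
  have hU1o : IsOpen U1 := Metric.isOpen_ball.prod Metric.isOpen_ball
  have hUo : IsOpen U := Metric.isOpen_ball.prod hU1o
  have hHs : ContDiffOn ℝ ∞ H O := by
    have h1 := R266.SCV.analyticOnNhd_of_differentiableOn hO hH
    have : ContDiffOn ℂ ∞ H O := fun x hx => (h1 x hx).contDiffAt.contDiffWithinAt
    exact this.restrict_scalars ℝ
  have hin : ∀ v ∈ U1, ((0 : ℂ), v) ∈ U := fun v hv => ⟨Metric.mem_ball_self hε, hv⟩
  -- the slice
  let G : ℂ × Cn r → ℂ := fun v => H (0, v)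
  have hGs : ContDiffOn ℝ ∞ G U1 := by
    refine hHs.comp (t := O) (g := H) (f := fun v : ℂ × Cn r => ((0 : ℂ), v)) ?_ ?_
    · exact (contDiff_const.prodMk contDiff_id).contDiffOn
    · intro v hv; exact hsub (hin v hv)
  have hGd : ∀ p ∈ U1, DifferentiableAt ℂ G p := by
    intro p hp
    have h1 : DifferentiableAt ℂ H (0, p) := hH.differentiableAt (hO.mem_nhds (hsub (hin p hp)))
    exact DifferentiableAt.comp (g := H) p h1
      ((differentiableAt_const (0 : ℂ)).prodMk differentiableAt_id)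
  obtain ⟨d, hd1, hd2⟩ := exists_div_holo (E := Cn r) hU1o hGs
    (fun p hp => dbar_holo (hGd p hp)) (fun e he => h0 e (hsub (hin _ he)))
  -- the difference
  have hFs : ContDiffOn ℝ ∞ (fun p : ℂ × (ℂ × Cn r) => H p - G p.2) U := by
    refine (hHs.mono hsub).sub ?_
    exact hGs.comp contDiff_snd.contDiffOn fun p hp => hp.2
  obtain ⟨c, hc1, hc2⟩ := exists_div_holo (E := ℂ × Cn r) hUo hFs (fun p hp => by
    have h1 : DifferentiableAt ℂ H p := hH.differentiableAt (hO.mem_nhds (hsub hp))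
    have h2 : DifferentiableAt ℂ (fun p : ℂ × (ℂ × Cn r) => H p - G p.2) p :=
      h1.sub (DifferentiableAt.comp (g := G) p (hGd p.2 hp.2) differentiableAt_snd)
    exact dbar_holo h2) (fun e _ => by simp [G])
  refine ⟨c, fun p => d p.2, U, hUo, ⟨Metric.mem_ball_self hε, Metric.mem_ball_self hε,
    Metric.mem_ball_self hε⟩, hc1, ?_, ?_⟩
  · exact hd1.comp contDiff_snd.contDiffOn fun p hp => hp.2
  · intro p hp
    have e1 := hc2 p hp
    have e2 := hd2 p.2 hp.2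
    have e3 : H p = (H p - G p.2) + G p.2 := by ring
    rw [e3, e1, e2]

end hadamard

variable {n r : ℕ} {M : Type} [TopologicalSpace M]

/-- a closed set which is `{w₁ = w₂ = 0}` in affine coordinates of suitable charts of `A` -/
structure Adapted (r : ℕ) (A : Atl n M) where
  D : Set M
  closed : IsClosed D
  K : Type
  ix : K → A.ι
  T : K → (Cn n ≃L[ℂ] ℂ × (ℂ × Cn r))
  c : K → Cn n
  cover : ∀ p ∈ D, ∃ k, p ∈ (A.e (ix k)).source
  eq : ∀ k, ∀ q ∈ (A.e (ix k)).source, (q ∈ D ↔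
    (T k (A.e (ix k) q - c k)).1 = 0 ∧ (T k (A.e (ix k) q - c k)).2.1 = 0)

namespace Adapted

variable {A : Atl n M} (S : Adapted r A)

/-- adapted coordinates -/
def Φ (k : S.K) (q : M) : ℂ × (ℂ × Cn r) := S.T k (A.e (S.ix k) q - S.c k)

/-- inverse of the adapted coordinates -/
def Ψ (k : S.K) (w : ℂ × (ℂ × Cn r)) : M := (A.e (S.ix k)).symm ((S.T k).symm w + S.c k)

/-- the image of the adapted coordinates -/
def Tg (k : S.K) : Set (ℂ × (ℂ × Cn r)) := {w | (S.T k).symm w + S.c k ∈ (A.e (S.ix k)).target}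

theorem isOpen_Tg (k : S.K) : IsOpen (S.Tg k) :=
  (A.e (S.ix k)).open_target.preimage ((S.T k).symm.continuous.add continuous_const)

theorem Ψ_mem {k : S.K} {w : ℂ × (ℂ × Cn r)} (hw : w ∈ S.Tg k) :
    S.Ψ k w ∈ (A.e (S.ix k)).source := (A.e (S.ix k)).map_target hw

theorem Φ_mem {k : S.K} {q : M} (hq : q ∈ (A.e (S.ix k)).source) : S.Φ k q ∈ S.Tg k := by
  show (S.T k).symm (S.T k (A.e (S.ix k) q - S.c k)) + S.c k ∈ (A.e (S.ix k)).target
  rw [ContinuousLinearEquiv.symm_apply_apply, sub_add_cancel]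
  exact (A.e (S.ix k)).map_source hq

theorem Φ_Ψ {k : S.K} {w : ℂ × (ℂ × Cn r)} (hw : w ∈ S.Tg k) : S.Φ k (S.Ψ k w) = w := by
  unfold Φ Ψ
  rw [(A.e (S.ix k)).right_inv hw, add_sub_cancel_right, ContinuousLinearEquiv.apply_symm_apply]

theorem Ψ_Φ {k : S.K} {q : M} (hq : q ∈ (A.e (S.ix k)).source) : S.Ψ k (S.Φ k q) = q := by
  unfold Φ Ψ
  rw [ContinuousLinearEquiv.symm_apply_apply, sub_add_cancel, (A.e (S.ix k)).left_inv hq]

theorem Ψ_eq (k : S.K) (w : ℂ × (ℂ × Cn r)) :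
    S.Ψ k w = (A.e (S.ix k)).symm ((S.T k).symm w + S.c k) := rfl

theorem continuousAt_Φ {k : S.K} {q : M} (hq : q ∈ (A.e (S.ix k)).source) :
    ContinuousAt (S.Φ k) q := by
  have h1 : ContinuousAt (fun q => A.e (S.ix k) q - S.c k) q :=
    ((A.e (S.ix k)).continuousAt hq).sub continuousAt_const
  exact ContinuousAt.comp (g := S.T k) (S.T k).continuous.continuousAt h1

theorem continuousAt_Ψ {k : S.K} {w : ℂ × (ℂ × Cn r)} (hw : w ∈ S.Tg k) :
    ContinuousAt (S.Ψ k) w := by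
  have h1 : ContinuousAt (fun w => (S.T k).symm w + S.c k) w :=
    ((S.T k).symm.continuous.add continuous_const).continuousAt
  exact ContinuousAt.comp (g := (A.e (S.ix k)).symm) ((A.e (S.ix k)).continuousAt_symm hw) h1

/-- smoothness of a function written in adapted coordinates -/
theorem smN_comp {k : S.K} {q : M} (hq : q ∈ (A.e (S.ix k)).source) {G : ℂ × (ℂ × Cn r) → ℂ}
    (hG : ContDiffAt ℝ ∞ G (S.Φ k q)) : SmN A (fun x => G (S.Φ k x)) q := by
  refine ⟨S.ix k, hq, ?_⟩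
  let L : Cn n →L[ℝ] (ℂ × (ℂ × Cn r)) :=
    ((S.T k : Cn n →L[ℂ] (ℂ × (ℂ × Cn r)))).restrictScalars ℝ
  have h2 : ContDiff ℝ ∞ fun z : Cn n => L (z - S.c k) :=
    L.contDiff.comp (contDiff_id.sub contDiff_const)
  have h1 : ContDiffAt ℝ ∞ (fun z : Cn n => S.T k (z - S.c k)) (A.e (S.ix k) q) :=
    h2.contDiffAt
  have h3 : ContDiffAt ℝ ∞ (G ∘ fun z : Cn n => S.T k (z - S.c k)) (A.e (S.ix k) q) :=
    ContDiffAt.comp _ hG h1
  refine h3.congr_of_eventuallyEq ?_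
  filter_upwards [(A.e (S.ix k)).open_target.mem_nhds ((A.e (S.ix k)).map_source hq)] with z hz
  show G (S.T k (A.e (S.ix k) ((A.e (S.ix k)).symm z) - S.c k)) = G (S.T k (z - S.c k))
  rw [(A.e (S.ix k)).right_inv hz]

theorem contDiffAt_Ψ {k : S.K} {w : ℂ × (ℂ × Cn r)} (hw : w ∈ S.Tg k) {f : M → ℂ}
    (hf : SmN A f (S.Ψ k w)) : ContDiffAt ℝ ∞ (fun w => f (S.Ψ k w)) w := by
  have h1 := (smN_iff (S.Ψ_mem hw)).1 hf
  have h2 : A.e (S.ix k) (S.Ψ k w) = (S.T k).symm w + S.c k := (A.e (S.ix k)).right_inv hw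
  rw [h2] at h1
  let L : (ℂ × (ℂ × Cn r)) →L[ℝ] Cn n :=
    (((S.T k).symm : (ℂ × (ℂ × Cn r)) →L[ℂ] Cn n)).restrictScalars ℝ
  have h4 : ContDiff ℝ ∞ fun w : ℂ × (ℂ × Cn r) => L w + S.c k :=
    L.contDiff.add contDiff_const
  have h3 : ContDiffAt ℝ ∞ (fun w : ℂ × (ℂ × Cn r) => (S.T k).symm w + S.c k) w :=
    h4.contDiffAt
  exact ContDiffAt.comp (g := fun z => f ((A.e (S.ix k)).symm z)) w h1 h3

/-- the local equations -/
def uu (k : S.K) (a : Fin 2) (q : M) : ℂ := if a = 0 then (S.Φ k q).1 else (S.Φ k q).2.1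

@[simp] theorem uu_zero (k : S.K) (q : M) : S.uu k 0 q = (S.Φ k q).1 := rfl
@[simp] theorem uu_one (k : S.K) (q : M) : S.uu k 1 q = (S.Φ k q).2.1 := rfl

theorem uu_sm (k : S.K) (a : Fin 2) {q : M} (hq : q ∈ (A.e (S.ix k)).source) :
    SmN A (S.uu k a) q := by
  fin_cases a
  · exact S.smN_comp hq (G := fun w => w.1) contDiffAt_fst
  · exact S.smN_comp hq (G := fun w => w.2.1) (contDiffAt_fst.comp _ contDiffAt_snd)

theorem uu_holo (k l : S.K) (a : Fin 2) {w : ℂ × (ℂ × Cn r)} (hw : w ∈ S.Tg l)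
    (hk : S.Ψ l w ∈ (A.e (S.ix k)).source) :
    DifferentiableAt ℂ (fun w => S.uu k a (S.Ψ l w)) w := by
  have h1 : DifferentiableAt ℂ (fun z => A.e (S.ix k) ((A.e (S.ix l)).symm z))
      ((S.T l).symm w + S.c l) :=
    (A.holo (S.ix l) (S.ix k)).differentiableAt ((isOpen_ov _ _).mem_nhds ⟨hw, hk⟩)
  have h2 : DifferentiableAt ℂ (fun w => A.e (S.ix k) (S.Ψ l w)) w :=
    DifferentiableAt.comp (g := fun z => A.e (S.ix k) ((A.e (S.ix l)).symm z)) w h1
      ((S.T l).symm.differentiableAt.add_const _)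
  have h3 : DifferentiableAt ℂ (fun w => S.Φ k (S.Ψ l w)) w :=
    DifferentiableAt.comp (g := S.T k) w (S.T k).differentiableAt (h2.sub_const _)
  fin_cases a
  · exact h3.fst
  · exact h3.snd.fst

theorem dense_aux (k : S.K) {q : M} (hq : q ∈ (A.e (S.ix k)).source) :
    ∃ᶠ x in 𝓝 q, (S.Φ k x).1 ≠ 0 := by
  intro hcon
  simp only [not_not] at hcon
  have hmem := S.Φ_mem hq
  have h1 : ∀ᶠ w in 𝓝 (S.Φ k q), (S.Φ k (S.Ψ k w)).1 = 0 := by
    have h2 := S.continuousAt_Ψ hmem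
    rw [ContinuousAt, S.Ψ_Φ hq] at h2
    exact h2.eventually hcon
  have h2 : ∀ᶠ w in 𝓝 (S.Φ k q), w.1 = 0 := by
    filter_upwards [h1, (S.isOpen_Tg k).mem_nhds hmem] with w hw1 hw2
    rwa [S.Φ_Ψ hw2] at hw1
  have h3 : Tendsto (fun t : ℝ => S.Φ k q + (t : ℂ) • ((1 : ℂ), ((0 : ℂ), (0 : Cn r)))) (𝓝 0)
      (𝓝 (S.Φ k q)) := by
    have hc : Continuous (fun t : ℝ => S.Φ k q + (t : ℂ) • ((1 : ℂ), ((0 : ℂ), (0 : Cn r)))) := by
      fun_prop
    have := hc.tendsto 0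
    simpa using this
  have h4 := h3.eventually h2
  have h5 : (S.Φ k q).1 = 0 := h2.self_of_nhds
  have h6 : ∀ᶠ t : ℝ in 𝓝 0, t = 0 := by
    filter_upwards [h4] with t ht
    simpa [h5] using ht
  obtain ⟨ε, hε, hb⟩ := Metric.eventually_nhds_iff.1 h6
  have := hb (y := ε / 2) (by rw [Real.dist_eq, sub_zero, abs_of_pos (by positivity)]; linarith)
  linarith

theorem div_aux (k : S.K) (U : Set M) (hU : IsOpen U) (hUs : U ⊆ (A.e (S.ix k)).source)
    (f g : M → ℂ) (hf : ∀ q ∈ U, SmN A f q) (hg : ∀ q ∈ U, SmN A g q)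
    (h : ∀ q ∈ U, S.uu k 0 q * g q = S.uu k 1 q * f q) :
    ∃ c : M → ℂ, (∀ q ∈ U, SmN A c q) ∧ ∀ q ∈ U, f q = S.uu k 0 q * c q := by
  let O : Set (ℂ × (ℂ × Cn r)) := {w | w ∈ S.Tg k ∧ S.Ψ k w ∈ U}
  have hO : IsOpen O := by
    rw [isOpen_iff_mem_nhds]
    rintro w ⟨hw1, hw2⟩
    filter_upwards [(S.isOpen_Tg k).mem_nhds hw1, (S.continuousAt_Ψ hw1).eventually
      (hU.mem_nhds hw2)] with v h1 h2 using ⟨h1, h2⟩
  obtain ⟨c, hc1, hc2⟩ := Div940.exists_div_pow (E' := Cn r) hO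
    (f := fun w => f (S.Ψ k w)) (g := fun w => g (S.Ψ k w))
    (fun w hw => (S.contDiffAt_Ψ hw.1 (hf _ hw.2)).contDiffWithinAt)
    (fun w hw => (S.contDiffAt_Ψ hw.1 (hg _ hw.2)).contDiffWithinAt) 1
    (fun w hw => by
      have := h _ hw.2
      rw [uu_zero, uu_one, S.Φ_Ψ hw.1] at this
      rw [pow_one]
      exact this)
  have hΦ : ∀ q ∈ U, S.Φ k q ∈ O := fun q hq => ⟨S.Φ_mem (hUs hq), by
    rw [S.Ψ_Φ (hUs hq)]; exact hq⟩
  refine ⟨fun q => c (S.Φ k q), fun q hq => ?_, fun q hq => ?_⟩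
  · exact S.smN_comp (hUs hq) (hc1.contDiffAt (hO.mem_nhds (hΦ q hq)))
  · have := hc2 _ (hΦ q hq)
    simp only [S.Ψ_Φ (hUs hq)] at this
    exact this

/-- functions holomorphic in an adapted chart and vanishing on `D` are locally in the ideal -/
theorem lspan_of_holo (l : S.K) {q : M} (hq : q ∈ S.D) (hl : q ∈ (A.e (S.ix l)).source)
    {H : M → ℂ} (hH : ∀ᶠ w in 𝓝 (S.Φ l q), DifferentiableAt ℂ (fun w => H (S.Ψ l w)) w)
    (h0 : ∀ᶠ x in 𝓝 q, x ∈ S.D → H x = 0) : LSpan A (S.uu l) H q := by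
  have hmem := S.Φ_mem hl
  have h1 : ∀ᶠ w in 𝓝 (S.Φ l q), w ∈ S.Tg l ∧ DifferentiableAt ℂ (fun w => H (S.Ψ l w)) w ∧
      (S.Ψ l w ∈ S.D → H (S.Ψ l w) = 0) := by
    have h2 := S.continuousAt_Ψ hmem
    rw [ContinuousAt, S.Ψ_Φ hl] at h2
    filter_upwards [(S.isOpen_Tg l).mem_nhds hmem, hH, h2.eventually h0] with w a b c
      using ⟨a, b, c⟩
  obtain ⟨O, hO1, hO2, hO3⟩ := _root_.eventually_nhds_iff.1 h1
  obtain ⟨c, d, U, hU1, hU2, hU3, hU4, hU5⟩ := exists_div_two hO2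
    (H := fun w => H (S.Ψ l w)) (fun w hw => (hO1 w hw).2.1.differentiableWithinAt)
    (fun y hy => by
      refine (hO1 _ hy).2.2 ?_
      rw [S.eq l _ (S.Ψ_mem (hO1 _ hy).1)]
      have := S.Φ_Ψ (hO1 _ hy).1
      unfold Φ at this
      rw [this]
      exact ⟨rfl, rfl⟩) hO3 ((S.eq l q hl).1 hq).1 ((S.eq l q hl).1 hq).2
  have h3 : ∀ᶠ x in 𝓝 q, S.Φ l x ∈ U := (S.continuousAt_Φ hl).eventually (hU1.mem_nhds hU2)
  refine ⟨fun a x => if a = 0 then c (S.Φ l x) else d (S.Φ l x), fun a => ?_, ?_⟩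
  · filter_upwards [h3, (A.e (S.ix l)).open_source.mem_nhds hl] with x hx1 hx2
    fin_cases a
    · exact S.smN_comp hx2 (hU3.contDiffAt (hU1.mem_nhds hx1))
    · exact S.smN_comp hx2 (hU4.contDiffAt (hU1.mem_nhds hx1))
  · filter_upwards [h3, (A.e (S.ix l)).open_source.mem_nhds hl] with x hx1 hx2
    have := hU5 _ hx1
    simp only [S.Ψ_Φ hx2] at this
    rw [this, Fin.sum_univ_two]
    simp

/-- the regular data of an adapted set -/
def reg : RegData A where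
  D := S.D
  closed := S.closed
  K := S.K
  V := fun k => (A.e (S.ix k)).source
  V_open := fun k => (A.e (S.ix k)).open_source
  cover := S.cover
  u := S.uu
  sm := fun k a _ hq => S.uu_sm k a hq
  zero_iff := fun k q hq => by
    rw [S.eq k q hq, Fin.forall_fin_two]
    rfl
  dense := fun k _ hq => S.dense_aux k hq
  div := fun k U hU hUs f g hf hg h => S.div_aux k U hU hUs f g hf hg h
  compat := fun k l q hq hk hl a => by
    have hmem := S.Φ_mem hl
    have h2 := S.continuousAt_Ψ hmem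
    rw [ContinuousAt, S.Ψ_Φ hl] at h2
    refine S.lspan_of_holo l hq hl ?_ ?_
    · filter_upwards [(S.isOpen_Tg l).mem_nhds hmem, h2.eventually
        ((A.e (S.ix k)).open_source.mem_nhds hk)] with w hw1 hw2 using S.uu_holo k l a hw1 hw2
    · filter_upwards [(A.e (S.ix k)).open_source.mem_nhds hk] with x hx hD
      have := (S.eq k x hx).1 hD
      fin_cases a
      · exact this.1
      · exact this.2

/-- holomorphic functions vanishing on `D`, global form -/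
theorem mem_J_of_holo {f : smf A} (h0 : ∀ x ∈ S.D, f.1 x = 0)
    (hf : ∀ q ∈ S.D, ∃ i, q ∈ (A.e i).source ∧
      ∀ᶠ z in 𝓝 (A.e i q), DifferentiableAt ℂ (fun z => f.1 ((A.e i).symm z)) z) :
    f ∈ S.reg.J := by
  intro l q hq hl
  obtain ⟨i, hi, h1⟩ := hf q hq
  have hmem := S.Φ_mem hl
  have h2 := S.continuousAt_Ψ hmem
  rw [ContinuousAt, S.Ψ_Φ hl] at h2
  refine S.lspan_of_holo l hq hl ?_ (Eventually.of_forall fun x hx => h0 x hx)
  have h3 : ∀ᶠ w in 𝓝 (S.Φ l q), S.Ψ l w ∈ (A.e i).source :=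
    h2.eventually ((A.e i).open_source.mem_nhds hi)
  have h4 : ∀ᶠ x in 𝓝 q, DifferentiableAt ℂ (fun z => f.1 ((A.e i).symm z)) (A.e i x) :=
    ev_chart hi h1
  filter_upwards [(S.isOpen_Tg l).mem_nhds hmem, h3, h2.eventually h4] with w hw1 hw2 hw3
  have e1 : DifferentiableAt ℂ (fun z => A.e i ((A.e (S.ix l)).symm z))
      ((S.T l).symm w + S.c l) :=
    (A.holo (S.ix l) i).differentiableAt ((isOpen_ov _ _).mem_nhds ⟨hw1, hw2⟩)
  have e2 : DifferentiableAt ℂ (fun w => A.e i (S.Ψ l w)) w :=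
    DifferentiableAt.comp (g := fun z => A.e i ((A.e (S.ix l)).symm z)) w e1
      ((S.T l).symm.differentiableAt.add_const _)
  have e3 : DifferentiableAt ℂ (fun w => f.1 ((A.e i).symm (A.e i (S.Ψ l w)))) w :=
    DifferentiableAt.comp (g := fun z => f.1 ((A.e i).symm z)) w hw3 e2
  refine e3.congr_of_eventuallyEq ?_
  have h5 : ∀ᶠ v in 𝓝 w, S.Ψ l v ∈ (A.e i).source :=
    (S.continuousAt_Ψ hw1).eventually ((A.e i).open_source.mem_nhds hw2)
  filter_upwards [h5] with v hv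
  rw [(A.e i).left_inv hv]

end Adapted

end

end Crest.Agent.R275.Dg199
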