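import Crest.Agent.R275.XNJ_106
import Crest.Agent.R275.EOF_627
import Crest.Agent.R275.KY_293

/-!
# R275 (S0418), block K: the orientation functional on coverings, duality on `Y` (helper106)

* `exists_efn` : for `C : KCov A Z K` over a compact surface, labels and the orientation functional
  `EFn` of `Z` with the weights `jw (liftP C P)`, normalised;
* `dual_lift`  : the field `dual` of `EBF151.formsX` for the weight `wtY C hpc P`;
* `xnIn_of`    : `XNIn` from `CMData` for the geometric index and the rank bound;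
* `formsK`     : `Forms` from `CMData` on all `X_N`.
-/

set_option autoImplicit false
set_option linter.unusedSectionVars false

open Set Filter Topology

namespace Crest.Agent.R275.XNI106

open TopK106 Zig470 Geo Smf798 KR798 SB798 GC293 Core144 ASConv293 KAsm106 KZig106 PDB412 ChiM825
  NEul865 KX106 XN194 NForm945 NGeo151 NTr151 PDY945 WtY945 INX945 EBF151 Loc647 QPb635 KY293
  Dual945

noncomputable section

section efn

variable {K : Type} [AddCommGroup K] [Countable K] {M Z : Type} [TopologicalSpace M]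
  [TopologicalSpace Z] [T2Space M] [CompactSpace M] [T2Space Z] [LocallyCompactSpace Z]
  {A : Atl 2 M} [Finite A.ι]

/-- the orientation functional of a covering of a compact surface, for given robust labels -/
theorem exists_efn_lab (C : KCov A Z K) (hpc : PreC A) (P : Part A) :
    ∃ (E : (List Z → ℤ) → ℝ), Ev 3 E ∧ Nrm C.lift E ∧ ∀ lab : Z → A.ι × K,
      Lab (sh C) lab → ∃ G : EFn Z (sh C) lab (jw (liftP C P)), G.E = E := by
  have hc : Countable C.lift.ι := inferInstanceAs (Countable (A.ι × K))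
  obtain ⟨E, D, hN, hl⟩ := EOF627.exists_functional (B := C.lift) (liftP C P)
    (fun v => isCompact_closure_sheet C hpc v)
  exact ⟨E, D, hN, fun lab hlab => ⟨efn D (hl lab hlab), rfl⟩⟩

/-- labels and orientation functional of a covering of a compact surface -/
theorem exists_efn (C : KCov A Z K) (hpc : PreC A) (P : Part A) :
    ∃ (lab : Z → A.ι × K) (_ : Lab (sh C) lab) (G : EFn Z (sh C) lab (jw (liftP C P))),
      Nrm C.lift G.E := by
  obtain ⟨lab, hlab⟩ := exists_lab_lift C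
  obtain ⟨E, -, hN, h⟩ := exists_efn_lab C hpc P
  obtain ⟨G, rfl⟩ := h lab hlab
  exact ⟨lab, hlab, G, hN⟩

end efn

section dual

variable {M Z : Type} [TopologicalSpace M] [TopologicalSpace Z] [T2Space M] [CompactSpace M]
  [T2Space Z] [LocallyCompactSpace Z] {A : Atl 2 M} [Finite A.ι] (C : KCov A Z ℤ)

/-- **Poincaré duality on `Y`**, no hypothesis left -/
theorem pDual_wtY (hA : GoodA A) (hpc : PreC A) (P : Part A) : PDual (wtY C hpc P) := by
  obtain ⟨lab, hlab, G, hN⟩ := exists_efn C hpc P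
  exact pDual_lift C hA hpc (wtY C hpc P) hlab G hN

/-- the field `dual` of `formsX` -/
theorem dual_lift (hA : GoodA A) (hpc : PreC A) (P : Part A) (w : ℕ) :
    ∃ (r : ℕ) (x : Fin r → C2 (A.ι × ℤ)), (∀ i, x i ∈ (nerve C hpc).Z2c) ∧
      ∀ c ∈ (nerve C hpc).Z2, (∀ i, (wtY C hpc P).IYR c (x i) = 0) → ∃ d : ℕ, 0 < d ∧
        ∃ u : A.ι × ℤ → A.ι × ℤ → ℤ, ∀ i j k, (nerve C hpc).N3 i j k →
        (0 ≤ (nerve C hpc).p i ∧ (nerve C hpc).p i ≤ w) →
        (0 ≤ (nerve C hpc).p j ∧ (nerve C hpc).p j ≤ w) →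
        (0 ≤ (nerve C hpc).p k ∧ (nerve C hpc).p k ≤ w) →
        (d : ℤ) * c i j k = u j k - u i k + u i j :=
  dual_of_PDual (wtY C hpc P) (pDual_wtY C hA hpc P) w

end dual

section xn

variable {M Z Z' : Type} [TopologicalSpace M] [TopologicalSpace Z] [TopologicalSpace Z']
  [T2Space M] [CompactSpace M] [T2Space Z] [LocallyCompactSpace Z]
  [T2Space Z'] [CompactSpace Z'] {A : Atl 2 M} [Finite A.ι] {N : ℕ}
  {C : KCov A Z ℤ} {C' : KCov A Z' (ZMod N)}

/-- **`XNIn` from `CMData` for the geometric index and the rank bound** -/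
theorem nonempty_xnIn (hpc : PreC A) (P : Part A) (F : KHom C C')
    (hφ : ∀ k : ℤ, F.φ k = (k : ZMod N)) (hN : 1 ≤ N) (g : GIx C'.lift) {e : ℤ}
    (cm : CMData (liftP C' P) g.I e) (he : Rk C'.lift e) :
    Nonempty (XNIn (wtY C hpc P) N e) := by
  have : NeZero N := ⟨by omega⟩
  obtain ⟨lab, hlab, G, hG⟩ := exists_efn C' hpc P
  exact ⟨xnInG hpc P F hφ hN g cm hlab G hG he⟩

/-- for any index with point resolutions -/
theorem nonempty_xnIn' (hpc : PreC A) (P : Part A) (F : KHom C C')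
    (hφ : ∀ k : ℤ, F.φ k = (k : ZMod N)) (hN : 1 ≤ N) {I : KIndex (smf C'.lift)} {e : ℤ}
    (cm : CMData (liftP C' P) I e)
    (hpt : ∀ p c, p ∈ (C'.lift.e c).source → Nonempty (LnkF894.PtRes C'.lift I p c))
    (he : Rk C'.lift e) :
    Nonempty (XNIn (wtY C hpc P) N e) := by
  have : NeZero N := ⟨by omega⟩
  obtain ⟨lab, hlab, G, hG⟩ := exists_efn C' hpc P
  exact ⟨xnIn' hpc P F hφ hN cm hpt hlab G hG he⟩

/-- **`Forms` from the data on all `X_N`** -/
def formsK (hA : GoodA A) (hpc : PreC A) (P : Part A) {κ : A.ι → A.ι → A.ι → ℤ}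
    (hκ : IsC1 (slb (KB A)) κ)
    (D : ∀ N : ℕ, 1 ≤ N → ∃ e : ℤ, Nonempty (XNIn (wtY C hpc P) N e))
    (hb₂ : ∃ c : GC293.Z2 A ℤ, ∀ m : ℤ, m • c.1 ∈ GC293.B2 A ℤ → m = 0) : Forms (nerve C hpc) :=
  formsX (wtY C hpc P) hκ D (dual_lift C hA hpc P) hb₂

end xn

end

end Crest.Agent.R275.XNI106
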