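import Crest.Agent.R275.TInB_672
import Crest.Agent.R275.YBaseX_144
import Crest.Agent.R275.PushNef_768
import Crest.Agent.R275.Br1b_78
import Crest.Agent.R275.KDual_106

/-!
# R275 (helper672): the field `nef` of `TIn` on the geometric base of helper144

`G : XGeo X`, `B := G.yBase`, `F : Forms G.Pn`.

* `nefG`   : from helper768's `Link` and the nonnegativity `K · L ≥ 0` on `X`;
* `linkG`  : helper768's `Link` from helper78's `bridge1`;
* `exists_tinG` : `TIn` on `YC G.u`.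
-/

set_option autoImplicit false
set_option linter.unusedSectionVars false

open Set Filter Topology Complex Metric
open scoped Manifold ContDiff

namespace Crest.Agent.R275.NefG672

open Crest.AlgGeometry.Surface
open Crest.Agent.R275.Geo Crest.Agent.R275.Core144 Crest.Agent.R275.NAtl938
open Crest.Agent.R275.Fm96 Crest.Agent.R275.WB658 Crest.Agent.R275.Base144
open Crest.Agent.R275.Cls938 Crest.Agent.R275.EB938 Crest.Agent.R275.Loc647
open Crest.Agent.R275.LocT474 Crest.Agent.R275.Sol352 Crest.Agent.R275.Sec1197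
open Crest.Agent.R275.GeoP572 (TG Lat bq dvs TIn)
open Crest.Agent.R275.BR4672 (gB BdG LowE)
open Crest.Agent.R275.Dv69 (EffDiv LocFact)
open Crest.Agent.R275.XN194 Crest.Agent.R275.ZC352
open Crest.Agent.R275.TInA672

noncomputable section

variable {X : Type} [TopologicalSpace X] [ChartedSpace C2 X] [IsManifold 𝓘(ℂ, C2) 1 X]
  [CompactSpace X] [T2Space X] (G : XGeo X) [LocFact (YC G.u)] [ConnectedSpace (YC G.u)]

theorem hact (y : YC G.u) : YC.ht G.u (G.C.act 1 y) = YC.ht G.u y - 1 := by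
  rw [ycov_act_one]
  exact YC.ht_dk G.u y

variable {F : Forms G.Pn} {d : ℝ} {b : ℕ} {E : Fin b × ℤ → LB G.yBase.N.sm}
  {s : Fin b × ℤ → G.yBase.N.ι → YC G.u → ℂ} {I : KR798.KIndex (Smf798.smf G.N.sm)}

/-- **the field `nef`** -/
theorem nefG (H : Pre G.yBase F d E s) (hlink : PushS768.Link G.preC F G.P I)
    (hK : ∀ (L : LB G.N.sm) (s : G.N.ι → X → ℂ), IsHS L univ s → s ≠ 0 →
      0 ≤ QX825.bb G.P I (KB G.N.sm) L) : Nef G.yBase (qL F (YC.ht G.u)) := by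
  intro C _ hC L hL σ hσ h0 hd
  refine PushS768.nef_final (C := G.C) (N := G.N) (h := YC.ht G.u) (g := YC.dk G.u) G.goodY G.Q
    G.yBase.P G.nl (AdmN.adm G.admY le_rfl) (hact G) (YC.deck G.u).cont hlink hK (YC.deck G.u)
    H.lat H.lim ?_ ?_ ?_ C hC L hL σ hσ h0 hd
  · intro L hL σ hσ
    obtain ⟨cs, cl, D, r, hr, h1⟩ := exists_lim' H.dat.ug H.dat.sol (PP_le hL) hσ
    exact ⟨cs, cl, D, r, hr, h1⟩
  · intro β L hL w hw hw0
    obtain ⟨W, hW⟩ := H.loc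
    have hw0' : w ≠ 0 := GeoP572.ne_zero_of_nowhere hw0
    exact hW β L hL w hw hw0' (-((β.2 : ℤ) : ℝ) - W) (fun i x hx _ => hw0 i x hx) (by linarith)
  · intro D hD
    obtain ⟨L, hL, σ, h1, h2, h3, -, h4, h5, -⟩ := H.odiv' D hD
    exact ⟨L, hL, σ, h1, h2, h3, h4, h5⟩

/-- **the input of section 4 on `YC G.u`**, from the solution theorems and the index -/
theorem exists_tinG_of_idx (F : Forms G.Pn) {d : ℝ}
    (S : Sol G.yBase.N.sm G.yBase.K G.yBase.h (PP G.yBase.N G.yBase.h) (qL F G.yBase.h) d)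
    {δ : ℝ} {hδ : 0 < δ} (J : QCons734.Idx G.yBase.N.sm G.yBase.K G.yBase.h
      (PP G.yBase.N G.yBase.h) (qL F G.yBase.h) G.yBase.K_sub δ hδ)
    (hlink : PushS768.Link G.preC F G.P I)
    (hK : ∀ (L : LB G.N.sm) (s : G.N.ι → X → ℂ), IsHS L univ s → s ≠ 0 →
      0 ≤ QX825.bb G.P I (KB G.N.sm) L) :
    ∃ (b : ℕ) (E : Fin b × ℤ → LB G.yBase.N.sm) (s : Fin b × ℤ → G.yBase.N.ι → YC G.u → ℂ),
      Pre G.yBase F d E s ∧
      TIn G.yBase.N.sm G.yBase.h G.yBase.g G.yBase.equi (PP G.yBase.N G.yBase.h) (gB (Fin b))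
        Prod.snd E (qL F G.yBase.h) s ∧
      Int495.N8i G.yBase.N.sm G.yBase.h (PP G.yBase.N G.yBase.h) (qL F G.yBase.h) ∧
      Int495.N8ii G.yBase.N.sm G.yBase.h (PP G.yBase.N G.yBase.h) (qL F G.yBase.h) := by
  obtain ⟨b, E, s, H⟩ := YDat.exists_pre (B := G.yBase) (F := F) (d := d) ⟨G.nl, G.Q_s_eq, S⟩
  exact ⟨b, E, s, H, H.tin J (nefG G H hlink hK), H.n8i J, H.n8ii J⟩

/-- **the input of section 4 on `YC G.u`**, from block D -/
theorem exists_tinG (F : Forms G.Pn) {d : ℝ}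
    (S : YAn G.yBase.N.sm G.yBase.K G.yBase.h (PP G.yBase.N G.yBase.h) (qL F G.yBase.h) d)
    (hlink : PushS768.Link G.preC F G.P I)
    (hK : ∀ (L : LB G.N.sm) (s : G.N.ι → X → ℂ), IsHS L univ s → s ≠ 0 →
      0 ≤ QX825.bb G.P I (KB G.N.sm) L) :
    ∃ (b : ℕ) (E : Fin b × ℤ → LB G.yBase.N.sm) (s : Fin b × ℤ → G.yBase.N.ι → YC G.u → ℂ),
      Pre G.yBase F d E s ∧
      TIn G.yBase.N.sm G.yBase.h G.yBase.g G.yBase.equi (PP G.yBase.N G.yBase.h) (gB (Fin b))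
        Prod.snd E (qL F G.yBase.h) s ∧
      Int495.N8i G.yBase.N.sm G.yBase.h (PP G.yBase.N G.yBase.h) (qL F G.yBase.h) ∧
      Int495.N8ii G.yBase.N.sm G.yBase.h (PP G.yBase.N G.yBase.h) (qL F G.yBase.h) :=
  exists_tinG_of_idx G F S.sol (idx_of_yan S G.yBase.K_sub one_pos) hlink hK

/-! ### the link between `Y` and `X` -/

section link

variable {N : NAtl 2 X} [Finite N.big.ι] {Y : Type} [TopologicalSpace Y] [T2Space Y]
  [LocallyCompactSpace Y] {C : KCov N.big Y ℤ}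

omit [ChartedSpace C2 X] [IsManifold 𝓘(ℂ, C2) 1 X] in
/-- **helper768's `Link`** for the forms of helper106/151 -/
theorem link_of {hA : GC293.GoodA N.big} {hpc : NGeo151.PreC N.big} {Pb : Part N.big}
    {κ : N.big.ι → N.big.ι → N.big.ι → ℤ} {hκ : GC293.IsC1 (ChiM825.slb (KB N.big)) κ}
    {D : ∀ M : ℕ, 1 ≤ M → ∃ e : ℤ, Nonempty (EBF151.XNIn (WtY945.wtY C hpc Pb) M e)}
    {hb₂ : ∃ c : GC293.Z2 N.big ℤ, ∀ m : ℤ, m • c.1 ∈ GC293.B2 N.big ℤ → m = 0}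
    (P : Part N.sm) (I : KR798.KIndex (Smf798.smf N.sm)) {lab : X → N.ι}
    (GE : PDY945.EFn X (fun i : N.ι => (N.big.e i).source) lab (WtY945.jw Pb))
    (hlink : KX106.Link (A := N.sm) P I GE.E lab) :
    PushS768.Link hpc (XNI106.formsK hA hpc Pb hκ D hb₂) P I := by
  have hk : GC293.IsC1 (A := N.sm) (ChiM825.slb (KB N.sm)) κ := Br178.isC1_KB_sm hκ
  have hκ2 : κ ∈ GC293.Z2 N.big ℤ := hκ.mem_Z2
  have hκs : κ ∈ GC293.Z2 N.sm ℤ := Br178.mem_Z2_sm hκ2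
  have hmem := EBF151.kapY_mem (C := C) (hpc := hpc) hκ2
  refine PushS768.link_of_bZ (kapX := ⟨κ, hκs⟩) hk fun c hc hc' => ?_
  refine Br178.bridge1 hpc Pb P I GE hlink (XNI106.formsK hA hpc Pb hκ D hb₂) ?_ ?_
    (kapX := ⟨κ, hκs⟩) hk hc
  · intro c hc c' hc'
    obtain ⟨e, ⟨X1⟩⟩ := D 1 le_rfl
    exact NForm945.Weight.INZ_cast (W := WtY945.wtY C hpc Pb) ⟨_, X1.hW c hc c' hc'⟩
  · refine Br178.isC1_congr hk fun i j k hne => ?_
    obtain ⟨x, ⟨hi, hj⟩, hk'⟩ := hne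
    have hM : ((N.big.e i).source ∩ (N.big.e j).source ∩ (N.big.e k).source).Nonempty :=
      ⟨x, ⟨Br178.src_sub i hi, Br178.src_sub j hj⟩, Br178.src_sub k hk'⟩
    obtain ⟨u, v, w, hu, hv, hw, h3⟩ := (PushS768.quot1 C hpc).M3_iff.1 hM
    have h1 := (PushS768.quot1 C hpc).down_apply hmem h3
    have h2 := EBF151.kapY_apply (C := C) (hpc := hpc) (κ := κ) h3
    rw [← hu, ← hv, ← hw]
    exact (h1.trans h2).symm

end link

end

end Crest.Agent.R275.NefG672
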