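import Crest.Agent.R275.SkelEndY_69
import Crest.Agent.R275.IterHyp_572
import Crest.Agent.R275.AnInst_539
import Crest.Agent.R275.NefG_672

/-!
# R275, helper69: the END half, final form

* `hit_of_yan`   : the iteration, from `YAn`
* `shell_of_yan` : `G : XGeo X`, orientation (`LargeEnd`), `F : Forms G.Pn`, the link and
  `K · D ≥ 0` on `X`, and the analytic data `YAn` at every nonspectral rate ⟹
  `HasGlobalSphericalShell X`
-/

set_option autoImplicit false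
set_option linter.unusedSectionVars false

open Set Filter Topology
open scoped Manifold ContDiff

namespace Crest.Agent.R275.SkelEnd69

open Crest.AlgGeometry.Surface Crest.Agent.R275.Geo Crest.Agent.R275.Core144
open Crest.Agent.R275.NAtl938 Crest.Agent.R275.Base144 Crest.Agent.R275.Cls938
open Crest.Agent.R275.EB938 Crest.Agent.R275.Loc647 Crest.Agent.R275.LocT474
open Crest.Agent.R275.Dv69 (HolN LEq EffDiv gt LocFact DivFin)
open Crest.Agent.R275.HolY631 (Deck)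
open Crest.Agent.R275.GeoP572 Crest.Agent.R275.Sec495 Crest.Agent.R275.S5In95
open Crest.Agent.R275.Int495 Crest.Agent.R275.RootS5595 Crest.Agent.R275.Rech69
open Crest.Agent.R275.St3686 Crest.Agent.R275.Sol352 Crest.Agent.R275.Lau473
open Crest.Agent.R275.Fin468 Crest.Agent.R275.Xin473 Crest.Agent.R275.Tr5
open Crest.Agent.R275.SkelY144 (YOut N8Out)
open Crest.Agent.R275.BR4672 (gB BdG LowE NZ)
open Crest.Agent.R275.TInA672 (YDat Pre)
open Crest.Agent.R275.ZC352 Crest.Agent.R275.XN194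
open Crest.Agent.R275.EReg572 Crest.Agent.R275.IterAll539 Crest.Agent.R275.YBG812

noncomputable section

section hit

variable {Y : Type} [TopologicalSpace Y] [T2Space Y] [ConnectedSpace Y] [ChartedSpace C2 Y]
  [IsManifold 𝓘(ℂ, C2) 1 Y] [LocFact Y] [DivFin Y]

/-- `YAn` with 160's families -/
def FamOK (B : YBase Y) {q : LB B.N.sm → ℤ} {d : ℝ}
    (Z : YAn B.N.sm B.K B.h (PP B.N B.h) q d) : Prop :=
  ∀ L (hL : L ∈ PP B.N B.h) (hB : L ∈ BG B), (Z.F L (Z.bgP L hL)).W = FamY160.wY B L hB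

/-- **the iteration, from `YAn`** -/
theorem hit_of_yan {B : YBase Y} {Pn : Nerve B.N.ι} {F : Forms Pn} {d : ℝ} {b : ℕ}
    {E : Fin b × ℤ → LB B.N.sm} {s : Fin b × ℤ → B.N.ι → Y → ℂ} (Hp : Pre B F d E s)
    (H : TIn B.N.sm B.h B.g B.equi (PP B.N B.h) (gB (Fin b)) Prod.snd E (qL F B.h) s)
    (Z : YAn B.N.sm B.K B.h (PP B.N B.h) (qL F B.h) d) (hF : FamOK B Z)
    (O : Ord495 H.toDivData.toData) (m : ℤ) (N : Set Y) (hN : IsOpen N)
    (hDN : (Dk H O m).supp ⊆ N) (hT : ∃ T : ℝ, {z | B.h z ≤ T} ⊆ N)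
    (hN' : ∃ H0 : ℝ, ∀ z ∈ N, B.h z ≤ H0) : IterHyp H O m N := by
  have hd : 0 < d := Z.sol.pos
  have hS := Hp.hasS
  have hLk := Hp.links (TInA672.idx_of_yan Z B.K_sub (one_pos))
  refine iterHyp_sol H O hS B.cor (ug_Y B) B.P hLk Z.sol m ?_ N hN hDN hT hN'
  have h1 : LZk H O (m - 1) ∈ PP B.N B.h := LZk_mem H O (m - 1)
  have h2 : sZk H O (m - 1) ∈ VL B.h (LZk H O (m - 1)) := sZk_mem H O (m - 1)
  obtain ⟨c, hc⟩ := hS _ h1 _ h2
  obtain ⟨c', hc'⟩ : ∃ c', LimL (A := B.N.sm) B.h (sZk H O (m - 1)) c' := by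
    by_cases h0 : sZk H O (m - 1) = 0
    · exact ⟨0, by rw [h0]; exact fun ε hε => ⟨0, fun i x _ _ => by simpa using hε⟩⟩
    · obtain ⟨c', -, hc'⟩ := H.lim _ h1 _ h2 h0
      exact ⟨c', hc'⟩
  exact ⟨_, _, _, anIn_yan Z hF h1 (inv_mem_BG (mem_BG_of_PG (PP_le h1))) h2 hc hc'
    (a := d / 4) (b := d / 2) (by linarith) (by linarith) (by linarith) (by linarith)
    (le_refl 3)⟩

end hit

/-- **the END half, final form** -/
theorem shell_of_yan {X : Type} [TopologicalSpace X] [T2Space X] [CompactSpace X]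
    [ConnectedSpace X] [ChartedSpace C2 X] [IsManifold 𝓘(ℂ, C2) 1 X] (G : XGeo X)
    [ConnectedSpace (YC G.u)] (hle : ∀ t ∈ Spec (YC.dk G.u), ‖t‖ ≤ 1) (F : Forms G.Pn)
    {I : KR798.KIndex (Smf798.smf G.N.sm)} (hlink : PushS768.Link G.preC F G.P I)
    (hK : ∀ (L : LB G.N.sm) (s : G.N.ι → X → ℂ), IsHS L univ s → s ≠ 0 →
      0 ≤ QX825.bb G.P I (KB G.N.sm) L)
    (an : ∀ d : ℝ, 0 < d → (∀ r : ℝ, 0 < r → r < d → NonSp (YC.dk G.u) (-r)) →
      ∃ Z : YAn G.yBase.N.sm G.yBase.K G.yBase.h (PP G.yBase.N G.yBase.h) (qL F G.yBase.h) d,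
        FamOK G.yBase Z) :
    HasGlobalSphericalShell X := by
  obtain ⟨d, hd, hns⟩ := exists_d0 (deck_YC G.u)
  obtain ⟨Z, hF⟩ := an d hd fun r hr hrd =>
    hns (-r) (neg_ne_zero.2 hr.ne') (by rw [abs_neg, abs_of_pos hr]; exact hrd.le)
  obtain ⟨b, E, s, Hp, H, n1, n2⟩ := NefG672.exists_tinG G F Z hlink hK
  have nef := NefG672.nefG G Hp hlink hK
  have yo : YOut G.yBase F d E s := ⟨Hp, H, Hp.tinS nef, ⟨H.genus, H.inter, n1, n2⟩⟩
  refine shell_of_yOut G F yo hle (fun d' hd' hn => ?_) fun O m N hN hDN hT hN' _ _ =>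
    hit_of_yan Hp yo.tin Z hF O m N hN hDN hT hN'
  obtain ⟨Z', -⟩ := an d' hd' hn
  exact Z'.sol

end

end Crest.Agent.R275.SkelEnd69
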