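import Crest.Agent.R275.ExcF_861
import Crest.Agent.R275.ExcF_685
import Crest.Agent.R275.UpL_473
import Crest.Agent.R275.GauE_511
import Crest.Agent.R275.CIdxB_509

/-!
# R275, block D, EXC (helper861), file G: the excision theorem for an integral 2-cocycle

* `edata` : the instance of 685's `EData` for `exc W h hP hc hcN t₂ t₃`.
* `RS.unchg` : change of the transition matrices off the overlaps; `tw_chg`:
  `tw (lam2 A) E = chg (tw (C.pullB (lam2 A')) E) ..`;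
* `RS.ofWSm`, `std_wsm` : 681's weighted spaces; `RS.ofFin`, `std_fin` : all sections over a finite
  atlas;
* `exc_index` : `D.ind - D₀.ind = indB P' (tw (lam2 A') (EcV P' hcN)) - indB P' (.. 0)`.
-/

set_option autoImplicit false
set_option linter.unusedSectionVars false

open Set Filter Topology Complex
open scoped ContDiff Matrix ComplexConjugate Kronecker

namespace Crest.Agent.R275.ExcG861

open Geo XN194 FHom556 Exc685 ExcE861 ExcF861 EcV938 GC293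

noncomputable section

theorem kron_one_mulVec {p q r : Type} [Fintype p] [DecidableEq p] [Fintype r] [Unique r]
    (v : p × r → ℂ) (k : p × q) {c : ℂ} (hc : c = 1) :
    (((1 : Matrix p p ℂ) ⊗ₖ (Matrix.of (fun (_ : q) (_ : r) => c))) *ᵥ v) k =
      v (k.1, default) := by
  subst hc
  show ∑ l : p × r, (1 : Matrix p p ℂ) k.1 l.1 * 1 * v l = _
  rw [Fintype.sum_prod_type, Finset.sum_eq_single k.1]
  · rw [Fintype.sum_unique, Matrix.one_apply_eq, one_mul, one_mul]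
  · intro l _ hl
    rw [Fintype.sum_unique, Matrix.one_apply_ne hl.symm, zero_mul, zero_mul]
  · intro h
    exact absurd (Finset.mem_univ _) h

section edata

variable {n : ℕ} {M M' : Type} [TopologicalSpace M] [TopologicalSpace M']
  {A : Atl n M} {A' : Atl n M'} {C : Cov A A'}

variable {S : Slab C} {P : Part A} {P' : Part A'} {c : A.ι → A.ι → A.ι → ℤ}
  {cN : A'.ι → A'.ι → A'.ι → ℤ} {E₂ : VBun A'} {E₃ : VBun A} [Unique E₂.ρ] [Unique E₃.ρ]

/-- multiplication by a function which is `1` off the compact slab -/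
theorem offId_tw {E E' : VBun A} [Unique E.ρ] [Unique E'.ρ] {f : M → ℂ} {hf : A.Sm f}
    {hg : ∀ i j, ∀ x ∈ (A.e i).source ∩ (A.e j).source, f x ≠ 0 → gl E i j x = gl E' i j x}
    (B : FBun A) (hK : IsCompact S.K) (h1 : ∀ x ∉ S.K, f x = 1) :
    OffId P ((sc E E' f hf hg).tw B) (slabF S hK P) :=
  ⟨fun k => (k.1, default), fun _ => rfl, fun _ hi x _ hψ v k =>
    kron_one_mulVec v k (h1 x (notMem_slabF hi hψ))⟩

/-- **the excision data** -/
theorem edata (W : Win S) (h : CC W c cN) (hP : Exc685.IsLift C P P') (hc : c ∈ Z2 A ℤ)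
    (hcN : cN ∈ Z2 A' ℤ) (t₂ : Triv1 E₂) (t₃ : Triv1 E₃) (hK : IsCompact S.K) (B : FBun A')
    {N : ℕ} (hB : ∀ k, B.deg k ≤ N) :
    EData S P P' N ((exc W h hP.psi hc hcN t₂ t₃).maps B) where
  lift := hP
  cpt := hK
  inv := (exc W h hP.psi hc hcN t₂ t₃).inv B
  inv' := (exc W h hP.psi hc hcN t₂ t₃).inv' B
  n1 k := hB k.1
  n2 k := hB k.1
  n3 k := hB k.1
  n4 k := hB k.1
  off := ⟨slabF S hK P, offId_tw (C.pullB B) hK W.offψ⟩
  off' := ⟨slabF S hK P, offId_tw (C.pullB B) hK W.offψ⟩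
  offd := ⟨slabF S hK P, fun i hi x _ hψ => (off_exc W h hP.psi hc hcN t₂ t₃ B).a13 i x
    (notMem_slabF hi hψ)⟩
  offd' := ⟨slabF S hK P, fun i hi x _ hψ => (off_exc W h hP.psi hc hcN t₂ t₃ B).a31 i x
    (notMem_slabF hi hψ)⟩

end edata

/-! ### change of the transition matrices off the overlaps -/

section chg

open Tor812 TorS666 Ret666 Fred685 WY4193 RetC666 UpL473

variable {n : ℕ} {M : Type} [TopologicalSpace M] {A : Atl n M} {P : Part A} {B : FBun A}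
  {τ' : A.ι → A.ι → M → Matrix B.κ B.κ ℂ}
  {h : ∀ i j, ∀ x ∈ (A.e i).source ∩ (A.e j).source, τ' i j x = B.τ i j x}
  {hd : ∀ i j x k l, τ' i j x k l ≠ 0 → B.deg k = B.deg l} {N : ℕ} {om : A.ι → ℝ}
  {V : Type*} [AddCommGroup V] [Module ℂ V]

/-- the identity `Sec (chg B ..) = Sec B` -/
def unE (B : FBun A) (τ' : A.ι → A.ι → M → Matrix B.κ B.κ ℂ)
    (h : ∀ i j, ∀ x ∈ (A.e i).source ∩ (A.e j).source, τ' i j x = B.τ i j x)
    (hd : ∀ i j x k l, τ' i j x k l ≠ 0 → B.deg k = B.deg l) :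
    Sec (chg B τ' h hd) ≃ₗ[ℂ] Sec B := LinearEquiv.ofEq _ _ sec_chg

theorem unE_coe (u : Sec (chg B τ' h hd)) : (unE B τ' h hd u).1 = u.1 := rfl

theorem unE_nab (u : Sec (chg B τ' h hd)) :
    unE B τ' h hd (nabL (chg B τ' h hd) u) = nabL B (unE B τ' h hd u) := Subtype.ext rfl

theorem unE_pqL (q : ℕ) (u : Sec (chg B τ' h hd)) :
    unE B τ' h hd (pqL (chg B τ' h hd) q u) = pqL B q (unE B τ' h hd u) := Subtype.ext rfl

theorem unE_loc (u : Sec (chg B τ' h hd)) (p : A.ι × B.κ) :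
    LocV P (unE B τ' h hd u) p = LocV P u p := rfl

/-- the same space of sections -/
def unchg (X : RS P (chg B τ' h hd) N om V) : RS P B N om V where
  R := X.R
  e := X.e
  om_eq := X.om_eq
  sh_eq := X.sh_eq
  inc := (unE B τ' h hd).toLinearMap ∘ₗ X.inc
  inj := (unE B τ' h hd).injective.comp X.inj
  loc_eq := X.loc_eq
  surj u hu := by
    obtain ⟨v, hv⟩ := X.surj ((unE B τ' h hd).symm u) hu
    exact ⟨v, by
      show unE B τ' h hd (X.inc v) = u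
      rw [hv]
      exact (unE B τ' h hd).apply_symm_apply u⟩

theorem unchg_sc (X : RS P (chg B τ' h hd) N om V) : (unchg X).sc = X.sc := rfl

theorem unchg_inc (X : RS P (chg B τ' h hd) N om V) (v : V) :
    (unchg X).inc v = unE B τ' h hd (X.inc v) := rfl

theorem unchg_std {X : RS P (chg B τ' h hd) N om V} {G : Gd X.sc} (hG : EData.Std X G) :
    EData.Std (unchg X) (G : Gd (unchg X).sc) where
  pi q v := by
    rw [unchg_inc, hG.pi, unE_pqL]
    rfl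
  T := hG.T

theorem unchg_nab {X : RS P (chg B τ' h hd) N om V} {d : V →ₗ[ℂ] V}
    (hd' : ∀ v, X.inc (d v) = nabL (chg B τ' h hd) (X.inc v)) (v : V) :
    (unchg X).inc (d v) = nabL B ((unchg X).inc v) := by
  rw [unchg_inc, hd', unE_nab]
  rfl

end chg

/-! ### twists -/

section tw

open Tor812 TorS666 Ret666 Fred685 WY4193 RetC666 UpL473

variable {n : ℕ} {M : Type} [TopologicalSpace M] {A : Atl n M} {P : Part A} {B : FBun A}
  {τ' : A.ι → A.ι → M → Matrix B.κ B.κ ℂ}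
  {h : ∀ i j, ∀ x ∈ (A.e i).source ∩ (A.e j).source, τ' i j x = B.τ i j x}
  {hd : ∀ i j x k l, τ' i j x k l ≠ 0 → B.deg k = B.deg l} {N : ℕ} {om : A.ι → ℝ}
  {V : Type*} [AddCommGroup V] [Module ℂ V] {E : VBun A}

theorem tw_h (B : FBun A) (τ' : A.ι → A.ι → M → Matrix B.κ B.κ ℂ)
    (h : ∀ i j, ∀ x ∈ (A.e i).source ∩ (A.e j).source, τ' i j x = B.τ i j x) (E : VBun A)
    (i j : A.ι) (x : M) (hx : x ∈ (A.e i).source ∩ (A.e j).source) :
    (τ' i j x ⊗ₖ E.g i j x : Matrix (B.κ × E.ρ) (B.κ × E.ρ) ℂ) = (tw B E).τ i j x := by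
  rw [h i j x hx]
  rfl

theorem tw_hd (B : FBun A) (τ' : A.ι → A.ι → M → Matrix B.κ B.κ ℂ)
    (hd : ∀ i j x k l, τ' i j x k l ≠ 0 → B.deg k = B.deg l) (E : VBun A)
    (i j : A.ι) (x : M) (k l : B.κ × E.ρ)
    (h : (τ' i j x ⊗ₖ E.g i j x : Matrix (B.κ × E.ρ) (B.κ × E.ρ) ℂ) k l ≠ 0) :
    (tw B E).deg k = (tw B E).deg l := hd i j x k.1 l.1 (left_ne_zero_of_mul h)

/-- twisting commutes with the change of the transition matrices -/
theorem tw_chg (B : FBun A) (τ' : A.ι → A.ι → M → Matrix B.κ B.κ ℂ)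
    (h : ∀ i j, ∀ x ∈ (A.e i).source ∩ (A.e j).source, τ' i j x = B.τ i j x)
    (hd : ∀ i j x k l, τ' i j x k l ≠ 0 → B.deg k = B.deg l) (E : VBun A) :
    tw (chg B τ' h hd) E = chg (tw B E) (fun i j x => τ' i j x ⊗ₖ E.g i j x) (tw_h B τ' h E)
      (tw_hd B τ' hd E) := rfl

/-- the same space of sections -/
def untw (X : RS P (tw (chg B τ' h hd) E) N om V) : RS P (tw B E) N om V :=
  unchg (B := tw B E) (τ' := fun i j x => τ' i j x ⊗ₖ E.g i j x) (h := tw_h B τ' h E)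
    (hd := tw_hd B τ' hd E) X

theorem untw_std {X : RS P (tw (chg B τ' h hd) E) N om V} {G : Gd X.sc} (hG : EData.Std X G) :
    EData.Std (untw X) (G : Gd (untw X).sc) :=
  unchg_std (B := tw B E) (τ' := fun i j x => τ' i j x ⊗ₖ E.g i j x) (h := tw_h B τ' h E)
    (hd := tw_hd B τ' hd E) hG

theorem untw_nab {X : RS P (tw (chg B τ' h hd) E) N om V} {d : V →ₗ[ℂ] V}
    (hd' : ∀ v, X.inc (d v) = nabL (tw (chg B τ' h hd) E) (X.inc v)) (v : V) :
    (untw X).inc (d v) = nabL (tw B E) ((untw X).inc v) :=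
  unchg_nab (B := tw B E) (τ' := fun i j x => τ' i j x ⊗ₖ E.g i j x) (h := tw_h B τ' h E)
    (hd := tw_hd B τ' hd E) hd' v

end tw

/-! ### the excision theorem -/

section main

open Tor812 TorS666 Ret666 Fred685 WY4193 RetC666 UpL473

variable {n : ℕ} {M M' : Type} [TopologicalSpace M] [TopologicalSpace M']
  {A : Atl n M} {A' : Atl n M'} {C : Cov A A'}

/-- `B` is the pull back of `B'`, up to the transition matrices off the overlaps -/
def Ch (C : Cov A A') (B : FBun A) (B' : FBun A') : Prop :=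
  ∃ (τ' : A.ι → A.ι → M → Matrix (C.pullB B').κ (C.pullB B').κ ℂ)
    (h : ∀ i j, ∀ x ∈ (A.e i).source ∩ (A.e j).source, τ' i j x = (C.pullB B').τ i j x)
    (hd : ∀ i j x k l, τ' i j x k l ≠ 0 → (C.pullB B').deg k = (C.pullB B').deg l),
    B = chg (C.pullB B') τ' h hd

variable {S : Slab C} {P : Part A} {P' : Part A'} {c : A.ι → A.ι → A.ι → ℤ}
  {cN : A'.ι → A'.ι → A'.ι → ℤ} {E₂ : VBun A'} {E₃ : VBun A} [Unique E₂.ρ] [Unique E₃.ρ]
  {B : FBun A} {B' : FBun A'} {N : ℕ} {om : A.ι → ℝ} {om' : A'.ι → ℝ}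
  {V₁ V₂ V₃ V₄ : Type*} [AddCommGroup V₁] [Module ℂ V₁]
  [AddCommGroup V₂] [Module ℂ V₂] [AddCommGroup V₃] [Module ℂ V₃] [AddCommGroup V₄] [Module ℂ V₄]

/-- **excision**, any bundle `B` on `Y`, `B'` on `X_N` with `B = C^* B'` -/
theorem exc_index [Finite A'.ι] (hB : Ch C B B') (W : Win S) (h : CC W c cN)
    (hP : Exc685.IsLift C P P') (hc : c ∈ Z2 A ℤ) (hcN : cN ∈ Z2 A' ℤ) (t₂ : Triv1 E₂)
    (t₃ : Triv1 E₃) (hK : IsCompact S.K) (hN : ∀ k, B'.deg k ≤ N)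
    {X₁ : RS P (tw B (EcV P hc)) N om V₁} {X₂ : RS P' (tw B' E₂) N om' V₂}
    {X₃ : RS P (tw B E₃) N om V₃} {X₄ : RS P' (tw B' (EcV P' hcN)) N om' V₄}
    {G₁ : Gd X₁.sc} {G₂ : Gd X₂.sc} {G₃ : Gd X₃.sc} {G₄ : Gd X₄.sc}
    (h1 : EData.Std X₁ G₁) (h2 : EData.Std X₂ G₂) (h3 : EData.Std X₃ G₃) (h4 : EData.Std X₄ G₄)
    (Q₁ : QC G₁) (Q₂ : QC G₂) (Q₃ : QC G₃) (Q₄ : QC G₄)
    (d1 : ∀ v, X₁.inc (Q₁.d v) = nabL _ (X₁.inc v))
    (d2 : ∀ v, X₂.inc (Q₂.d v) = nabL _ (X₂.inc v))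
    (d3 : ∀ v, X₃.inc (Q₃.d v) = nabL _ (X₃.inc v))
    (d4 : ∀ v, X₄.inc (Q₄.d v) = nabL _ (X₄.inc v)) :
    Q₁.ind + Q₂.ind = Q₃.ind + Q₄.ind := by
  obtain ⟨τ', h', hd, rfl⟩ := hB
  exact (edata W h hP hc hcN t₂ t₃ hK B' hN).index (X₁ := untw X₁) (X₂ := X₂) (X₃ := untw X₃)
    (X₄ := X₄) (G₁ := G₁) (G₃ := G₃) (untw_std h1) h2 (untw_std h3) h4 Q₁ Q₂ Q₃ Q₄
    (untw_nab d1) d2 (untw_nab d3) d4

end main

end

end Crest.Agent.R275.ExcG861
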