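import Crest.Agent.R275.ExcG_861

/-!
# R275, block D, EXC (helper861), file H: the excision theorem on the weighted spaces

* `ch_lam2 : Ch C (lam2 A) (lam2 A')`;
* `ofWSm h w : RS P B n w.w (WSm B w)` (681's weighted spaces), `std_wsm` from 511's `IsDG`;
* `ofFin P B N : RS P B N _ (Sec B)` over a finite atlas, `std_fin`;
* `exc_ind` : `D.ind - D₀.ind = indB P' (tw (lam2 A') (EcV P' hcN)) - indB P' (tw (lam2 A') E₂)`.
-/

set_option autoImplicit false
set_option linter.unusedSectionVars false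

open Set Filter Topology Complex
open scoped ContDiff Matrix ComplexConjugate Kronecker

namespace Crest.Agent.R275.ExcG861

open Geo XN194 FHom556 Exc685 ExcE861 ExcF861 EcV938 GC293

noncomputable section

/-! ### `lam2` -/

section lam2

open UpL473 Lam2130

variable {M M' : Type} [TopologicalSpace M] [TopologicalSpace M'] {A : Atl 2 M} {A' : Atl 2 M'}
  (C : Cov A A')

theorem jm_cov {i j : A.ι} {x : M} (hx : x ∈ (A.e i).source ∩ (A.e j).source) :
    Jm A i j x = Jm A' (C.r i) (C.r j) (C.p x) := by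
  ext b a
  exact C.J_eq hx b a

theorem lam2_tau (i j : A.ι) (x : M) (hx : x ∈ (A.e i).source ∩ (A.e j).source) :
    (tauM (Jm A i j x) : Matrix (Fin 4) (Fin 4) ℂ) = (C.pullB (lam2 A')).τ i j x := by
  rw [jm_cov C hx]
  rfl

theorem lam2_deg (i j : A.ι) (x : M) (k l : Fin 4) (h : tauM (Jm A i j x) k l ≠ 0) :
    dg k = dg l := (lam2 A).τ_deg i j x k l h

/-- **`lam2` of the covering space is the pull back of `lam2`** -/
theorem ch_lam2 : Ch C (lam2 A) (lam2 A') :=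
  ⟨fun i j x => tauM (Jm A i j x), lam2_tau C, lam2_deg, rfl⟩

theorem lam2_deg_le (k : (lam2 A').κ) : (lam2 A').deg k ≤ 2 := by
  change dg k ≤ 2
  fin_cases k <;> decide

end lam2

/-! ### 681's weighted spaces -/

section wsm

open Tor812 TorS666 Ret666 Fred685 WY4193 RetC666

variable {n : ℕ} {M : Type} [TopologicalSpace M] {A : Atl n M} {P : Part A} {Q : WY681.PNb P}
  {B : FBun A}

/-- 681's weighted space -/
def ofWSm (h : WY681.BGeo P B) (w : WY681.Wt Q) : RS P B n w.w (WY681.WSm B w) where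
  R := WY681.ret h w
  e := Equiv.refl _
  om_eq _ := rfl
  sh_eq _ := rfl
  inc := (WY681.WSm B w).subtype
  inj := Subtype.coe_injective
  loc_eq _ _ := rfl
  surj u hu := ⟨⟨u, hu⟩, rfl⟩

theorem ofWSm_sc (h : WY681.BGeo P B) (w : WY681.Wt Q) : (ofWSm h w).sc = WY681.sc h w := rfl

theorem std_wsm {h : WY681.BGeo P B} {w : WY681.Wt Q} {G : Gd (WY681.sc h w)}
    (hG : Gau511.IsDG h w G) : EData.Std (ofWSm h w) (G : Gd (ofWSm h w).sc) where
  pi q v := hG.pi q v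
  T v := by rw [hG.T]

end wsm

/-! ### finite atlases -/

section fin

open Tor812 TorS666 Ret666 Fred685 WY4193 RetC666 CIdx509 IndLink509

variable {n : ℕ} {M : Type} [TopologicalSpace M] {A : Atl n M} [Finite A.ι] (P : Part A)
  (B : FBun A) (N : ℕ)

/-- all sections over a finite atlas -/
def ofFin : RS P B N (Wt.one P).w (Sec B) := RS.ofSV (XS P B) N

theorem ofFin_sc : (ofFin P B N).sc = scS P B N := rfl

theorem std_fin (hm : topDeg B ≤ N) :
    EData.Std (ofFin P B N) (gd P B N hm : Gd (ofFin P B N).sc) where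
  pi _ _ := rfl
  T _ := rfl

end fin

/-! ### excision -/

section main

open Tor812 TorS666 Ret666 Fred685 WY4193 RetC666 CIdx509 IndLink509

variable {M M' : Type} [TopologicalSpace M] [TopologicalSpace M'] {A : Atl 2 M} {A' : Atl 2 M'}
  {C : Cov A A'} {S : Slab C} {P : Part A} {P' : Part A'} {c : A.ι → A.ι → A.ι → ℤ}
  {cN : A'.ι → A'.ι → A'.ι → ℤ} {E₂ : VBun A'} {E₃ : VBun A} [Unique E₂.ρ] [Unique E₃.ρ]
  {B : FBun A} {B' : FBun A'} {Q : WY681.PNb P} {w : WY681.Wt Q}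

theorem topDeg_tw (E : VBun A') (hN : ∀ k, B'.deg k ≤ 2) : topDeg (tw B' E) ≤ 2 :=
  Finset.sup_le fun k _ => hN k.1

/-- **excision**: `Y` with 681's weighted spaces (any weight), `X_N` with a finite atlas -/
theorem exc_ind [Finite A'.ι] (hB : Ch C B B') (hN : ∀ k, B'.deg k ≤ 2) (W : Win S)
    (h : CC W c cN) (hP : Exc685.IsLift C P P') (hc : c ∈ Z2 A ℤ) (hcN : cN ∈ Z2 A' ℤ)
    (t₂ : Triv1 E₂) (t₃ : Triv1 E₃) (hK : IsCompact S.K)
    {h₁ : WY681.BGeo P (tw B (EcV P hc))} {h₃ : WY681.BGeo P (tw B E₃)}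
    {G₁ : Gd (WY681.sc h₁ w)} {G₃ : Gd (WY681.sc h₃ w)} {D : QC G₁} {D₀ : QC G₃}
    (hD : Gau511.IsDQ D) (hD₀ : Gau511.IsDQ D₀) :
    D.ind - D₀.ind = indB P' (tw B' (EcV P' hcN)) - indB P' (tw B' E₂) := by
  have m2 := topDeg_tw (B' := B') E₂ hN
  have m4 := topDeg_tw (B' := B') (EcV P' hcN) hN
  have key := exc_index hB W h hP hc hcN t₂ t₃ hK hN (X₁ := ofWSm h₁ w)
    (X₂ := ofFin P' (tw B' E₂) 2) (X₃ := ofWSm h₃ w) (X₄ := ofFin P' (tw B' (EcV P' hcN)) 2)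
    (G₁ := G₁) (G₂ := gd P' (tw B' E₂) 2 m2) (G₃ := G₃)
    (G₄ := gd P' (tw B' (EcV P' hcN)) 2 m4)
    (std_wsm hD.dg) (std_fin P' _ 2 m2) (std_wsm hD₀.dg) (std_fin P' _ 2 m4)
    D (qc P' (tw B' E₂) 2 m2) D₀ (qc P' (tw B' (EcV P' hcN)) 2 m4)
    hD.d (fun _ => rfl) hD₀.d (fun _ => rfl)
  have key' : D.ind + indB P' (tw B' E₂) = D₀.ind + indB P' (tw B' (EcV P' hcN)) := by
    rw [← qc_ind P' (tw B' E₂) 2 m2, ← qc_ind P' (tw B' (EcV P' hcN)) 2 m4]
    exact key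
  omega

/-- **excision for `lam2`** -/
theorem exc_ind_lam2 [Finite A'.ι] (W : Win S)
    (h : CC W c cN) (hP : Exc685.IsLift C P P') (hc : c ∈ Z2 A ℤ) (hcN : cN ∈ Z2 A' ℤ)
    (hK : IsCompact S.K)
    {h₁ : WY681.BGeo P (tw (Lam2130.lam2 A) (EcV P hc))}
    {h₃ : WY681.BGeo P (tw (Lam2130.lam2 A) (EcV P (c := 0) (Z2 A ℤ).zero_mem))}
    {G₁ : Gd (WY681.sc h₁ w)} {G₃ : Gd (WY681.sc h₃ w)} {D : QC G₁} {D₀ : QC G₃}
    (hD : Gau511.IsDQ D) (hD₀ : Gau511.IsDQ D₀) :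
    D.ind - D₀.ind = indB P' (tw (Lam2130.lam2 A') (EcV P' hcN)) -
      indB P' (tw (Lam2130.lam2 A') (EcV P' (c := 0) (Z2 A' ℤ).zero_mem)) :=
  exc_ind (ch_lam2 C) lam2_deg_le W h hP hc hcN triv1_EcV triv1_EcV hK hD hD₀

end main

end

end Crest.Agent.R275.ExcG861
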