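import Crest.Agent.R275.ExcOK_130
import Crest.Agent.R275.ExcW_938

/-!
# R275, block D, leaf D7 (helper130): the window for the base `G.yBase`, `G : XGeo X`

`exists_hW` : the heights on the sheets; `exists_ccG` : 938's slab and window for all large `N`;
`isLiftG` : the partition of `Y` is the lift of the one of `X_N`.
-/

set_option autoImplicit false
set_option linter.unusedSectionVars false

open Set Filter Topology Complex
open scoped Manifold ContDiff Matrix ComplexConjugate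

noncomputable section

namespace Crest.Agent.R275.ExcOK130

open Geo NAtl938 Core144 Base144 XN194 NTr151 NGeo151 EBF151 Loc647 IndW938 ExcW938 ExcF861
open PartN194 SlabY194 ZC352 Exc685
open Crest.Agent.R275.GC293 (Z2)
open Crest.AlgGeometry.Surface

variable {X : Type} [TopologicalSpace X] [ChartedSpace C2 X] [IsManifold 𝓘(ℂ, C2) 1 X]
  [CompactSpace X] [T2Space X] (G : XGeo X)

theorem exists_hW : ∃ W : ℝ, ∀ (q : G.N.ι × ℤ), ∀ z ∈ G.C.sheet q.1 q.2,
    |YC.ht G.u z + q.2| ≤ W := by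
  obtain ⟨W, hW⟩ := LocT474.lifts_bdd (ε := 1 / 4) G.L fun i x hx y hy =>
    G.osc' i x (big_sub G.N hx) y (big_sub G.N hy)
  refine ⟨W, fun q z hz => ?_⟩
  obtain ⟨h1, h2⟩ := (mem_ysheet G.u G.L).1 hz
  have h3 : YC.ht G.u z + (q.2 : ℝ) = G.L.f q.1 (YC.pr G.u z) := by rw [h2]; ring
  rw [h3]
  exact hW q.1 _ h1

/-- **slab, window and `CC`** for the geometric base -/
theorem exists_ccG {c : C2 (G.N.ι × ℤ)} (hc : c ∈ G.Pn.Z2c) :
    ∃ N₀ : ℕ, ∀ N : ℕ, N₀ < N → ∀ (hN : 1 ≤ N) {Z' : Type} [TopologicalSpace Z'] [T2Space Z']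
      {C' : KCov G.N.big Z' (ZMod N)} (K : KHom G.C C') (hφ : ∀ k : ℤ, K.φ k = (k : ZMod N)),
      ∃ (S : Slab (nhom G.N G.C le_rfl K)) (Wn : Win S), IsCompact S.K ∧
        CC Wn (show G.yBase.N.sm.ι → G.yBase.N.sm.ι → G.yBase.N.sm.ι → ℤ from c)
          (cN K hφ G.preC hc hN).1 := by
  obtain ⟨W, hW⟩ := exists_hW G
  exact exists_cc (NA := G.N) (C := G.C) le_rfl G.preC (ht_ht G.u G.L) G.yBase.smooth_sm
    (fun α β => YC.isCompact_slab G.u α β) hW hc

/-- the partition of `Y` is the lift of the partition of `X_N` -/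
theorem isLiftG {N : ℕ} {Z' : Type} [TopologicalSpace Z'] {C' : KCov G.N.big Z' (ZMod N)}
    (K : KHom G.C C') :
    Exc685.IsLift (nhom G.N G.C le_rfl K) G.yBase.P (PN G C') :=
  isLiftN_hom le_rfl G.P K

theorem isLiftG' {N : ℕ} {Z' : Type} [TopologicalSpace Z'] {C' : KCov G.N.big Z' (ZMod N)}
    (K : KHom G.C C') :
    EcV938.IsLift (nhom G.N G.C le_rfl K) G.yBase.P (PN G C') :=
  isLiftN_hom' le_rfl G.P K

end Crest.Agent.R275.ExcOK130
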