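import Crest.Agent.R275.ExcH_685
import Crest.Agent.R275.ExcP_130

/-!
# R275, block D, EXC (helper685), file J: the excision identity for the geometric base
-/

set_option autoImplicit false
set_option linter.unusedSectionVars false

open Set Filter Topology Complex
open scoped Manifold ContDiff Matrix ComplexConjugate

noncomputable section

namespace Crest.Agent.R275.Exc685

open Geo NAtl938 Core144 Base144 XN194 NTr151 NGeo151 EBF151 Loc647 IndW938 ExcW938 ExcF861
open PartN194 SlabY194 ZC352 ExcOK130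
open Crest.Agent.R275.GC293 (Z2)
open Crest.AlgGeometry.Surface

variable {X : Type} [TopologicalSpace X] [ChartedSpace C2 X] [IsManifold 𝓘(ℂ, C2) 1 X]
  [CompactSpace X] [T2Space X] (G : XGeo X)

/-- **the excision identity for the geometric base** -/
theorem excAt {c : C2 (G.N.ι × ℤ)} (hc : c ∈ G.Pn.Z2c) :
    ∃ N₀ : ℕ, ∀ N : ℕ, N₀ < N → ∀ (hN : 1 ≤ N) {Z' : Type} [TopologicalSpace Z'] [T2Space Z']
      {C' : KCov G.N.big Z' (ZMod N)} (K : KHom G.C C') (hφ : ∀ k : ℤ, K.φ k = (k : ZMod N)),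
      ExcAt G K hφ hc hN := by
  obtain ⟨N₀, h0⟩ := exists_ccG G hc
  refine ⟨N₀, fun N hlt hN Z' _ _ C' K hφ => ?_⟩
  have : NeZero N := ⟨by omega⟩
  have hfin : Finite (AN G C').ι := inferInstanceAs (Finite (G.N.ι × ZMod N))
  obtain ⟨S, Wn, hK, hcc⟩ := h0 N hlt hN K hφ
  intro hcs hf a b D D0 hD hD0
  exact index_exc Wn hcc (isLiftG' G K) (isLiftG G K) hK hcs
    (memN le_rfl K hφ G.preC hc hN) hD hD0

end Crest.Agent.R275.Exc685
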