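import Crest.Agent.R275.IndY_130
import Crest.Agent.R275.IndR_151
import Crest.Agent.R275.IndW_938
import Crest.Agent.R275.YBaseX_144

/-!
# R275, block D, leaf D7 (helper130): EXC for the base `G.yBase`, `G : XGeo X`

`ExcAt G K hφ hc hN` : the excision identity for the class `c` and the compact quotient `X_N` :
`D.ind + ind (EcV 0 on X_N) = D0.ind + ind (EcV c_N on X_N)`.
`excOK` : `ExcOK G.yBase F` from `ExcAt` for all large `N`, the data `XNIn` and 151's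
`q0_eq_chi_res`.
-/

set_option autoImplicit false
set_option linter.unusedSectionVars false

open Set Filter Topology Complex
open scoped Manifold ContDiff Matrix ComplexConjugate

noncomputable section

namespace Crest.Agent.R275.ExcOK130

open Geo NAtl938 Core144 Base144 WY681 YBG812 Tor812 Q74 Lam2130 LauB681
open Fred685 EulW130 IndZ130 IndY130 Gau511 EcV938 EB938 Loc647 LocT474 IndW938 PartN194
open XN194 NTr151 NGeo151 EBF151 RAD151 ChiM825 CIdx509 NForm945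
open Crest.Agent.R275.GC293 (Z2 IsC1)
open Crest.AlgGeometry.Surface

variable {X : Type} [TopologicalSpace X] [ChartedSpace C2 X] [IsManifold 𝓘(ℂ, C2) 1 X]
  [CompactSpace X] [T2Space X] (G : XGeo X)

/-- the atlas of the small balls of `X_N` -/
abbrev AN {N : ℕ} {Z' : Type} [TopologicalSpace Z'] (C' : KCov G.N.big Z' (ZMod N)) : Atl 2 Z' :=
  (nlift G.N C').sm

/-- the partition of unity of `X_N` -/
abbrev PN {N : ℕ} {Z' : Type} [TopologicalSpace Z'] (C' : KCov G.N.big Z' (ZMod N)) :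
    Part (AN G C') := liftPN C' le_rfl G.P

/-- **the excision identity** for the class `c` and the compact quotient `X_N` -/
def ExcAt {N : ℕ} {Z' : Type} [TopologicalSpace Z'] {C' : KCov G.N.big Z' (ZMod N)}
    (K : KHom G.C C') (hφ : ∀ k : ℤ, K.φ k = (k : ZMod N)) {c : C2 (G.N.ι × ℤ)}
    (hc : c ∈ G.Pn.Z2c) (hN : 1 ≤ N) : Prop :=
  ∀ (hcs : c ∈ Z2 G.yBase.N.sm ℤ) (hf : Fin3 c) (a b : ℝ)
    (D : QC (gdW (Gau511.grF (bgeo_EcV G.yBase hcs hf) (hts G.yBase)) a b))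
    (D0 : QC (gdW (Gau511.grF (bgeo_EcV G.yBase (zero_mem (Z2 G.yBase.N.sm ℤ)) fin3_zero)
      (hts G.yBase)) a b)),
    IsDQ (hB := bgeo_EcV G.yBase hcs hf) (w := (hts G.yBase).wt (-a) b) D →
    IsDQ (hB := bgeo_EcV G.yBase (zero_mem (Z2 G.yBase.N.sm ℤ)) fin3_zero)
      (w := (hts G.yBase).wt (-a) b) D0 →
    D.ind + indB (PN G C') (tw (lam2 (AN G C')) (EcV (PN G C') (zero_mem (Z2 (AN G C') ℤ)))) =
      D0.ind + indB (PN G C') (tw (lam2 (AN G C')) (EN le_rfl K hφ G.preC hc hN G.P))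

variable {G}

/-- **`ExcOK`** for the geometric base on `Y` -/
theorem excOK {W : Weight G.Pn} {F : Forms G.Pn} (hIN : ∀ N c d, F.IN N c d = W.INZ N c d)
    {κ : G.N.big.ι → G.N.big.ι → G.N.big.ι → ℤ} (hκ : IsC1 (slb (KB G.N.big)) κ)
    (hkap : F.kap = kapY G.C G.preC κ)
    (hX : ∀ N₀ : ℕ, ∃ N > N₀, ∃ e : ℤ, Nonempty (XNIn W N e))
    (hE : ∀ (c : C2 (G.N.ι × ℤ)) (hc : c ∈ G.Pn.Z2c), ∃ N₁ : ℕ, ∀ N : ℕ, N₁ < N →
      ∀ (hN : 1 ≤ N) {Z' : Type} [TopologicalSpace Z'] [CompactSpace Z']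
        {C' : KCov G.N.big Z' (ZMod N)} (K : KHom G.C C') (hφ : ∀ k : ℤ, K.φ k = (k : ZMod N)),
        ExcAt G K hφ hc hN) : ExcOK G.yBase F := by
  intro c hc hcs hf a b D D0 hD hD0
  obtain ⟨N₀, h0⟩ := IndR151.q0_eq_chi_res hIN hκ hkap hc
  obtain ⟨N₁, h1⟩ := hE c hc
  obtain ⟨N, hN, e, ⟨E⟩⟩ := hX (max N₀ N₁)
  have hN0 : N₀ < N := lt_of_le_of_lt (le_max_left _ _) hN
  have hN1 : N₁ < N := lt_of_le_of_lt (le_max_right _ _) hN
  have hN' : 1 ≤ N := by omega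
  have : NeZero N := ⟨by omega⟩
  have hfin : Finite (AN G E.C').ι := inferInstanceAs (Finite (G.N.ι × ZMod N))
  have h2 := h1 N hN1 hN' E.F E.hφ hcs hf a b D D0 hD hD0
  have h3 := h0 N hN0 hN' e E (Refine.liftR G.N E.C' le_rfl) (PN G E.C') (geo2 (PN G E.C'))
    (fun L => euler_geo (PN G E.C') L)
  have h4 := indB_sub (PN G E.C') (PN G E.C') (PN G E.C')
    (memN le_rfl E.F E.hφ G.preC hc hN') (zero_mem (Z2 (AN G E.C') ℤ))
  have h5 : q0 F c = _ := h3.trans h4.symm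
  have h6 : D.ind = D0.ind + (indB (PN G E.C') (tw (lam2 (AN G E.C'))
        (EcV (PN G E.C') (memN le_rfl E.F E.hφ G.preC hc hN'))) -
      indB (PN G E.C') (tw (lam2 (AN G E.C')) (EcV (PN G E.C')
        (zero_mem (Z2 (AN G E.C') ℤ))))) := by
    linarith
  exact h6.trans (congrArg (fun t => D0.ind + t) h5.symm)

end Crest.Agent.R275.ExcOK130
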