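import Crest.Agent.R275.SkelXD_328
import Crest.Agent.R275.NA4m_783

/-!
R275 (S0418), X-SIDE (helper328), part 5: `IxAll` holds (acyclicity: helper783), hence the X side
without hypotheses.
-/

set_option autoImplicit false

open Set Filter Topology
open scoped Manifold ContDiff

noncomputable section

namespace Crest.Agent.R275.SkelX328

open Crest.AlgGeometry.Surface
open Geo GC293 CM615 NoeFin890 ZC352 YCneg630 FL884 Base144 Loc647

theorem hac_all {M : Type} [TopologicalSpace M] [T2Space M] [CompactSpace M] (A : Atl 2 M) :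
    Hac A := fun m q w hd h0 hn => by
  obtain ⟨v, -, -, h3, h4⟩ := NA4783.acyc (q := q) (m := m) (fun u => NoeAsm890.flat_prod u) w hd h0 hn
  exact ⟨v, h3, h4⟩

/-- **the index theoretic input** -/
theorem ixAll : IxAll := ixAll_of_hac fun _ _ _ _ A _ _ _ => hac_all A

/-- **the X side** -/
theorem exists_xdata (X : Type) [TopologicalSpace X] [T2Space X] [CompactSpace X]
    [ConnectedSpace X] [ChartedSpace C2 X] [IsManifold 𝓘(ℂ, C2) 1 X]
    (hb₁ : Crest.Topology.RationalHomology.rationalBettiNumber X 1 = 1)
    (hb₂ : Nontrivial (Crest.Topology.RationalHomology.rationalHomology X 2))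
    (hplu : PlurigeneraVanish X) (hmin : IsMinimal X) :
    ∃ (G : XGeo X) (F : Forms G.Pn), XData G F ∧
      (letI : MeasurableSpace (YC G.u) := borel (YC G.u); LargeEnd (YC.dk G.u) (YC.ht G.u)) :=
  exists_top X hb₁ hb₂ hplu hmin ixAll

end Crest.Agent.R275.SkelX328
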