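import Crest.Agent.R275.SkelXF_328
import Crest.Agent.R275.ExcP_130
import Crest.Agent.R275.ExcH_685

/-!
R275 (S0418), X-SIDE (helper328), part 7: `ExcOK` on `G.yBase` holds: helper130's slabs and windows
and helper685's excision theorem.
-/

set_option autoImplicit false

open Set Filter Topology
open scoped Manifold ContDiff

noncomputable section

namespace Crest.Agent.R275.SkelX328

open Crest.AlgGeometry.Surface
open Geo NAtl938 Core144 Base144 XN194 Loc647 NTr151 NGeo151 ChiM825 KR798 Smf798 ZC352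
open Lam2130 LauB681 PartN194 QPb635 KX106 XNI106 EBF151 YBG812 WY681 Gau511 Fred685 EulW130
open IndZ130 IndY130 EcV938 IndW938 CIdx509 ExcOK130 RAD151
open Crest.Agent.R275.GC293 (Z2 IsC1)

variable {X : Type} [TopologicalSpace X] [ChartedSpace C2 X] [IsManifold 𝓘(ℂ, C2) 1 X]
  [CompactSpace X] [T2Space X] (G : XGeo X)

/-- **the excision identity** on `X_n` for all large `n` -/
theorem excAt_xc {c : C2 (G.N.ι × ℤ)} (hc : c ∈ G.Pn.Z2c) : ∃ N₁ : ℕ, ∀ n : ℕ, N₁ < n →
    ∀ (hn : 1 ≤ n) [NeZero n], ExcAt G (yx G n) (yx_φ G n) hc hn := by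
  obtain ⟨N₁, h1⟩ := exists_ccG G hc
  refine ⟨N₁, fun n hn1 hn _ => ?_⟩
  obtain ⟨S, Wn, hK, hcc⟩ := h1 n hn1 hn (yx G n) (yx_φ G n)
  have hfin : Finite (AN G (xc G n)).ι := inferInstanceAs (Finite (G.N.ι × ZMod n))
  intro hcs hf a b D D0 hD hD0
  exact Exc685.index_exc Wn hcc (isLiftG' G (yx G n)) (isLiftG G (yx G n)) hK hcs
    (memN le_rfl (yx G n) (yx_φ G n) G.preC hc hn) hD hD0

variable {G}

/-- **`ExcOK`** -/
theorem excOK [ConnectedSpace X] {F : Forms G.Pn} (H : XData G F) : ExcOK G.yBase F :=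
  excOK_xData H fun _ hc => excAt_xc G hc

end Crest.Agent.R275.SkelX328
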