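import Crest.Agent.R275.TopC_144
import Crest.Agent.R275.TranY_474
import Crest.Agent.R275.SerYi_940
import Crest.Agent.R275.ExG_967
import Crest.Agent.R275.FrF_681
import Crest.Agent.R275.NoY_606
import Crest.Agent.R275.LEnd_884

/-!
# R275, helper144: block D on `G.yBase` (the `YAn` instance)
-/

set_option autoImplicit false
set_option linter.unusedSectionVars false

open Set Filter Topology Metric
open scoped Manifold ContDiff

namespace Crest.Agent.R275.YInst144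

open Crest.AlgGeometry.Surface
open Geo NAtl938 Core144 ZC352 Base144 FL884 Loc647 Smf798 KR798 ODX473 ODY473 TInA672
open Sol352 Cls938 EB938 Xin473 YBG812 FamY160 LauB681 Tor812 WY681 GG89 Q74
open KerV631 (BL)

noncomputable section

variable {X : Type} [TopologicalSpace X] [T2Space X] [CompactSpace X]
    [ChartedSpace C2 X] [IsManifold 𝓘(ℂ, C2) 1 X] (G : XGeo X) [ConnectedSpace (YC G.u)]
    {Px : Part G.N.sm} {I : KIndex (smf G.N.sm)} (X' : XinM473.XinData Px I (zd G) G.u)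

theorem hBG : ∀ L ∈ PP G.yBase.N G.yBase.h, L ∈ BG G.yBase := fun _ hL =>
  mem_BG_of_PG (PP_le hL)

theorem hBD : ∀ L ∈ PP G.yBase.N G.yBase.h, KB G.yBase.N.sm * L⁻¹ ∈ BG G.yBase := fun _ hL =>
  KB_mul_inv_mem_BG (PP_le hL)

include X' in
/-- exact homotopies of the trivial bundle -/
theorem eh_one {r : ℝ} (hr : r ∈ NS G) (h : BGeo G.yBase.P (BL (1 : LB G.yBase.N.sm))) :
    EH (cxY G.yBase (1 : LB G.yBase.N.sm) h) r r := by
  refine KEx967.eh_one G X' h le_rfl (fun s hs => ?_) r ⟨le_rfl, le_rfl⟩ r ⟨le_rfl, le_rfl⟩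
  rw [← le_antisymm hs.1 hs.2]
  exact hr

include X' in
theorem qh {L : LB G.yBase.N.sm} (hL : L ∈ PP G.yBase.N G.yBase.h) {a b : ℝ} (ha : a ∈ NS G)
    (hb : b ∈ NS G) (h1 : BGeo G.yBase.P (BL L)) :
    ∃ K : (wfY G.yBase L h1).V a b →ₗ[ℂ] (wfY G.yBase L h1).V a b,
      QHtp ((wfY G.yBase L h1).S a b) ((cxY G.yBase L h1).R a b) K ∧ Hg (-1) K :=
  FrE681.fred_of_EH (k := 1) hL (one_mul L).symm h1 bgeo_one (eh_one G X' ha _) (eh_one G X' hb _)

/-- row `trK` -/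
theorem trK_ex {L : LB G.yBase.N.sm} (hL : L ∈ PP G.yBase.N G.yBase.h) :
    ∃ (ρ : ℝ) (t : ZZ0 G.yBase.N.sm (KB G.yBase.N.sm * L⁻¹).g →ₗ[ℂ]
      ZZ0 G.yBase.N.sm (KB G.yBase.N.sm).g),
      TrL (famY G.yBase _ (hBD G L hL)).W (famY G.yBase _ KB_mem_BG).W ρ t :=
  Tri474.exists_trK (FD := famY G.yBase _ (hBD G L hL)) (FM := famY G.yBase _ KB_mem_BG) hL
    (hBD G L hL) KB_mem_BG (s := 0) (s₁ := 0) rfl rfl

/-- rows `tr`, `V` -/
theorem tr_ex {L : LB G.yBase.N.sm} (hL : L ∈ PP G.yBase.N G.yBase.h) :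
    ∃ T : Tran (famY G.yBase L (hBG G L hL)) (famY G.yBase 1 (hBG G 1 (one_mem _)))
      (oneZ G.yBase), VCmp (famY G.yBase L (hBG G L hL))
        (famY G.yBase 1 (hBG G 1 (one_mem _))).W (oneZ G.yBase) T.tL := by
  obtain ⟨T, h1, -⟩ := Tri474.exists_tran (F := famY G.yBase L (hBG G L hL))
    (F1 := famY G.yBase 1 (hBG G 1 (one_mem _))) hL
    (hBG G L hL) (hBG G 1 (one_mem _)) (s := 0) (s₁ := 0) rfl rfl
    (one := oneZ G.yBase) (fun i x hx => oneZ_apply G.yBase i hx)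
  exact ⟨T, h1⟩

variable [MeasurableSpace (YC G.u)] [BorelSpace (YC G.u)]

include X' in
/-- row `ser` -/
theorem ser_ex {L : LB G.yBase.N.sm} (hL : L ∈ PP G.yBase.N G.yBase.h)
    (h0 : ∀ a b, (famY G.yBase _ (hBD G L hL)).W.Ex₀ a b) :
      ∀ a ∈ NS G, ∀ b ∈ NS G, (famY G.yBase L (hBG G L hL)).W.Ex₂ a b := fun a ha b hb => by
  obtain ⟨K, hK, -⟩ := qh G X' hL ha hb (bgeo (hBG G L hL))
  exact SerY940.ser_Y (hBG G L hL) (hBD G L hL) ⟨K, hK⟩ h0

include X' in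
/-- row `ex₀D` -/
theorem ex₀D (hLE : LargeEnd (YC.dk G.u) (YC.ht G.u)) {L : LB G.yBase.N.sm}
    (hL : L ∈ PP G.yBase.N G.yBase.h) (a b : ℝ) :
    (famY G.yBase _ (hBD G L hL)).W.Ex₀ a b := by
  obtain ⟨ρ, t, T⟩ := trK_ex G hL
  exact DData.ex₀ (Kc := (famY G.yBase _ KB_mem_BG).W) (t := t) (ρ := ρ)
    ⟨fun a b => KEx967.ex₀K_L G X' _ 0 a b, fun x y hxy => by
      obtain ⟨r, h1, h2, -, h4⟩ := denseK X' 0 x y hxy
      exact ⟨r, h1, h2, h4⟩, T, fun a b s hs => NoY606.noK_PP G.yBase hLE hL _ a b s hs⟩ a b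

/-- **block D on `G.yBase`** -/
def yan (hLE : LargeEnd (YC.dk G.u) (YC.ht G.u)) {F : Forms G.Pn}
    (hX : IndY130.ExcOK G.yBase F) {d : ℝ} (hd : 0 < d)
    (hns : ∀ r, 0 < r → r < d → NonSp (YC.dk G.u) (-r)) :
    YAn G.yBase.N.sm G.yBase.K G.yBase.h (PP G.yBase.N G.yBase.h) (qL F G.yBase.h) d where
  hne T := Fm96.large_of_deck G.yBase.deck T
  hK := G.yBase.K_sub
  BG := BG G.yBase
  bgP := hBG G
  bgK := KB_mem_BG
  bgD := hBD G
  F := famY G.yBase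
  NS := NS G
  dense := dense_NS
  ns_neg r hr := hLE.nonSp_neg hr
  ns_pos := hns
  one := oneZ G.yBase
  hone i x hx := oneZ_apply G.yBase i hx
  od := odataX X' (t := 0) hd (fun r hr => hLE.nonSp_neg hr) hns (fun a b ha ha' hb =>
    ser_ex G X' (one_mem _) (ex₀D G X' hLE (one_mem _)) a (hns a ha ha') b (hLE.nonSp_neg hb))
  ex₀K a b := KEx967.ex₀K_L G X' _ 0 a b
  denseK x y hxy := by
    obtain ⟨r, h1, h2, -, h4⟩ := denseK X' 0 x y hxy
    exact ⟨r, h1, h2, h4⟩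
  trK L hL := trK_ex G hL
  noK L hL a b s hs := NoY606.noK_PP G.yBase hLE hL _ a b s hs
  no L hL a b s hs := NoY606.no_PP G.yBase hLE hL _ a b s hs
  ser L hL h0 := ser_ex G X' hL h0
  tr L hL := (tr_ex G hL).choose
  V L hL := (tr_ex G hL).choose_spec
  ind L hL a ha b hb := IndY130.ind G.nl hX hL (bgeo (hBG G L hL)) bgeo_one
    (qh G X' hL ha hb _) (qh G X' (one_mem _) ha hb _)

include X' in
/-- the hypothesis `hY` of `TopC144.shell_of_rest` -/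
theorem yInst (hLE : LargeEnd (YC.dk G.u) (YC.ht G.u)) {F : Forms G.Pn}
    (hX : IndY130.ExcOK G.yBase F) : TopC144.YInst G F := fun _ hd hns =>
  ⟨yan G X' hLE hX hd hns, fun _ _ _ => rfl⟩

end

end Crest.Agent.R275.YInst144
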