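import Crest.Agent.R275.TopC_144
import Crest.Agent.R275.YInst_144
import Crest.Agent.R275.SkelXE_328
import Crest.Agent.R275.SkelXG_328

/-!
# R275 (S0418), helper630: top level

A minimal compact connected complex surface with `b₁ = 1`, `H₂(X; ℚ) ≠ 0` and vanishing plurigenera
has a global spherical shell.
-/

set_option autoImplicit false

open Set Filter Topology
open scoped Manifold ContDiff

namespace Crest.Agent.R275.Final630

open Crest.AlgGeometry.Surface Crest.Agent.R275.Base144 Crest.Agent.R275.Loc647
open Crest.Agent.R275.ZC352 Crest.Agent.R275.SkelX328 Crest.Agent.R275.TopC144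

/-- **the theorem** -/
theorem main (X : Type) [TopologicalSpace X] [T2Space X] [CompactSpace X] [ConnectedSpace X]
    [ChartedSpace C2 X] [IsManifold 𝓘(ℂ, C2) 1 X]
    (hb₁ : Crest.Topology.RationalHomology.rationalBettiNumber X 1 = 1)
    (hb₂ : Nontrivial (Crest.Topology.RationalHomology.rationalHomology X 2))
    (hκ : PlurigeneraVanish X) (hmin : IsMinimal X) : HasGlobalSphericalShell X :=
  shell_of_rest hb₁ hb₂ hκ hmin ixAll (fun _ _ D => excOK D) fun G F D hLE hX => by
    have := D.cov.conn
    let _ : MeasurableSpace (YC G.u) := borel (YC G.u)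
    have _ : BorelSpace (YC G.u) := ⟨rfl⟩
    exact YInst144.yInst G D.xin hLE hX

end Crest.Agent.R275.Final630
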