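import Crest.Agent.R275.IndZ_130
import Crest.Agent.R275.GauE_511
import Crest.Agent.R275.VEc_812
import Crest.Agent.R275.CutB_89
import Crest.Agent.R275.EB_938

/-!
# R275, block D, leaf D7 (helper130): the index of the weighted complexes on `Y`

`ExcOK B F` : EXC, the index of `∇` on `EcV P c` minus the one on `EcV P 0`, at any pair of rates,
is the reduced index `q0 F c` (for all `c` in `Pn.Z2c`).

`ind` : for `L ∈ PP B.N B.h` and rates `(a,b)` where the complexes of `L` and of the trivial bundle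
have homotopies modulo negligible operators, `Fin (wY L) a b` and
`chi (wY L) a b = chi (wY 1) a b + qL F B.h L` (the field `ind` of 352's `YAn`).
-/

set_option autoImplicit false
set_option linter.unusedSectionVars false

open Set Filter Topology Complex
open scoped ContDiff Matrix ComplexConjugate

noncomputable section

namespace Crest.Agent.R275.IndY130

open Geo NAtl938 Core144 Base144 WY681 YBG812 Tor812 Q74 Lam2130 LauB681 GG89 WCxY89
open Fred685 Eul130 EulW130 IndZ130 Gau511 EcV938 Sup912 EB938 Loc647 LocT474 Cls938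
open Crest.Agent.R275.GC293 (Z2)
open Crest.AlgGeometry.Surface
open Fm96 hiding isLC
open KerV631 (BL isLC)
open CutB89 (cutY wY)

variable {Y : Type} [TopologicalSpace Y] [T2Space Y] [ChartedSpace C2 Y] (B : YBase Y)
  {Pn : Nerve B.N.ι}

omit [T2Space Y] [ChartedSpace C2 Y] in
theorem src_sub {N : NAtl 2 Y} (i : N.ι) : (N.sm.e i).source ⊆ (N.big.e i).source := by
  have h1 : (N.sm.e i).source = N.B N.r i := N.at'_source le_rfl i
  rw [h1, N.big_source]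
  exact N.B_sub _ _

omit [T2Space Y] [ChartedSpace C2 Y] in
/-- cocycles of the large balls are cocycles of the small balls -/
theorem mem_Z2_sm {N : NAtl 2 Y} {c : N.ι → N.ι → N.ι → ℤ} (hc : c ∈ Z2 N.big ℤ) :
    c ∈ Z2 N.sm ℤ := by
  rintro i j k l ⟨x, ⟨⟨h1, h2⟩, h3⟩, h4⟩
  exact hc i j k l ⟨x, ⟨⟨src_sub i h1, src_sub j h2⟩, src_sub k h3⟩, src_sub l h4⟩

/-! ### a homotopy gives a quasi-complex on the bundle of the class -/

section cls

variable {B} {c : B.N.ι → B.N.ι → B.N.ι → ℤ} (L : LB B.N.sm) (hL : BGeo B.P (BL L))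

/-- the index of the weighted complex of `L` is the index of `∇` on `EcV P c` -/
theorem exists_ecv (hc : c ∈ Z2 B.N.sm ℤ) (hf : Fin3 c) (hcL : HasCls B.N.sm B.h L.g c) {a b : ℝ}
    (hQ : ∃ K : (wfY B L hL).V a b →ₗ[ℂ] (wfY B L hL).V a b,
      QHtp ((wfY B L hL).S a b) ((cxY B L hL).R a b) K ∧ Hg (-1) K) :
    ∃ D : QC (gdW (Gau511.grF (bgeo_EcV B hc hf) (hts B)) a b),
      IsDQ (hB := bgeo_EcV B hc hf) (w := (hts B).wt (-a) b) D ∧
      Sol352.Fin (wY B L hL) a b ∧ Sol352.chi (wY B L hL) a b = D.ind := by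
  obtain ⟨K, hK, hg⟩ := hQ
  obtain ⟨D, hD, hi⟩ := exists_ecvQC B.Pt L (lam2 B.N.sm) hc hf hcL
    (Gau511.isDQ_qcW hL (hts B) a b (nabL_nabL B L) hK hg)
    (isDG_gdW (bgeo_EcV B hc hf) (hts B) a b)
  obtain ⟨h1, h2⟩ := fin_chi_of_qhtp (CutB89.dolF B L hL) (cutY B L hL)
    (Gau511.grF hL (hts B)) hK hg
  exact ⟨D, hD, h1, h2.trans hi.symm⟩

end cls

/-! ### the statement -/

theorem fin3_zero {V : Type} : Fin3 (0 : V → V → V → ℤ) := by
  have h : {p : V × V × V | (0 : V → V → V → ℤ) p.1 p.2.1 p.2.2 ≠ 0} = ∅ := by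
    ext p
    simp
  show Set.Finite _
  rw [h]
  exact Set.finite_empty

/-- **EXC**: the index of the bundles of the classes on `Y` -/
def ExcOK (F : Forms Pn) : Prop :=
  ∀ (c : C2 B.N.ι) (_ : c ∈ Pn.Z2c) (hc : c ∈ Z2 B.N.sm ℤ) (hf : Fin3 c) (a b : ℝ)
    (D : QC (gdW (Gau511.grF (bgeo_EcV B hc hf) (hts B)) a b))
    (D0 : QC (gdW (Gau511.grF (bgeo_EcV B (zero_mem (Z2 B.N.sm ℤ)) fin3_zero) (hts B)) a b)),
    IsDQ (hB := bgeo_EcV B hc hf) (w := (hts B).wt (-a) b) D →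
    IsDQ (hB := bgeo_EcV B (zero_mem (Z2 B.N.sm ℤ)) fin3_zero) (w := (hts B).wt (-a) b) D0 →
    D.ind = D0.ind + q0 F c

variable {B}

/-- **D7**: the index of the weighted complex of an end line bundle -/
theorem ind (Hn : NL B.N B.h Pn) {F : Forms Pn} (hX : ExcOK B F) {L : LB B.N.sm}
    (hL : L ∈ PP B.N B.h) (hB : BGeo B.P (BL L)) (hB1 : BGeo B.P (BL (1 : LB B.N.sm))) {a b : ℝ}
    (hQ : ∃ K : (wfY B L hB).V a b →ₗ[ℂ] (wfY B L hB).V a b,
      QHtp ((wfY B L hB).S a b) ((cxY B L hB).R a b) K ∧ Hg (-1) K)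
    (hQ1 : ∃ K : (wfY B 1 hB1).V a b →ₗ[ℂ] (wfY B 1 hB1).V a b,
      QHtp ((wfY B 1 hB1).S a b) ((cxY B 1 hB1).R a b) K ∧ Hg (-1) K) :
    Sol352.Fin (wY B L hB) a b ∧
      Sol352.chi (wY B L hB) a b = Sol352.chi (wY B 1 hB1) a b + qL F B.h L := by
  obtain ⟨c, hc⟩ := (mem_PP_iff Hn).1 hL
  have hc' := hc.hc Hn
  have hcs := mem_Z2_sm hc'.1.1
  obtain ⟨D, hD, h1, h2⟩ := exists_ecv L hB hcs hc'.1.2 hc.2 hQ
  obtain ⟨D0, hD0, -, h4⟩ := exists_ecv (c := 0) 1 hB1 (zero_mem (Z2 B.N.sm ℤ)) fin3_zero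
    (HN.one (Pn := Pn)).2 hQ1
  refine ⟨h1, ?_⟩
  rw [h2, h4, qL_eq B.good B.Q B.P Hn F hc]
  exact hX c hc.1 hcs hc'.1.2 a b D D0 hD hD0

end Crest.Agent.R275.IndY130
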