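import Crest.Agent.R275.EulW_130
import Crest.Agent.R275.WCxY_89
import Crest.Agent.R275.IndX_130
import Crest.Agent.R275.CIdxB_509
import Crest.Agent.R275.EulC_130

/-!
# R275, block D (helper130): index = Euler characteristic for 89's `WCxY`; the `X_N` side

* `fin_chi_cx`, `fin_chi_WCxY` : `Fin (WCxY H c) a b` and `chi (WCxY H c) a b = Q.ind` for any
  quasi-complex `Q : QC (gdW h a b)` with `Q.d = C.R a b`.
* compact surface: `indB_EcV : indB P' (tw (lam2 A) (EcV P'' hc)) = chi P (geoI P _) ⟨c, hc⟩`,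
  `indB_sub` : the difference `chi c - chi 0`;
* `euler_geo`, `fin_geo` : the fields `euler`, `fin` of `CMData` for `geoI`.
-/

set_option autoImplicit false
set_option linter.unusedSectionVars false

open Set Filter Topology Complex
open scoped ContDiff Matrix ComplexConjugate

noncomputable section

namespace Crest.Agent.R275.IndZ130

open Fred685 LauB681 GG89 GGInst89 Q74 N5238 Eul130 EulW130 WCxY89

/-! ### the weighted complex on the components -/

section split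

variable {𝕜 G Ω₀ Ω₁ Ω₂ : Type*} [RCLike 𝕜] [AddCommGroup G] [Module 𝕜 G]
  [AddCommGroup Ω₀] [Module 𝕜 Ω₀] [AddCommGroup Ω₁] [Module 𝕜 Ω₁] [AddCommGroup Ω₂] [Module 𝕜 Ω₂]
  {F : WF 𝕜 G} {C : Cx F} {e : G ≃ₗ[𝕜] Ω₀ × Ω₁ × Ω₂} {d₀ : Ω₀ →ₗ[𝕜] Ω₁} {d₁ : Ω₁ →ₗ[𝕜] Ω₂}

/-- the isomorphism of the weighted complexes `ofCut C c` and `S.cx c` -/
theorem wiso (S : Split3 C e d₀ d₁) (c : Cut C) (a b : ℝ) :
    ∃ f₀ f₁ f₂, WIso (ofCut C c) (S.cx c) a b a b f₀ f₁ f₂ := by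
  refine ⟨subEquiv (r₀ e) (i₀ e) ?_ ?_ ?_ ?_, subEquiv (r₁ e) (i₁ e) ?_ ?_ ?_ ?_,
    subEquiv (r₂ e) (i₂ e) ?_ ?_ ?_ ?_, ?_⟩
  · intro x hx
    show i₀ e (r₀ e x) ∈ F.V a b
    rw [S.i₀_r₀ hx.2]
    exact hx.1
  · intro y hy
    exact ⟨hy, S.pi_i₀ y⟩
  · intro x hx
    exact S.i₀_r₀ hx.2
  · intro y _
    exact r₀_i₀ e y
  · intro x hx
    show i₁ e (r₁ e x) ∈ F.V a b
    rw [S.i₁_r₁ hx.2]
    exact hx.1
  · intro y hy
    exact ⟨hy, S.pi_i₁ y⟩
  · intro x hx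
    exact S.i₁_r₁ hx.2
  · intro y _
    exact r₁_i₁ e y
  · intro x hx
    show i₂ e (r₂ e x) ∈ F.V a b
    rw [S.i₂_r₂ hx.2]
    exact hx.1
  · intro y hy
    exact ⟨hy, S.pi_i₂ y⟩
  · intro x hx
    exact S.i₂_r₂ hx.2
  · intro y _
    exact r₂_i₂ e y
  · refine ⟨fun x hx => ?_, fun x hx => ?_⟩
    · show d₀ (r₀ e x) = r₁ e (C.D x)
      rw [r₁_apply, S.D]
      rfl
    · show d₁ (r₁ e x) = r₂ e (C.D x)
      rw [r₂_apply, S.D]
      rfl

/-- **Euler characteristic = index on the components** -/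
theorem fin_chi_cx (S : Split3 C e d₀ d₁) (c : Cut C) (h : GrF F) {a b : ℝ}
    {Q : QC (gdW h a b)} (hQ : Q.d = C.R a b) :
    Sol352.Fin (S.cx c) a b ∧ Sol352.chi (S.cx c) a b = Q.ind := by
  obtain ⟨f₀, f₁, f₂, hf⟩ := wiso S c a b
  obtain ⟨h1, h2⟩ := h.fin_chi c hQ
  exact ⟨hf.fin h1, hf.chi.symm.trans h2⟩

end split

section raw

open Geo Fm96 Lam2130

variable {M : Type} [TopologicalSpace M] {A : Atl 2 M} {g : A.ι → A.ι → M → ℂ} {hg : IsLC A g}
  {F : WF ℂ (SecL (LV hg))} {C : Cx F}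

/-- **Euler characteristic of 89's weighted complex = index** -/
theorem fin_chi_WCxY (H : DolF hg C) (c : Cut C) (h : GrF F) {a b : ℝ} {Q : QC (gdW h a b)}
    (hQ : Q.d = C.R a b) :
    Sol352.Fin (WCxY H c) a b ∧ Sol352.chi (WCxY H c) a b = Q.ind :=
  fin_chi_cx H.split c h hQ

theorem fin_chi_of_qhtp (H : DolF hg C) (c : Cut C) (h : GrF F) {a b : ℝ}
    {K : F.V a b →ₗ[ℂ] F.V a b} (hK : QHtp (F.S a b) (C.R a b) K) (hg' : Hg (-1) K) :
    Sol352.Fin (WCxY H c) a b ∧ Sol352.chi (WCxY H c) a b = (qcW h C hK hg').ind :=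
  fin_chi_WCxY H c h rfl

end raw

/-! ### compact surfaces, geometric index -/

section compact

open Geo Smf798 KR798 SB798 GC293 Core144 ChiM825 EcV938 IndX130 CIdx509 EulC130 LnkP5476
open LnkP6476 Fm96 Lam2130
open MI683 (geoI gmodP_σ)

variable {M : Type} [TopologicalSpace M] [CompactSpace M] {A : Atl 2 M} [Finite A.ι]
  (P P' P'' : Part A) {c : A.ι → A.ι → A.ι → ℤ}

/-- the geometric index functional of a compact surface -/
abbrev geo2 : KIndex (smf A) := geoI P (nabL_sq A)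

/-- **the index on `X_N` of the bundle of an integral class** -/
theorem indB_EcV (hc : c ∈ Z2 A ℤ) :
    indB P' (tw (lam2 A) (EcV P'' hc)) = chi P (geo2 P) ⟨c, hc⟩ := by
  rw [indB_tw_eq_indE P P' (nabL_sq A) (EcV P'' hc)]
  exact indE_EcV P P'' (geo2 P) hc

/-- the index of the bundle of the class zero -/
theorem indB_EcV_zero (h0 : (0 : A.ι → A.ι → A.ι → ℤ) ∈ Z2 A ℤ) :
    indB P' (tw (lam2 A) (EcV P'' h0)) = chi P (geo2 P) 0 :=
  indB_EcV P P' P'' h0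

/-- the difference of the indices -/
theorem indB_sub (hc : c ∈ Z2 A ℤ) (h0 : (0 : A.ι → A.ι → A.ι → ℤ) ∈ Z2 A ℤ) :
    indB P' (tw (lam2 A) (EcV P'' hc)) - indB P' (tw (lam2 A) (EcV P'' h0)) =
      chi P (geo2 P) ⟨c, hc⟩ - chi P (geo2 P) 0 := by
  rw [indB_EcV P P' P'' hc, indB_EcV_zero P P' P'' h0]

/-- the cohesive theorem for the geometric index -/
theorem isCoh_geo : IsCoh (MI683.gmodP P (nabL_sq A)).ms := isCoh_of_gmod _

/-- **`CMData.fin` and `CMData.euler`** -/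
theorem fin_euler_geo (L : LB A) :
    FinE (isLC L) ∧ chiL P (geo2 P) (slb L) = chiE (isLC L) :=
  fin_euler (gmodP_σ P (nabL_sq A)) (isCoh_geo P) P L

include P in
theorem fin_geo (L : LB A) : FinE (isLC L) := (fin_euler_geo P L).1

theorem euler_geo (L : LB A) : chiL P (geo2 P) (slb L) = chiE (isLC L) := (fin_euler_geo P L).2

end compact

end Crest.Agent.R275.IndZ130
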