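import Crest.Agent.R275.NA4g_783
import Crest.Agent.R275.Dg5_199
import Crest.Agent.R275.ProdC_363

/-!
# R275, NA4 (T), helper585: the swap rule `rho_swap`

`rho A m (swpL w) = (-1)^m • rho A m w`.
-/

set_option autoImplicit false
set_option linter.unusedSectionVars false
set_option linter.unusedSimpArgs false

open Set Filter Topology Complex MeasureTheory
open scoped ContDiff Matrix ComplexConjugate Kronecker
open Crest.Agent.R275.Geo Crest.Agent.R275.Smf798 Crest.Agent.R275.Dg199 Crest.Agent.R275.Prod363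
open Crest.Agent.R275.SmR425 Crest.Agent.R275.Lam2130 Crest.Agent.R275.Sym585
open Crest.Agent.R275.SymBun585 Crest.Agent.R275.NA4783

namespace Crest.Agent.R275.NA4k585

noncomputable section

variable {X : Type} [TopologicalSpace X] [T2Space X] {A : Atl 2 X}

theorem RM_swap (k l l' : Fin 4) :
    (-1 : ℂ) ^ (dg l * dg l') * RM l' k l = RM l k l' := by
  fin_cases k <;> fin_cases l <;> fin_cases l' <;>
    simp [dg, RM_zero, RM_one, RM_two, RM_three]

/-- graded swap on the fibres -/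
def SW (v : Fin 4 × Fin 4 → ℂ) : Fin 4 × Fin 4 → ℂ :=
  fun p => (-1 : ℂ) ^ (dg p.1 * dg p.2) * v (p.2, p.1)

theorem ResL_SW (v : Fin 4 × Fin 4 → ℂ) : ResL A (SW v : (BB A).κ → ℂ) = ResL A v := by
  funext k
  have h1 : ∀ u : Fin 4 × Fin 4 → ℂ, ResL A (u : (BB A).κ → ℂ) k
      = ∑ l : Fin 4, ∑ l' : Fin 4, RM l' k l * u (l, l') := by
    intro u
    have h2 : ResL A (u : (BB A).κ → ℂ) k = ∑ p : Fin 4 × Fin 4, Res k p * u p := rfl
    rw [h2, Fintype.sum_prod_type]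
    rfl
  rw [h1, h1, Finset.sum_comm]
  refine Finset.sum_congr rfl fun l _ => Finset.sum_congr rfl fun l' _ => ?_
  show RM l k l' * ((-1 : ℂ) ^ (dg l' * dg l) * v (l, l')) = RM l' k l * v (l, l')
  rw [← RM_swap k l l', mul_comm (dg l') (dg l)]
  have h3 : ((-1 : ℂ) ^ (dg l * dg l')) * (-1 : ℂ) ^ (dg l * dg l') = 1 :=
    neg_one_pow_mul_self _
  linear_combination (RM l' k l * v (l, l')) * h3

theorem ResL_smul_SW (a : ℂ) (v : Fin 4 × Fin 4 → ℂ) (k : Fin 4) :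
    ResL A (a • SW v : (BB A).κ → ℂ) k = a * ResL A v k := by
  have h1 : ResL A (a • SW v : (BB A).κ → ℂ) = a • ResL A (SW v : (BB A).κ → ℂ) :=
    (ResL A).map_smul a (SW v)
  rw [h1, ResL_SW]
  rfl

theorem ud_swap (i : A.ι) (a : Fin 2) (q : X × X) : NA4783.ud A i a q.swap = - NA4783.ud A i a q := by
  show A.e i q.2 a - A.e i q.1 a = -(A.e i q.1 a - A.e i q.2 a)
  ring

theorem mon_swap (m : ℕ) (i : A.ι) (c : Fin (m + 1)) (q : X × X) :
    mon A m i c q.swap = (-1 : ℂ) ^ m * mon A m i c q := by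
  unfold mon
  rw [ud_swap, ud_swap, neg_pow, neg_pow (NA4783.ud A i 1 q)]
  have h : (m - (c : ℕ)) + c = m := Nat.sub_add_cancel (Nat.lt_succ_iff.1 c.2)
  have h2 : (-1 : ℂ) ^ m = (-1 : ℂ) ^ (m - (c : ℕ)) * (-1 : ℂ) ^ (c : ℕ) := by
    rw [← pow_add, h]
  rw [h2]
  ring

theorem tendsto_swap (p : X) : Tendsto (Prod.swap : X × X → X × X) (𝓝 (p, p)) (𝓝 (p, p)) := by
  have := (continuous_swap (X := X) (Y := X)).tendsto (p, p)
  exact this

theorem smN_SW {f : X × X → Fin 4 × Fin 4 → ℂ} {q : X × X} (h : SmN (A.prod A) f q.swap) :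
    SmN (A.prod A) (fun q => SW (f q.swap)) q := by
  rw [smN_pi]
  intro k
  have h1 : SmN (A.prod A) (fun q => f q (k.2, k.1)) q.swap := smN_pi.1 h _
  have h2 := smN_swap A h1
  exact (smN_const ((-1 : ℂ) ^ (dg k.1 * dg k.2)) q).mul h2

theorem Rep_swap {m : ℕ} {F : X × X → (BB A).κ → ℂ} {i : A.ι} {p : X}
    {g : Fin (m + 1) → X × X → (BB A).κ → ℂ} (h : Rep (A := A) m F i p g) :
    Rep (A := A) (κ := (BB A).κ) m (fun q => SW (F q.swap)) i p
      (fun c q => (-1 : ℂ) ^ m • SW (g c q.swap)) := by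
  refine ⟨fun c => ?_, ?_⟩
  · filter_upwards [(tendsto_swap p).eventually (h.1 c)] with q hq
    exact (smN_const ((-1 : ℂ) ^ m) q).csmul (smN_SW hq)
  · filter_upwards [(tendsto_swap p).eventually h.2] with q hq
    show SW (F q.swap) = _
    rw [hq]
    refine funext fun (k : Fin 4 × Fin 4) => ?_
    have e1 : ∀ (s : Fin (m + 1) → Fin 4 × Fin 4 → ℂ), (∑ c, s c) k = ∑ c, s c k := fun s =>
      Finset.sum_apply _ _ _
    refine Eq.trans ?_ (e1 (fun c => mon A m i c q • ((-1 : ℂ) ^ m • SW (g c q.swap)))).symm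
    have e2 : ∀ (s : Fin (m + 1) → Fin 4 × Fin 4 → ℂ),
        SW (∑ c, s c) k = ∑ c, (-1 : ℂ) ^ (dg k.1 * dg k.2) * s c (k.2, k.1) := fun s => by
      show (-1 : ℂ) ^ (dg k.1 * dg k.2) * (∑ c, s c) (k.2, k.1) = _
      rw [Finset.sum_apply, Finset.mul_sum]
    refine (e2 (fun c => mon A m i c q.swap • g c q.swap)).trans ?_
    refine Finset.sum_congr rfl fun c _ => ?_
    show (-1 : ℂ) ^ (dg k.1 * dg k.2) * (mon A m i c q.swap * g c q.swap (k.2, k.1)) =
      mon A m i c q * ((-1 : ℂ) ^ m * ((-1 : ℂ) ^ (dg k.1 * dg k.2) * g c q.swap (k.2, k.1)))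
    rw [mon_swap]
    ring

/-- **swap rule** -/
theorem rho_swap (m : ℕ) (w : Fm (BB A) m)
    (hw : (swpL (lam2 A) w.1 : Sec (BB A)) ∈ Fm (BB A) m) :
    rho A m ⟨swpL (lam2 A) w.1, hw⟩ = ((-1 : ℂ) ^ m) • rho A m w := by
  refine sec_ext fun i x => ?_
  by_cases hx : x ∈ (A.e i).source
  · obtain ⟨g, hg⟩ := exists_rep_sec w hx
    have h := Rep_swap hg
    funext k
    obtain ⟨k, c⟩ := k
    have h2 : Rep (A := A) m ((⟨swpL (lam2 A) w.1, hw⟩ : Fm (BB A) m).1.1 (dI i)) i x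
        (fun c q => (-1 : ℂ) ^ m • SW (g c q.swap)) :=
      h.congr (Eventually.of_forall fun q => rfl)
    have e1 := rho_apply (⟨swpL (lam2 A) w.1, hw⟩ : Fm (BB A) m) hx h2 k c
    have e2 := rho_apply w hx hg k c
    refine e1.trans ?_
    show _ = ((-1 : ℂ) ^ m) * (rho A m w).1 i x (k, c)
    rw [e2]
    exact ResL_smul_SW ((-1 : ℂ) ^ m) (g c (x, x)) k
  · funext k
    have e1 : (rho A m (⟨swpL (lam2 A) w.1, hw⟩ : Fm (BB A) m)).1 i x k = 0 := by
      rw [rho_coe, rhoF_off hx]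
      rfl
    refine e1.trans ?_
    show _ = ((-1 : ℂ) ^ m) * (rho A m w).1 i x k
    rw [rho_coe, rhoF_off hx]
    simp

end

end Crest.Agent.R275.NA4k585
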