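import Crest.Agent.R275.NefG_672
import Crest.Agent.R275.GIx_106

/-!
# R275 (helper672): the link between `Y` and `X` on helper144's nested atlas

* `nrm_sm`      : a functional normalised on the big balls is normalised on the small balls;
* `exists_link` : labels, orientation functional on the big balls and `KX106.Link` on the small balls;
* `linkG`       : helper768's `Link` for the forms of helper106 and the geometric index on the small
                  balls, without further hypothesis.
-/

set_option autoImplicit false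
set_option linter.unusedSectionVars false

open Set Filter Topology

namespace Crest.Agent.R275.LinkG672

open Crest.Agent.R275.Geo Crest.Agent.R275.Core144 Crest.Agent.R275.NAtl938
open Crest.Agent.R275.ASConv293 (Lab)
open Crest.Agent.R275.PD412 Crest.Agent.R275.PDA412 Crest.Agent.R275.PDB412 Crest.Agent.R275.Zig470
open Crest.Agent.R275.KAsm106 (UA)

noncomputable section

variable {X : Type} [TopologicalSpace X]

/-- the class of a point does not depend on the cut off -/
theorem eqn_tauP {e : OpenPartialHomeomorph X PD412.C2} {p : X} {V V' : Set X} (hV : V ∈ 𝓝 p)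
    (hVe : closure V ⊆ e.source) (hV' : V' ∈ 𝓝 p) (hVe' : closure V' ⊆ e.source) :
    Eqn 5 (tauP e p V) (tauP e p V') := by
  have h1 := rel_tauP hV hVe
  have h2 := rel_tauP hV' hVe'
  intro x
  by_cases hx : x ∈ e.source
  · filter_upwards [h1.h1 x hx, h2.h1 x hx] with l k1 k2 hl
    rw [k1 hl, k2 hl]
  · filter_upwards [h1.h2 x hx, h2.h2 x hx] with l k1 k2 hl
    rw [k1 hl, k2 hl]

variable {N : NAtl 2 X}

theorem sm_sub (i : N.ι) : (N.sm.e i).source ⊆ (N.big.e i).source := by
  have h1 : (N.sm.e i).source = N.B N.r i := N.at'_source le_rfl i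
  rw [h1, N.big_source]
  exact N.B_sub _ _

/-- normalisation on the small balls -/
theorem nrm_sm [T2Space X] [CompactSpace X] {E : (List X → ℤ) → ℝ} (D : Ev 3 E)
    (hN : Nrm N.big E) : Nrm N.sm E := by
  intro i p hp
  have hpb : p ∈ (N.big.e i).source := sm_sub i hp
  obtain ⟨V, hV, hVe, h1⟩ := hN i p hpb
  obtain ⟨W, hW, hWc, hWs⟩ := exists_mem_nhds_isClosed_subset ((N.sm.e i).open_source.mem_nhds hp)
  have hcl : closure W ⊆ (N.sm.e i).source := hWc.closure_eq.subset.trans hWs
  refine ⟨W, hW, hcl, ?_⟩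
  have h2 := D.congr _ _ (eqN_iff.2 (eqn_tauP (e := N.big.e i) hV hVe hW
    (hcl.trans (sm_sub i))))
  rw [← h1, h2]
  rfl

/-- labels of the small balls are labels of the big balls -/
theorem lab_big {lab : X → N.ι} (h : Lab (UA N.sm) lab) : Lab (UA N.big) lab := by
  intro p
  obtain ⟨F, h1, h2⟩ := h p
  exact ⟨F, fun v hv => sm_sub v (h1 v hv), h2⟩

/-- **LINK on the small balls with the orientation functional of the big balls** -/
theorem exists_link [T2Space X] [CompactSpace X] [Finite N.big.ι] [Finite N.sm.ι]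
    (Pb : Part N.big) (P : Part N.sm) :
    ∃ (lab : X → N.ι) (GE : PDY945.EFn X (fun i : N.ι => (N.big.e i).source) lab (WtY945.jw Pb)),
      Lab (UA N.sm) lab ∧ Nrm N.big GE.E ∧
      KX106.Link (A := N.sm) P (MI683.geoI P (LnkP5476.nabL_sq N.sm)) GE.E lab := by
  obtain ⟨lab, hlab, -⟩ := ASConv293.exists_lab P
  obtain ⟨E, D, hN, hl⟩ := EOF627.exists_functional_compact (B := N.big) Pb
  refine ⟨lab, INX945.efn D (hl lab (lab_big hlab)), hlab, hN, ?_⟩
  exact XNI106.link_gix P D (nrm_sm D hN) hlab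

/-- **helper768's `Link`** for the forms of helper106 and the geometric index on the small balls -/
theorem linkG [T2Space X] [CompactSpace X] [Finite N.big.ι] [Finite N.sm.ι] {Y : Type}
    [TopologicalSpace Y] [T2Space Y] [LocallyCompactSpace Y] {C : XN194.KCov N.big Y ℤ}
    {hA : GC293.GoodA N.big} {hpc : NGeo151.PreC N.big} {Pb : Part N.big}
    {κ : N.big.ι → N.big.ι → N.big.ι → ℤ} {hκ : GC293.IsC1 (ChiM825.slb (KB N.big)) κ}
    {D : ∀ M : ℕ, 1 ≤ M → ∃ e : ℤ, Nonempty (EBF151.XNIn (WtY945.wtY C hpc Pb) M e)}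
    {hb₂ : ∃ c : GC293.Z2 N.big ℤ, ∀ m : ℤ, m • c.1 ∈ GC293.B2 N.big ℤ → m = 0}
    (P : Part N.sm) : PushS768.Link hpc (XNI106.formsK hA hpc Pb hκ D hb₂) P
      (MI683.geoI P (LnkP5476.nabL_sq N.sm)) := by
  obtain ⟨lab, GE, -, -, h⟩ := exists_link Pb P
  exact NefG672.link_of P _ GE h

/-! ### on `XGeo` -/

section geo

open Crest.AlgGeometry.Surface
open scoped Manifold ContDiff

variable [ChartedSpace Crest.AlgGeometry.Surface.C2 X]
  [IsManifold 𝓘(ℂ, Crest.AlgGeometry.Surface.C2) 1 X] [CompactSpace X] [T2Space X]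
  [ConnectedSpace X] (G : Base144.XGeo X)

/-- bigger charts around the small balls -/
def bigSm : Big G.N.sm :=
  bigA G.maxN le_rfl (by have := G.N.r_pos; have := G.N.r_lt; linarith)

/-- **`K · L ≥ 0`** in the form of the hypothesis `hK` of `nefG` -/
theorem hK_of {I : KR798.KIndex (Smf798.smf G.N.sm)} {e : ℤ} (H : ChiM825.CMData G.P I e)
    (hX : QX825.LatX G.P I e) (hF7 : QX825.F7 G.N.sm) :
    ∀ (L : LB G.N.sm) (s : G.N.ι → X → ℂ), IsHS L univ s → s ≠ 0 →
      0 ≤ QX825.bb G.P I (KB G.N.sm) L :=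
  fun _ _ hs h0 => QX825.K_nonneg (bigSm G) (AdmN.adm G.maxN le_rfl) H hX hF7 hs h0

end geo

end

end Crest.Agent.R275.LinkG672
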