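import Crest.Agent.R275.KX_106
import Crest.Agent.R275.EOF_627
import Crest.Agent.R275.FlXC_161
import Crest.Agent.R275.Bet4_470
import Crest.Agent.R275.F7_690
import Crest.Agent.R275.SNerveG_865
import Crest.Agent.R275.YCneg_630
import Crest.Agent.R275.QXin_825
import Crest.Agent.R275.Hb2N_825
import Crest.Agent.R275.GIx_106
import Crest.Agent.R275.XN5_194

/-!
R275 (S0418), block Q (helper825): the X side on `X` itself: `LatX`, `XinData`, `K · L ≥ 0`,
`e > 0`, `b₁(X_N) = 1`, from `CMData` on `X`, LINK, the orientation functional and the topological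
hypotheses of S0418.
-/

set_option autoImplicit false
set_option linter.unusedSectionVars false

open Set Filter Topology Complex
open scoped ContDiff Manifold

noncomputable section

namespace Crest.Agent.R275.XIn825

open Crest.AlgGeometry.Surface Geo Fm96 Q74 Smf798 KR798 GC293 Core144 ChiM825 QX825 Lt893 ZC352
open Zig470 PDB412 ASConv293 KAsm106 NEul865 KX106 Fl161 YCneg630

/-! ### compact surfaces with a good atlas -/

section Top

variable {M : Type} [TopologicalSpace M] [CompactSpace M] [T2Space M] {A : Atl 2 M}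
  {P : Part A} {I : KIndex (smf A)} {e : ℤ}

/-- the rank bound of `CMData.eb` -/
theorem he_of_rk (he : Rk A e) (n : ℕ) (v : Fin n → GC293.Z2 A ℤ)
    (hv : ∀ a : Fin n → ℤ, ∑ i, a i • v i ∈ BZ A → a = 0) : (n : ℤ) ≤ e := by
  refine he n (fun i => (v i).1) (fun i => mem_Z2_iff.1 (v i).2) fun a ha => hv a ?_
  rw [mem_BZ, mem_B2_iff]
  have e1 : ((∑ i, a i • v i : GC293.Z2 A ℤ) : A.ι → A.ι → A.ι → ℤ) = ∑ i, a i • (v i).1 := by
    rw [AddSubgroup.val_finsetSum]
    rfl
  rw [e1]
  exact ha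

/-- LINK for every orientation functional (helper894) -/
def LinkAll (P : Part A) (I : KIndex (smf A)) : Prop :=
  ∀ E : (List M → ℤ) → ℝ, Ev 3 E → Nrm A E → ∀ lab : M → A.ι, Lab (UA A) lab → Link P I E lab

/-- LINK holds for the geometric index (helper106) -/
theorem linkAll_geo [Finite A.ι] (P : Part A) :
    LinkAll P (MI683.geoI P (LnkP5476.nabL_sq A)) := fun _ D hN _ hlab =>
  XNI106.link_gix P D hN hlab

/-- LINK holds for the index of a coherent family with value in `C¹` (helper106) -/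
theorem linkAll_gix [Finite A.ι] (P : Part A) (g : XNI106.GIx A) : LinkAll P g.I := fun _ D hN _ hlab =>
  g.link P D hN hlab

theorem hdual [Finite A.ι] (H : CMData P I e) (hlink : LinkAll P I)
    (φ : GC293.Z2 A ℤ →+ ℤ) (hφ : ∀ b ∈ BZ A, φ b = 0) : ∃ c, ∀ x, bZ P I x c = φ x := by
  obtain ⟨E, D, hN, -⟩ := EOF627.exists_functional_compact P
  obtain ⟨lab, hlab, -⟩ := exists_lab P
  exact bZ_dual H.good D hN hlab (hlink E D hN lab hlab) φ hφ

theorem latX [Finite A.ι] (H : CMData P I e) (hlink : LinkAll P I) (he : Rk A e) : LatX P I e :=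
  QX825.latX H (hdual H hlink) (he_of_rk he)

/-- a rational 2-cocycle which is not a coboundary -/
theorem hb2Q [Finite A.ι] (hA : GoodA A)
    (hb₂ : Nontrivial (Crest.Topology.RationalHomology.rationalHomology M 2)) :
    Hb2N825.HB2 A := by
  obtain ⟨c, h1, -, h2, -⟩ := SNerve865.hb2_good A hA hb₂
  refine ⟨fun i j l => c i j l, fun i j l m hn => ?_, h2⟩
  have := h1 i j l m hn
  have h3 : ((c j l m - c i l m + c i j m - c i j l : ℤ) : ℚ) = 0 := by rw [this]; simp
  push_cast at h3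
  exact h3

theorem betti [Finite A.ι] (hA : GoodA A) (P : Part A) {c₀ : A.ι → A.ι → ℚ}
    (hb1 : Gen1 (fun i => (A.e i).source) c₀)
    (hb2 : Hb2N825.HB2 A) : BettiQ (fun i => (A.e i).source) := by
  obtain ⟨E, D, hN, -⟩ := EOF627.exists_functional_compact P
  exact Bet470.bettiQ_goodA hA P D hN ⟨c₀, hb1.1, hb1.2.1, hb1.2.2⟩ hb2

/-- `e > 0` -/
theorem pos_of_rk [Finite A.ι] (hA : GoodA A)
    (hb₂ : Nontrivial (Crest.Topology.RationalHomology.rationalHomology M 2)) (he : Rk A e) :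
    0 < e := by
  obtain ⟨c, h1, -, -, h2⟩ := SNerve865.hb2_good A hA hb₂
  have h3 : ((1 : ℕ) : ℤ) ≤ e := he 1 (fun _ => c) (fun _ => h1) fun a ha => by
    have h4 : a 0 = 0 := by
      by_contra h5
      refine h2 (a 0) h5 ?_
      obtain ⟨b, hb⟩ := ha
      refine ⟨b, fun i j l hn => ?_⟩
      have := hb i j l hn
      rw [← this]
      simp
    funext i
    rw [Fin.fin_one_eq_zero i, h4]
    rfl
  have : ((1 : ℕ) : ℤ) = 1 := rfl
  omega

end Top

/-! ### the surface `X` -/

section X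

variable {X : Type} [TopologicalSpace X] [CompactSpace X] [T2Space X] [ConnectedSpace X]
  [ChartedSpace C2 X] [IsManifold 𝓘(ℂ, C2) 1 X] {u : C(X, Circ)} {A : Atl 2 X} {Z : ZD A}
  {P : Part A} {I : KIndex (smf A)} {e : ℤ}

theorem preconn2 (hA : GoodA A) (i j : A.ι) :
    IsPreconnected ((A.e i).source ∩ (A.e j).source) := by
  have := hA.isPreconnected3 i j j
  rwa [inter_assoc, inter_self] at this

/-- `b₁(X) = 1` -/
theorem gen1_X [ConnectedSpace (YC u)] (hA : GoodA A) (hZ : Z.Lift u) (hU : Univ u) :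
    Gen1 (fun i => (A.e i).source) (fun i j => (nI Z i j : ℚ)) :=
  gen1_base hZ (preconn2 hA) (hU ℝ)

/-- the rank bound on `X` -/
theorem rk_X [Fintype A.ι] [ConnectedSpace (YC u)] (hA : GoodA A) (P : Part A) (hZ : Z.Lift u)
    (hU : Univ u) (hb₂ : Nontrivial (Crest.Topology.RationalHomology.rationalHomology X 2)) :
    Rk A (EDR890.nerveChi (UA A) Finset.univ) :=
  rk_of_betti (betti hA P (gen1_X hA hZ hU) (hb2Q hA hb₂))

/-- all the consequences on `X` -/
structure XOut (B : Big A) (P : Part A) (I : KIndex (smf A)) (Z : ZD A) (u : C(X, Circ)) (e : ℤ) :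
    Prop where
  lat : LatX P I e
  pos : 0 < e
  f7 : F7 A
  xin : XinM473.XinData P I Z u
  /-- `K · L ≥ 0` for bundles with a nonzero section -/
  nonneg : ∀ (L : LB A) (s : A.ι → X → ℂ), IsHS L univ s → s ≠ 0 → 0 ≤ bb P I (KB A) L

theorem xOut [Fintype A.ι] [ConnectedSpace (YC u)] (B : Big A) (hAd : Adm A)
    (H : CMData P I (EDR890.nerveChi (UA A) Finset.univ)) (hlink : LinkAll P I)
    (hmin : IsMinimal X) (hZ : Z.Lift u) (hU : Univ u)
    (hb₂ : Nontrivial (Crest.Topology.RationalHomology.rationalHomology X 2)) :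
    XOut B P I Z u (EDR890.nerveChi (UA A) Finset.univ) := by
  have he := rk_X H.good P hZ hU hb₂
  have hX := latX H hlink he
  have hpos := pos_of_rk H.good hb₂ he
  have hf : F7 A := F7690.hF7 hAd P hmin H.fin
  exact ⟨hX, hpos, hf, xinData B hAd H hX hf hpos hZ, fun L s hs h0 =>
    K_nonneg B hAd H hX hf hs h0⟩

/-- **`b₁(X_N) = 1`** for every `N ≥ 1` -/
theorem gen1_XN [ConnectedSpace (YC u)] (hA : GoodA A) (P : Part A) (hZ : Z.Lift u) (hU : Univ u)
    (hx : XinM473.XinData P I Z u) (N : ℕ) [NeZero N] :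
    Gen1 (fun q => ((XN194.xcov N u (liftsOf hZ)).lift.e q).source)
      (fun p q : (XN194.xcov N u (liftsOf hZ)).lift.ι => (nI Z p.1 q.1 : ℚ)) :=
  gen1_xcov_raw P hZ (preconn2 hA) (hU ℝ) N fun t h1 h2 a ha h0 =>
    XinM473.h1_root hx N t h1 h2 a ha h0

theorem preC (hA : GoodA A) : NGeo151.PreC A := fun i j => preconn2 hA i j

/-- rational Betti numbers of `X_N` -/
theorem betti_XN [Finite A.ι] [ConnectedSpace (YC u)] (hA : GoodA A) (P : Part A) (hZ : Z.Lift u)
    (hU : Univ u) (hx : XinM473.XinData P I Z u)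
    (hb₂ : Nontrivial (Crest.Topology.RationalHomology.rationalHomology X 2))
    (N : ℕ) [NeZero N] (P' : Part (XN194.xcov N u (liftsOf hZ)).lift) :
    BettiQ (fun q => ((XN194.xcov N u (liftsOf hZ)).lift.e q).source) := by
  have : Finite (XN194.xcov N u (liftsOf hZ)).lift.ι := inferInstanceAs (Finite (A.ι × ZMod N))
  exact betti (KY293.goodA_lift _ hA) P' (gen1_XN hA P hZ hU hx N)
    (Hb2N825.hb2_lift _ (preC hA) (hb2Q hA hb₂))

/-- the rank bound on `X_N` -/
theorem rk_XN [Finite A.ι] [ConnectedSpace (YC u)] (hA : GoodA A) (P : Part A) (hZ : Z.Lift u)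
    (hU : Univ u) (hx : XinM473.XinData P I Z u)
    (hb₂ : Nontrivial (Crest.Topology.RationalHomology.rationalHomology X 2))
    (N : ℕ) [NeZero N] (P' : Part (XN194.xcov N u (liftsOf hZ)).lift)
    [Fintype (XN194.xcov N u (liftsOf hZ)).lift.ι] :
    Rk (XN194.xcov N u (liftsOf hZ)).lift
      (EDR890.nerveChi (UA (XN194.xcov N u (liftsOf hZ)).lift) Finset.univ) :=
  rk_of_betti (betti_XN hA P hZ hU hx hb₂ N P')

end X

end Crest.Agent.R275.XIn825
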