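import Crest.Agent.R275.SkelXB_328
import Crest.Agent.R275.XIn_825
import Crest.Agent.R275.LinkG_672
import Crest.Agent.R275.ODX_473
import Crest.Agent.R275.GIx_106

/-!
R275 (S0418), X-SIDE (helper328), part 3: **the X side**.

* `IxAll`      : Noether's formula for the geometric index on good atlases (615, 890), the only input;
* `xBase`      : helper615's `XBase` for all radii;
* `cm_sm`, `cm_big`, `cm_xc` : `CMData`;
* `xnD`        : the inputs on all `X_n`;
* `XData G F`  : the output of the X side, `exists_xData`, `exists_top`.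
-/

set_option autoImplicit false

open Set Filter Topology Metric
open scoped Manifold ContDiff

noncomputable section

namespace Crest.Agent.R275.SkelX328

open Crest.AlgGeometry.Surface
open Geo GC293 NAtl938 Core144 Lt893 ZC352 XN194 YCneg630 FL884 Base144 PartN194
open ChiM825 Loc647 NTr151 NGeo151 EBF151 Smf798 KR798 XNI106 QPb635 WtY945 KX106 Q74
open XIn825 KAsm106 CM615 LnkP5476

/-- the Euler characteristic of the nerve of a finite atlas -/
def eA {n : ℕ} {M : Type} [TopologicalSpace M] (A : Atl n M) [Finite A.ι] : ℤ :=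
  letI : Fintype A.ι := Fintype.ofFinite A.ι
  EDR890.nerveChi (fun i => (A.e i).source) Finset.univ

theorem eA_eq {n : ℕ} {M : Type} [TopologicalSpace M] (A : Atl n M) [Finite A.ι]
    [i : Fintype A.ι] : EDR890.nerveChi (fun i => (A.e i).source) Finset.univ = eA A := by
  unfold eA
  rw [Subsingleton.elim i (Fintype.ofFinite A.ι)]

/-- **the index theoretic input**: Riemann-Roch and Noether's formula for the geometric index of
every good finite atlas of a compact Hausdorff space -/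
def IxAll : Prop :=
  ∀ (M : Type) [TopologicalSpace M] [T2Space M] [CompactSpace M] (A : Atl 2 M) [Finite A.ι]
    (P : Part A), GoodA A → Ix P (MI683.geoI P (nabL_sq A)) (eA A)

variable {X : Type} [TopologicalSpace X] [ChartedSpace C2 X] (G : XGeo X)

section base

variable [CompactSpace X] [T2Space X] [IsManifold 𝓘(ℂ, C2) 1 X]

instance finAt {ρ : ℝ} (hρ : G.N.r ≤ ρ) : Finite (G.N.at' ρ hρ).ι := G.fin

omit [CompactSpace X] [T2Space X] in
/-- helper615's base, all radii -/
theorem xBase (hu : CovData G.u) (hplu : PlurigeneraVanish X) {ρ : ℝ} (hρ : G.N.r ≤ ρ)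
    (h : ρ ≤ G.N.R) : XBase G.u (G.N.at' ρ hρ) where
  conn := hu.conn
  ht := hu.smooth
  per Q := hu.univ ℝ Q
  fin := G.fin
  hol := hol_at G hρ
  max := adm_at G hρ
  good := good_at G hρ h
  h1 := h1z_at G hρ h
  plu := hplu

variable {G}

/-- `CMData` on `X`, all radii -/
theorem cm_at (hu : CovData G.u) (hplu : PlurigeneraVanish X) (HI : IxAll) {ρ : ℝ}
    (hρ : G.N.r ≤ ρ) (h : ρ ≤ G.N.R) (P : Part (G.N.at' ρ hρ)) :
    CMData P (MI683.geoI P (nabL_sq (G.N.at' ρ hρ))) (eA (G.N.at' ρ hρ)) :=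
  cmX (xBase G hu hplu hρ h) (Zat_lift G hρ h) (HI X (G.N.at' ρ hρ) P (good_at G hρ h))

instance finXc (n : ℕ) [NeZero n] : Finite (xc G n).lift.ι := finite_lift (NeZero.one_le)

instance finXcAt (n : ℕ) [NeZero n] {ρ : ℝ} (hρ : G.N.r ≤ ρ) :
    Finite ((nlift G.N (xc G n)).at' ρ hρ).ι := finXc (G := G) n

/-- `CMData` on `X_n`, lifts of the big balls -/
theorem cm_xc (hu : CovData G.u) (hplu : PlurigeneraVanish X) (HI : IxAll) (n : ℕ) [NeZero n]
    (P : Part (xc G n).lift) :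
    CMData P (MI683.geoI P (nabL_sq (xc G n).lift)) (eA (xc G n).lift) :=
  cmXC n (xBase G hu hplu G.N.r_le_R le_rfl) (Zat_lift G G.N.r_le_R le_rfl) G.L
    (HI (XC n G.u) (xc G n).lift P (KY293.goodA_lift (xc G n) (good_at G G.N.r_le_R le_rfl)))

end base

section out

variable [CompactSpace X] [T2Space X] [ConnectedSpace X] [IsManifold 𝓘(ℂ, C2) 1 X] {G}

/-- bigger charts -/
def bigAt {ρ : ℝ} (hρ : G.N.r ≤ ρ) (h : ρ ≤ G.N.R) : Big (G.N.at' ρ hρ) :=
  bigShrink G.h1 G.h2 G.max G.h3 hρ h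

/-- helper825's output, all radii -/
theorem xOut_at (hu : CovData G.u) (hplu : PlurigeneraVanish X) (hmin : IsMinimal X)
    (hb₂ : Nontrivial (Crest.Topology.RationalHomology.rationalHomology X 2)) (HI : IxAll) {ρ : ℝ}
    (hρ : G.N.r ≤ ρ) (h : ρ ≤ G.N.R) (P : Part (G.N.at' ρ hρ)) {Z : ZD (G.N.at' ρ hρ)}
    (hZ : Z.Lift G.u) :
    XOut (bigAt hρ h) P (MI683.geoI P (nabL_sq (G.N.at' ρ hρ))) Z G.u (eA (G.N.at' ρ hρ)) := by
  have := hu.conn
  let _ : Fintype (G.N.at' ρ hρ).ι := Fintype.ofFinite _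
  have h1 := cm_at hu hplu HI hρ h P
  rw [← eA_eq] at h1 ⊢
  exact XIn825.xOut (bigAt hρ h) (adm_at G hρ) h1 (linkAll_geo P) hmin hZ hu.univ hb₂

/-- **the inputs on `X_n`** -/
theorem xnD (hu : CovData G.u) (hplu : PlurigeneraVanish X) (hmin : IsMinimal X)
    (hb₂ : Nontrivial (Crest.Topology.RationalHomology.rationalHomology X 2)) (HI : IxAll)
    (Pb : Part G.N.big) (n : ℕ) [NeZero n] :
    XnD G Pb n (XNI106.gix (liftP (xc G n) Pb)) (eA (xc G n).lift) where
  cm := cm_xc hu hplu HI n _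
  rk := by
    have := hu.conn
    have hx := (xOut_at hu hplu hmin hb₂ HI G.N.r_le_R le_rfl Pb
      (Zat_lift G G.N.r_le_R le_rfl)).xin
    let _ : Fintype (xc G n).lift.ι := Fintype.ofFinite _
    have h1 := rk_XN (good_at G G.N.r_le_R le_rfl) Pb (Zat_lift G G.N.r_le_R le_rfl) hu.univ hx hb₂
      n (liftP (xc G n) Pb)
    have h2 : EDR890.nerveChi (fun i => ((xc G n).lift.e i).source) Finset.univ =
      eA (xc G n).lift := eA_eq _
    rw [← h2]
    exact h1

variable (G) in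
/-- the index functional on `X` (small balls) -/
abbrev gI : KIndex (smf G.N.sm) := MI683.geoI G.P (nabL_sq G.N.sm)

/-- **the output of the X side** -/
structure XData (G : XGeo X) (F : Forms G.Pn) : Prop where
  cov : CovData G.u
  plu : PlurigeneraVanish X
  min : IsMinimal X
  /-- Riemann-Roch, Serre duality, Noether, on the small balls -/
  cm : CMData G.P (gI G) (eA G.N.sm)
  lat : QX825.LatX G.P (gI G) (eA G.N.sm)
  pos : 0 < eA G.N.sm
  f7 : QX825.F7 G.N.sm
  xin : XinM473.XinData G.P (gI G) (ODX473.zd G) G.u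
  nonneg : ∀ (L : LB G.N.sm) (s : G.N.ι → X → ℂ), IsHS L univ s → s ≠ 0 →
    0 ≤ QX825.bb G.P (gI G) (KB G.N.sm) L
  link : PushS768.Link G.preC F G.P (gI G)
  /-- how `F` was built and the data on `X_n` -/
  forms : ∃ (Pb : Part G.N.big) (κ : G.N.ι → G.N.ι → G.N.ι → ℤ), FData G F Pb κ ∧
    ∀ (n : ℕ) [NeZero n], ∃ g e, XnD G Pb n g e

/-- **the X side** -/
theorem exists_xData (hu : CovData G.u) (hplu : PlurigeneraVanish X) (hmin : IsMinimal X)
    (hb₂ : Nontrivial (Crest.Topology.RationalHomology.rationalHomology X 2)) (HI : IxAll) :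
    ∃ F : Forms G.Pn, XData G F := by
  obtain ⟨Pb, -⟩ := exists_part_of G.N.big (hol_at G G.N.r_le_R) (finAt G G.N.r_le_R)
  obtain ⟨κ, hκ⟩ := exists_kap G
  have hX : ∀ (n : ℕ) [NeZero n], XnD G Pb n (XNI106.gix (liftP (xc G n) Pb)) (eA (xc G n).lift) :=
    fun n _ => xnD hu hplu hmin hb₂ HI Pb n
  have hD : ∀ n : ℕ, 1 ≤ n → ∃ e : ℤ, Nonempty (XNIn (wtY G.C G.preC Pb) n e) := fun n hn => by
    have : NeZero n := ⟨by omega⟩
    exact ⟨_, nonempty_xnIn G.preC Pb (yx G n) (yx_φ G n) hn _ (hX n).cm (hX n).rk⟩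
  have hO := xOut_at hu hplu hmin hb₂ HI le_rfl G.N.r_le_R G.P (ODX473.zd_lift G)
  refine ⟨formsK (C := G.C) (good_at G G.N.r_le_R le_rfl) G.preC Pb hκ hD (hb2_big G hb₂), ?_⟩
  exact {
    cov := hu
    plu := hplu
    min := hmin
    cm := cm_at hu hplu HI le_rfl G.N.r_le_R G.P
    lat := hO.lat
    pos := hO.pos
    f7 := hO.f7
    xin := hO.xin
    nonneg := hO.nonneg
    link := LinkG672.linkG G.P
    forms := ⟨Pb, κ, ⟨hκ, rfl, rfl, rfl⟩, fun n _ => ⟨_, _, hX n⟩⟩ }

end out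

/-- **everything from the hypotheses of the theorem** -/
theorem exists_top (X : Type) [TopologicalSpace X] [T2Space X] [CompactSpace X]
    [ConnectedSpace X] [ChartedSpace C2 X] [IsManifold 𝓘(ℂ, C2) 1 X]
    (hb₁ : Crest.Topology.RationalHomology.rationalBettiNumber X 1 = 1)
    (hb₂ : Nontrivial (Crest.Topology.RationalHomology.rationalHomology X 2))
    (hplu : PlurigeneraVanish X) (hmin : IsMinimal X) (HI : IxAll) :
    ∃ (G : XGeo X) (F : Forms G.Pn), XData G F ∧
      (letI : MeasurableSpace (YC G.u) := borel (YC G.u); LargeEnd (YC.dk G.u) (YC.ht G.u)) := by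
  obtain ⟨G, hu, hL⟩ := exists_geo X hb₁
  obtain ⟨F, hF⟩ := exists_xData hu hplu hmin hb₂ HI
  exact ⟨G, F, hF, hL⟩

end Crest.Agent.R275.SkelX328
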