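import Crest.Agent.R275.IxG_615
import Crest.Agent.R275.SkelXC_328
import Crest.Agent.R275.NA4k_585

/-!
# R275 (S0418), integration (helper615): helper328's `IxAll`

* `ixAll_of`     : `IxAll` from the inputs `NoeH` of Noether's formula;
* `ixAll_of_hac` : `IxAll` from helper783's acyclicity alone.
-/

set_option autoImplicit false
set_option linter.unusedSectionVars false

noncomputable section

namespace Crest.Agent.R275.CM615

open Geo GC293 ChiM825 NoeFin890 SkelX328 LnkP5476

theorem ixAll_of (h : ∀ (M : Type) [TopologicalSpace M] [T2Space M] [CompactSpace M]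
    (A : Atl 2 M) [Finite A.ι], GoodA A → NoeH A) : IxAll := by
  intro M _ _ _ A _ P hA
  have _ : Fintype A.ι := Fintype.ofFinite _
  rw [← eA_eq]
  exact ix_geo hA P P (h M A hA)

/-- **`IxAll` from acyclicity** -/
theorem ixAll_of_hac (h : ∀ (M : Type) [TopologicalSpace M] [T2Space M] [CompactSpace M]
    (A : Atl 2 M) [Finite A.ι], GoodA A → Hac A) : IxAll :=
  ixAll_of fun M _ _ _ A _ hA => ⟨h M A hA, fun m w hw => NA4k585.rho_swap m w hw⟩

end Crest.Agent.R275.CM615
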