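/-
R275 (S0418), block K (helper865): the inputs on `X_N` (`XNIn` of helper151's `EBK_151`) for every
`N ≥ 1`.

* `hb2_lift` : `b_2(X) ≥ 1` gives `b_2(X_N) ≥ 1` (transfer on nerves);
* `hb2_rat`, `hb2_int` : `b_2(X) ≥ 1` on a finite good atlas (rational and integral form);
* `rk_xc` : the rank bound `Rk` on `X_N = XC N u`;
* `xnIn_xBase` : `∀ N ≥ 1, ∃ e, Nonempty (XNIn (wtY ..) N e)` from helper615's `XBase`;
* `forms_xBase` : `Forms` on the periodic nerve of `Y = YC u`.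
-/
import Crest.Agent.R275.GIx_106
import Crest.Agent.R275.FlXC_161
import Crest.Agent.R275.XinM_473
import Crest.Agent.R275.CMInst_615
import Crest.Agent.R275.XN5_194
import Crest.Agent.R275.SNerveG_865

set_option autoImplicit false
set_option linter.unusedSectionVars false

open Set Filter Topology

namespace Crest.Agent.R275.KXN865

open ASConv293 GC293 Geo Zig470 XN194 NGeo151 Loc647 NForm945 PDB412 TopK106 NTr151
  QPb635 WtY945 INX945 PDY945 KY293 ChiM825 Smf798 KR798 SB798 Core144 KAsm106 KZig106 KX106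
  NEul865 EBF151 Fl161 Lt893 ZC352 Fm96 XNI106 MI683

noncomputable section

/-! ### transfer -/

section transfer

variable {n : ℕ} {M Z' : Type} [TopologicalSpace M] [TopologicalSpace Z'] {A : Atl n M}
  {N : ℕ} [NeZero N]

/-- transfer: a rational 2-cocycle of `X` whose pull-back to `X_N` is a coboundary is a
coboundary -/
theorem transfer2 (C' : KCov A Z' (ZMod N)) (hpc : PreC A) (c : A.ι → A.ι → A.ι → ℚ)
    (h : ∃ b : C'.lift.ι → C'.lift.ι → ℚ, ∀ p q r : C'.lift.ι,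
      ((C'.lift.e p).source ∩ (C'.lift.e q).source ∩ (C'.lift.e r).source).Nonempty →
        c p.1 q.1 r.1 = b q r - b p r + b p q) :
    ∃ b : A.ι → A.ι → ℚ, ∀ i j l,
      ((A.e i).source ∩ (A.e j).source ∩ (A.e l).source).Nonempty →
        c i j l = b j l - b i l + b i j := by
  obtain ⟨b, hb⟩ := h
  refine ⟨fun i j => (N : ℚ)⁻¹ * ∑ k : ZMod N, b (i, k) (j, k + wind C' hpc i j), ?_⟩
  intro i j l hijl
  have hN : (N : ℚ) ≠ 0 := Nat.cast_ne_zero.2 (NeZero.ne N)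
  obtain ⟨x, ⟨hi, hj⟩, hl⟩ := hijl
  have hw := wind_add C' hpc ⟨x, ⟨hi, hj⟩, hl⟩
  have key : ∀ k : ZMod N, c i j l = b (j, k + wind C' hpc i j)
      (l, (k + wind C' hpc i j) + wind C' hpc j l) - b (i, k) (l, k + wind C' hpc i l) +
      b (i, k) (j, k + wind C' hpc i j) := by
    intro k
    have h1 : C'.act k (C'.s i x) ∈ C'.sheet i k := C'.act_s_mem hi k
    have hp : C'.p (C'.act k (C'.s i x)) = x := C'.p_act_s hi k
    have h2 : C'.act k (C'.s i x) ∈ C'.sheet j (k + wind C' hpc i j) :=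
      (mem_sheet_iff_wind C' hpc h1).2 ⟨by rw [hp]; exact hj, rfl⟩
    have h3 : C'.act k (C'.s i x) ∈ C'.sheet l (k + wind C' hpc i l) :=
      (mem_sheet_iff_wind C' hpc h1).2 ⟨by rw [hp]; exact hl, rfl⟩
    have := hb (i, k) (j, k + wind C' hpc i j) (l, k + wind C' hpc i l) ⟨_, ⟨h1, h2⟩, h3⟩
    rw [add_assoc, hw]
    exact this
  have hs : ∑ k : ZMod N, c i j l = N * c i j l := by
    rw [Finset.sum_const, Finset.card_univ, ZMod.card, nsmul_eq_mul]
  have h1 : ∑ k : ZMod N, b (j, k + wind C' hpc i j)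
      (l, (k + wind C' hpc i j) + wind C' hpc j l) =
      ∑ k : ZMod N, b (j, k) (l, k + wind C' hpc j l) :=
    Equiv.sum_comp (Equiv.addRight (wind C' hpc i j))
      fun k => b (j, k) (l, k + wind C' hpc j l)
  have h2 : (N : ℚ) * c i j l = ∑ k : ZMod N, b (j, k) (l, k + wind C' hpc j l) -
      ∑ k : ZMod N, b (i, k) (l, k + wind C' hpc i l) +
      ∑ k : ZMod N, b (i, k) (j, k + wind C' hpc i j) := by
    rw [← hs, Finset.sum_congr rfl fun k _ => key k, Finset.sum_add_distrib,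
      Finset.sum_sub_distrib, h1]
  rw [← mul_sub, ← mul_add, ← h2, inv_mul_cancel_left₀ hN]

/-- `b_2(X) ≥ 1` gives `b_2(X_N) ≥ 1` -/
theorem hb2_lift (C' : KCov A Z' (ZMod N)) (hpc : PreC A)
    (hb2 : ∃ c : A.ι → A.ι → A.ι → ℚ,
      (∀ i j l m, ((A.e i).source ∩ (A.e j).source ∩ (A.e l).source ∩ (A.e m).source).Nonempty →
        c j l m - c i l m + c i j m - c i j l = 0) ∧
      ¬ ∃ b : A.ι → A.ι → ℚ, ∀ i j l,
        ((A.e i).source ∩ (A.e j).source ∩ (A.e l).source).Nonempty →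
        c i j l = b j l - b i l + b i j) :
    ∃ c : C'.lift.ι → C'.lift.ι → C'.lift.ι → ℚ,
      (∀ i j l m, ((C'.lift.e i).source ∩ (C'.lift.e j).source ∩ (C'.lift.e l).source ∩
        (C'.lift.e m).source).Nonempty → c j l m - c i l m + c i j m - c i j l = 0) ∧
      ¬ ∃ b : C'.lift.ι → C'.lift.ι → ℚ, ∀ i j l,
        ((C'.lift.e i).source ∩ (C'.lift.e j).source ∩ (C'.lift.e l).source).Nonempty →
        c i j l = b j l - b i l + b i j := by
  obtain ⟨c, h1, h2⟩ := hb2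
  refine ⟨fun p q r => c p.1 q.1 r.1, ?_, fun h => h2 (transfer2 C' hpc c h)⟩
  rintro i j l m ⟨z, ⟨⟨a1, a2⟩, a3⟩, a4⟩
  exact h1 _ _ _ _ ⟨C'.p z, ⟨⟨a1.1, a2.1⟩, a3.1⟩, a4.1⟩

end transfer

/-! ### `b_2 ≥ 1` on the good atlas of `X` -/

section b2

variable {n : ℕ} {X : Type} [TopologicalSpace X] {A : Atl n X} [Finite A.ι]

/-- the rational form -/
theorem hb2_rat (hA : GoodA A)
    (hb : Nontrivial (Crest.Topology.RationalHomology.rationalHomology X 2)) :
    ∃ c : A.ι → A.ι → A.ι → ℚ,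
      (∀ i j l m, ((A.e i).source ∩ (A.e j).source ∩ (A.e l).source ∩ (A.e m).source).Nonempty →
        c j l m - c i l m + c i j m - c i j l = 0) ∧
      ¬ ∃ b : A.ι → A.ι → ℚ, ∀ i j l,
        ((A.e i).source ∩ (A.e j).source ∩ (A.e l).source).Nonempty →
        c i j l = b j l - b i l + b i j := by
  obtain ⟨c, h1, -, h3, -⟩ := SNerve865.hb2_good A hA hb
  refine ⟨fun i j l => (c i j l : ℚ), fun i j l m h => ?_, h3⟩
  have := h1 i j l m h
  beta_reduce
  exact_mod_cast this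

/-- the integral form (`hb₂` of `EBF151.formsX`) -/
theorem hb2_int (hA : GoodA A)
    (hb : Nontrivial (Crest.Topology.RationalHomology.rationalHomology X 2)) :
    ∃ c : GC293.Z2 A ℤ, ∀ m : ℤ, m • c.1 ∈ GC293.B2 A ℤ → m = 0 := by
  obtain ⟨c, h1, -, -, h4⟩ := SNerve865.hb2_good A hA hb
  refine ⟨⟨c, fun i j l m h => ?_⟩, fun m hm => ?_⟩
  · have := h1 i j l m h
    exact this
  · by_contra h0
    obtain ⟨b, hb⟩ := hm
    exact h4 m h0 ⟨b, fun i j l h => hb i j l h⟩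

end b2

/-! ### the rank bound on a cyclic covering -/

section general

variable {X Y X' : Type} [TopologicalSpace X] [T2Space X] [CompactSpace X]
  [TopologicalSpace X'] [T2Space X'] [CompactSpace X'] {A : Atl 2 X} [Finite A.ι] {N : ℕ}
  {C' : KCov A X' (ZMod N)} [NeZero N]

/-- the rank bound on a cyclic covering with `b_1 = 1` -/
theorem rk_cyc [ConnectedSpace X'] [Fintype C'.lift.ι] (hA : GoodA A) (P : Part A)
    {c₀ : C'.lift.ι → C'.lift.ι → ℚ} (h1 : Gen1 (fun q => (C'.lift.e q).source) c₀)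
    (hb : Nontrivial (Crest.Topology.RationalHomology.rationalHomology X 2)) :
    Rk C'.lift (EDR890.nerveChi (UA C'.lift) Finset.univ) := by
  obtain ⟨E, D, hNrm, -⟩ := EOF627.exists_functional_compact (liftP C' P)
  exact rk_of_betti (Bet470.bettiQ_goodA (goodA_lift C' hA) (liftP C' P) D hNrm
    ⟨c₀, h1.1, h1.2.1, h1.2.2⟩ (hb2_lift C' (preC_of_goodA hA) (hb2_rat hA hb)))

end general

/-! ### `X_N = XC N u` -/

/-- the coverings `YC u` are locally compact -/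
instance locallyCompact_YC {X : Type} [TopologicalSpace X] [LocallyCompactSpace X]
    (u : C(X, Circ)) : LocallyCompactSpace (YC u) :=
  (FP.isClosedEmbedding (u := (u : X → Circ)) (q := fun r : ℝ => (r : Circ)) u.continuous
    (AddCircle.continuous_mk' 1)).locallyCompactSpace

section xc

variable {X : Type} [TopologicalSpace X] [T2Space X] [CompactSpace X] {A : Atl 2 X}
  {u : C(X, Circ)} {Z : ZD A}

/-- the lifted atlas of `X_N` -/
abbrev AX (N : ℕ) [NeZero N] (L : Lifts A (u : X → Circ)) : Atl 2 (XC N u) := (xcov N u L).lift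

/-- the lifted partition of `X_N` -/
abbrev PX (N : ℕ) [NeZero N] (P : Part A) (L : Lifts A (u : X → Circ)) : Part (AX N L) :=
  liftP (xcov N u L) P

instance finite_AX [Finite A.ι] (N : ℕ) [NeZero N] (L : Lifts A (u : X → Circ)) :
    Finite (AX N L).ι := inferInstanceAs (Finite (A.ι × ZMod N))

/-- the Euler characteristic of the nerve of `X_N` -/
def eX [Finite A.ι] (N : ℕ) [NeZero N] (L : Lifts A (u : X → Circ)) : ℤ :=
  letI : Fintype (AX N L).ι := Fintype.ofFinite _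
  EDR890.nerveChi (UA (AX N L)) Finset.univ

theorem eX_eq [Finite A.ι] (N : ℕ) [NeZero N] (L : Lifts A (u : X → Circ))
    [i : Fintype (AX N L).ι] : eX N L = EDR890.nerveChi (UA (AX N L)) Finset.univ := by
  unfold eX
  congr!

variable [Finite A.ι] (P : Part A) (hZ : Z.Lift u)

include P hZ in
/-- the rank bound on `X_N = XC N u` -/
theorem rk_xc [ConnectedSpace X] [ConnectedSpace (YC u)] (hA : GoodA A)
    (hU : ∀ Q : LPS X ℝ, ∃ (v : ℝ) (F : YC u → ℝ),
      (Q.pull (YC.prC u)).IsPrim F ∧ ∀ y, F (YC.dk u y) = F y - v)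
    (hb : Nontrivial (Crest.Topology.RationalHomology.rationalHomology X 2))
    (N : ℕ) [NeZero N]
    (H : ∀ t : ℂ, t ^ N = 1 → t ≠ 1 → ∀ a : A.ι → X → Fin 2 → ℂ,
      IsZ1 A (ltc Z t) univ a → d1 A a = 0 →
        ∃ w : A.ι → X → ℂ, IsZ0 A (ltc Z t) univ w ∧ d0 A w = a) :
    Rk (AX N (liftsOf hZ)) (eX N (liftsOf hZ)) := by
  let _ : Fintype (AX N (liftsOf hZ)).ι := Fintype.ofFinite _
  rw [eX_eq]
  exact rk_cyc hA P (gen1_xcov_raw P hZ (preC_of_goodA hA) hU N H) hb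

/-- **`XNIn` for `X_N = XC N u`** -/
theorem nonempty_xnIn_xc [ConnectedSpace X] [ConnectedSpace (YC u)] (hA : GoodA A) (hpc : PreC A)
    (hU : ∀ Q : LPS X ℝ, ∃ (v : ℝ) (F : YC u → ℝ),
      (Q.pull (YC.prC u)).IsPrim F ∧ ∀ y, F (YC.dk u y) = F y - v)
    (hb : Nontrivial (Crest.Topology.RationalHomology.rationalHomology X 2))
    (N : ℕ) [NeZero N]
    (H : ∀ t : ℂ, t ^ N = 1 → t ≠ 1 → ∀ a : A.ι → X → Fin 2 → ℂ,
      IsZ1 A (ltc Z t) univ a → d1 A a = 0 →
        ∃ w : A.ι → X → ℂ, IsZ0 A (ltc Z t) univ w ∧ d0 A w = a)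
    (cm : CMData (PX N P (liftsOf hZ)) (geoI (PX N P (liftsOf hZ)) (LnkP5476.nabL_sq _))
      (eX N (liftsOf hZ))) :
    Nonempty (XNIn (wtY (ycov u (liftsOf hZ)) hpc P) N (eX N (liftsOf hZ))) :=
  nonempty_xnIn_geo (C := ycov u (liftsOf hZ)) (C' := xcov N u (liftsOf hZ))
    hpc P (yxHom N u (liftsOf hZ)) (fun _ => rfl) (Nat.one_le_iff_ne_zero.2 (NeZero.ne N)) cm
    (rk_xc P hZ hA hU hb N H)

/-- for a level `N ≥ 1` given by a proof -/
theorem xnIn_of_ne {D : ℕ → ℤ → Prop} (h : ∀ (N : ℕ) [NeZero N], ∃ e, D N e) :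
    ∀ N : ℕ, 1 ≤ N → ∃ e, D N e := fun N hN => by
  have : NeZero N := ⟨by omega⟩
  exact h N

end xc

section base

open CM615 (XBase Ix)

variable {X : Type} [TopologicalSpace X] [CompactSpace X] [T2Space X] [ConnectedSpace X]
  [ChartedSpace Crest.AlgGeometry.Surface.C2 X]
  [IsManifold (modelWithCornersSelf ℂ Crest.AlgGeometry.Surface.C2) 1 X] {u : C(X, Circ)}
  {A : Atl 2 X} {Z : ZD A} [Finite A.ι]

/-- **`XNIn` for all `N ≥ 1` from helper615's `XBase`** and the index theoretic inputs `Ix` -/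
theorem xnIn_xBase (H : XBase u A) (P : Part A) (hZ : Z.Lift u) (hpc : PreC A)
    (hb : Nontrivial (Crest.Topology.RationalHomology.rationalHomology X 2))
    (h1 : ∀ (N : ℕ) [NeZero N] (t : ℂ), t ^ N = 1 → t ≠ 1 → ∀ a : A.ι → X → Fin 2 → ℂ,
      IsZ1 A (ltc Z t) univ a → d1 A a = 0 →
        ∃ w : A.ι → X → ℂ, IsZ0 A (ltc Z t) univ w ∧ d0 A w = a)
    (HI : ∀ (N : ℕ) [NeZero N], Ix (PX N P (liftsOf hZ))
      (geoI (PX N P (liftsOf hZ)) (LnkP5476.nabL_sq _)) (eX N (liftsOf hZ))) :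
    ∀ N : ℕ, 1 ≤ N → ∃ e : ℤ,
      Nonempty (XNIn (wtY (ycov u (liftsOf hZ)) hpc P) N e) := by
  refine xnIn_of_ne fun N _ => ?_
  have := H.conn
  exact ⟨_, nonempty_xnIn_xc P hZ H.good hpc H.per hb N (h1 N)
    (CM615.cmXC N H hZ (liftsOf hZ) (HI N))⟩

/-- **`Forms` on the periodic nerve of `Y = YC u`** -/
def forms_xBase (H : XBase u A) (P : Part A) (hZ : Z.Lift u) (hpc : PreC A)
    (hb : Nontrivial (Crest.Topology.RationalHomology.rationalHomology X 2))
    (h1 : ∀ (N : ℕ) [NeZero N] (t : ℂ), t ^ N = 1 → t ≠ 1 → ∀ a : A.ι → X → Fin 2 → ℂ,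
      IsZ1 A (ltc Z t) univ a → d1 A a = 0 →
        ∃ w : A.ι → X → ℂ, IsZ0 A (ltc Z t) univ w ∧ d0 A w = a)
    (HI : ∀ (N : ℕ) [NeZero N], Ix (PX N P (liftsOf hZ))
      (geoI (PX N P (liftsOf hZ)) (LnkP5476.nabL_sq _)) (eX N (liftsOf hZ)))
    {κ : A.ι → A.ι → A.ι → ℤ} (hκ : IsC1 (slb (KB A)) κ) :
    Forms (nerve (ycov u (liftsOf hZ)) hpc) :=
  formsK (C := ycov u (liftsOf hZ)) H.good hpc P hκ (xnIn_xBase H P hZ hpc hb h1 HI)
    (hb2_int H.good hb)

/-- the roots of unity input from helper473's `XinData` -/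
theorem h1_of_xin [ConnectedSpace (YC u)] {P' : Part A} {I : KIndex (smf A)}
    (H : XinM473.XinData P' I Z u) (N : ℕ) [NeZero N] (t : ℂ) (h : t ^ N = 1) (h' : t ≠ 1)
    (a : A.ι → X → Fin 2 → ℂ) (ha : IsZ1 A (ltc Z t) univ a) (h0 : d1 A a = 0) :
    ∃ w : A.ι → X → ℂ, IsZ0 A (ltc Z t) univ w ∧ d0 A w = a :=
  XinM473.h1_root H N t h h' a ha h0

end base

end

end Crest.Agent.R275.KXN865
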