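import Crest.Agent.R275.NA13b_425
import Crest.Agent.R275.DolG_763
import Crest.Agent.R275.ProdC_363

/-!
# R275, PART I', leaf NA13, part 3 (helper425): the swap and the diagonal ideal

* `swLift B : Lift (B.prod B)` : the graded swap of 363 as an involution in the sense of 763,
  over `(dgS A).τ`;
* `dg_cond`, `dg_stable` : the hypotheses of 763's `exists_super_sec` for `J^m`.
-/

set_option autoImplicit false
set_option linter.unusedSectionVars false

open Set Filter Topology Complex
open scoped ContDiff Matrix ComplexConjugate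

namespace Crest.Agent.R275.NA13425

open Crest.Agent.R275.Geo Crest.Agent.R275.NA3m425 Crest.Agent.R275.Smf798
  Crest.Agent.R275.SmR425 Crest.Agent.R275.Con425 Crest.Agent.R275.Dg199
  Crest.Agent.R275.Prod363 Crest.Agent.R275.DolG763

noncomputable section

variable {M : Type} [TopologicalSpace M] [T2Space M] {A : Atl 2 M}

/-- **the swap** as a lifted involution -/
def swLift (B : FBun A) : Lift (B.prod B) where
  s := ((dgS A).τ : smf (A.prod A) →+* smf (A.prod A))
  σ := swpL B
  ss f := (dgS A).τ_τ f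
  σσ u := swpL_swpL B u
  σs f u := by
    refine sec_ext fun i x => ?_
    obtain ⟨i, j⟩ := i
    obtain ⟨x, y⟩ := x
    funext k
    obtain ⟨k, l⟩ := k
    show (-1 : ℂ) ^ (B.deg k * B.deg l) * (f.1 (y, x) * u.1 (j, i) (y, x) (l, k)) =
      f.1 (y, x) * ((-1 : ℂ) ^ (B.deg k * B.deg l) * u.1 (j, i) (y, x) (l, k))
    ring
  σn u := (nabL_swpL B u).symm
  σd c u := by
    refine sec_ext fun i x => ?_
    obtain ⟨i, j⟩ := i
    obtain ⟨x, y⟩ := x
    funext k
    obtain ⟨k, l⟩ := k
    show (-1 : ℂ) ^ (B.deg k * B.deg l) * (c (B.deg l + B.deg k) * u.1 (j, i) (y, x) (l, k)) =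
      c (B.deg k + B.deg l) * ((-1 : ℂ) ^ (B.deg k * B.deg l) * u.1 (j, i) (y, x) (l, k))
    rw [add_comm (B.deg l) (B.deg k)]
    ring

theorem swLift_s (B : FBun A) (f : smf (A.prod A)) : (swLift B).s f = (dgS A).τ f := rfl

theorem swLift_σ (B : FBun A) (u : Sec (B.prod B)) : (swLift B).σ u = swpL B u := rfl

section compact
variable [CompactSpace M] (A)

variable {A}

/-- the connection condition for the powers of the ideal of the diagonal -/
theorem dg_cond (P : Part (A.prod A)) (B : FBun (A.prod A))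
    (hB : ∀ u : Sec B, nabL B (nabL B u) = 0) (L : Lift B) (m : ℕ) :
    (dolL hB L).Cond ((dgA A).reg.J ^ m) :=
  dolL_cond hB L P _ fun _ hf i b => dg_DD_mem A P i b hf

theorem dg_stable (m : ℕ) : ∀ f ∈ (dgA A).reg.J ^ m, (dgS A).τ f ∈ (dgA A).reg.J ^ m :=
  fun _ hf => τ_mem_pow (dgS A) hf

theorem dg_stable' (B : FBun A) (m : ℕ) :
    ∀ f ∈ (dgA A).reg.J ^ m, (swLift B).s f ∈ (dgA A).reg.J ^ m :=
  fun _ hf => τ_mem_pow (dgS A) hf

/-- the connection condition for a point -/
theorem pt_cond (P : Part A) (x : M) (B : FBun A)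
    (hB : ∀ u : Sec B, nabL B (nabL B u) = 0) (L : Lift B) (m : ℕ) :
    (dolL hB L).Cond ((ptA A x).reg.J ^ m) :=
  dolL_cond hB L P _ fun _ hf i b => pt_DD_mem A P x i b hf

end compact

end

end Crest.Agent.R275.NA13425
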