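import Crest.Agent.R275.LnkP3_476

/-!
R275, PART I', leaf NA4 (helper476): the supertrace of one step of the filtration by powers of the
ideal of the diagonal, pure algebra.

`SC.step`: `i : A' → A` injective, `p : A → C` surjective, `p ∘ i = 0`, and "acyclicity of
`ker p / A'`": then `A.st = A'.st + C.st`.
-/

set_option autoImplicit false

namespace Crest.Agent.R275.NA4h476

open Crest.Agent.R275.NA7763

noncomputable section

variable {k : Type*} [Field k] {VA VB VC : Type*} [AddCommGroup VA] [Module k VA]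
  [AddCommGroup VB] [Module k VB] [AddCommGroup VC] [Module k VC]

/-- acyclicity of `ker p / im i`, written out -/
def Acyc {A' : SC k VB} {A : SC k VA} {C : SC k VC} (i : SC.Hom A' A) (p : SC.Hom A C) : Prop :=
  ∀ x, p.f x = 0 → (∃ y, i.f y = A.d x) → ∃ v y, p.f v = 0 ∧ i.f y = x - A.d v

/-- **one step of a filtration** -/
theorem step {A' : SC k VB} {A : SC k VA} {C : SC k VC} (i : SC.Hom A' A) (p : SC.Hom A C)
    (hi : Function.Injective i.f) (hp : Function.Surjective p.f) (hpi : ∀ y, p.f (i.f y) = 0)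
    (ha : Acyc i p) [FiniteDimensional k A.H] [FiniteDimensional k A'.H] :
    FiniteDimensional k C.H ∧ A.st = A'.st + C.st := by
  -- the quotient
  set F : Submodule k VA := LinearMap.range i.f with hF
  have hd : ∀ x ∈ F, A.d x ∈ F := by
    rintro _ ⟨y, rfl⟩
    exact ⟨A'.d y, (i.d y).symm⟩
  have hT : ∀ x ∈ F, A.T x ∈ F := by
    rintro _ ⟨y, rfl⟩
    exact ⟨A'.T y, (i.T y).symm⟩
  let Q := LnkP3476.quot A F hd hT
  let S : SC.SES A' A Q :=
    { i := i
      p := { f := F.mkQ, d := fun _ => rfl, T := fun _ => rfl }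
      inj := hi
      surj := F.mkQ_surjective
      exact := fun y hy => (Submodule.Quotient.mk_eq_zero F).1 hy
      zero := fun x => (Submodule.Quotient.mk_eq_zero F).2 ⟨x, rfl⟩ }
  have hFp : F ≤ LinearMap.ker p.f := by
    rintro _ ⟨y, rfl⟩
    exact hpi y
  let φ : SC.Hom Q C :=
    { f := F.liftQ p.f hFp
      d := fun x => by
        obtain ⟨x, rfl⟩ := F.mkQ_surjective x
        exact p.d x
      T := fun x => by
        obtain ⟨x, rfl⟩ := F.mkQ_surjective x
        exact p.T x }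
  have hφ : φ.Quasi := by
    constructor
    · rw [injective_iff_map_eq_zero]
      refine Q.ind fun x hx => ?_
      intro h
      obtain ⟨x, rfl⟩ := F.mkQ_surjective x
      rw [SC.Hom.mapH_cls, SC.cls_eq_zero] at h
      obtain ⟨y, hy⟩ := h
      obtain ⟨z, rfl⟩ := hp y
      have hy' : p.f (A.d z) = p.f x := by rw [← p.d]; exact hy
      have h1 : p.f (x - A.d z) = 0 := by rw [map_sub, hy', sub_self]
      have h2 : A.d x ∈ F := (Submodule.Quotient.mk_eq_zero F).1 hx
      obtain ⟨w, hw⟩ := h2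
      obtain ⟨v, y, hv, hvy⟩ := ha (x - A.d z) h1 ⟨w, by rw [map_sub, A.dd, sub_zero, hw]⟩
      rw [SC.cls_eq_zero]
      refine ⟨F.mkQ (z + v), ?_⟩
      show F.mkQ (A.d (z + v)) = F.mkQ x
      rw [← sub_eq_zero, ← map_sub]
      refine (Submodule.Quotient.mk_eq_zero F).2 ⟨-y, ?_⟩
      rw [map_neg, hvy, map_add]
      abel
    · refine C.ind fun y hy => ?_
      obtain ⟨x, rfl⟩ := hp y
      have h1 : p.f (A.d x) = 0 := by rw [← p.d, hy]
      obtain ⟨v, y, hv, hvy⟩ := ha (A.d x) h1 ⟨0, by rw [map_zero, A.dd]⟩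
      have h2 : Q.d (F.mkQ (x - v)) = 0 := by
        show F.mkQ (A.d (x - v)) = 0
        refine (Submodule.Quotient.mk_eq_zero F).2 ⟨y, ?_⟩
        rw [hvy, map_sub]
      refine ⟨Q.cls (F.mkQ (x - v)) h2, ?_⟩
      rw [SC.Hom.mapH_cls]
      refine SC.cls_congr C ?_ _
      show p.f (x - v) = p.f x
      rw [map_sub, hv, sub_zero]
  have h1 : FiniteDimensional k Q.H := S.finite_right
  refine ⟨hφ.finite, ?_⟩
  rw [← hφ.st_eq]
  exact S.st_eq

/-- the form with a sign: `p` commutes with the involutions up to the factor `c` -/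
theorem step_sign {A' : SC k VB} {A : SC k VA} (C : SC k VC) (i : SC.Hom A' A)
    (p : VA →ₗ[k] VC) (c : k) (hpd : ∀ x, C.d (p x) = p (A.d x))
    (hpT : ∀ x, p (A.T x) = c • C.T (p x))
    (hi : Function.Injective i.f) (hp : Function.Surjective p) (hpi : ∀ y, p (i.f y) = 0)
    (ha : ∀ x, p x = 0 → (∃ y, i.f y = A.d x) → ∃ v y, p v = 0 ∧ i.f y = x - A.d v)
    [FiniteDimensional k A.H] [FiniteDimensional k A'.H] :
    FiniteDimensional k C.H ∧ A.st - A'.st = c * C.st := by
  let p' : SC.Hom A (C.scaleT c) :=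
    { f := p
      d := hpd
      T := fun x => (hpT x).symm }
  obtain ⟨h1, h2⟩ := step i p' hi hp hpi ha
  refine ⟨h1, ?_⟩
  rw [h2, SC.scaleT_st]
  ring

/-- the form for submodules `F' ≤ F` of one complex -/
theorem step_sub {V W : Type*} [AddCommGroup V] [Module k V] [AddCommGroup W] [Module k W]
    (S : SC k V) (F F' : Submodule k V) (hFF : F' ≤ F)
    (hd : ∀ x ∈ F, S.d x ∈ F) (hT : ∀ x ∈ F, S.T x ∈ F)
    (hd' : ∀ x ∈ F', S.d x ∈ F') (hT' : ∀ x ∈ F', S.T x ∈ F')
    (C : SC k W) (ρ : F →ₗ[k] W) (c : k)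
    (hρd : ∀ x : F, C.d (ρ x) = ρ ⟨S.d x, hd x x.2⟩)
    (hρT : ∀ x : F, ρ ⟨S.T x, hT x x.2⟩ = c • C.T (ρ x))
    (hsur : Function.Surjective ρ) (h0 : ∀ x : F, (x : V) ∈ F' → ρ x = 0)
    (ha : ∀ x : F, ρ x = 0 → S.d x ∈ F' → ∃ v : F, ρ v = 0 ∧ (x : V) - S.d v ∈ F')
    [FiniteDimensional k (LnkP3476.sub S F hd hT).H]
    [FiniteDimensional k (LnkP3476.sub S F' hd' hT').H] :
    FiniteDimensional k C.H ∧
      (LnkP3476.sub S F hd hT).st - (LnkP3476.sub S F' hd' hT').st = c * C.st := by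
  let i : SC.Hom (LnkP3476.sub S F' hd' hT') (LnkP3476.sub S F hd hT) :=
    { f := Submodule.inclusion hFF
      d := fun _ => rfl
      T := fun _ => rfl }
  refine step_sign C i ρ c hρd hρT (Submodule.inclusion_injective hFF) hsur
    (fun y => h0 _ y.2) fun x hx hy => ?_
  obtain ⟨y, hy⟩ := hy
  obtain ⟨v, hv, hv'⟩ := ha x hx (by
    have : S.d x = (y : V) := (congrArg Subtype.val hy).symm
    rw [this]
    exact y.2)
  exact ⟨v, ⟨_, hv'⟩, hv, Subtype.ext rfl⟩

end

end Crest.Agent.R275.NA4h476
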