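import Crest.Agent.R275.NA8b_759
import Crest.Agent.R275.Dg5_199

/-!
R275, PART I', NA8 (helper759), part c: the data `KosData` for the ideal of the diagonal
(helper199's `dgA`, `dgS`), and Noether's formula from the remaining geometric inputs.
-/

set_option autoImplicit false
set_option linter.unusedSectionVars false

noncomputable section

namespace Crest.Agent.R275.NA8759

open Set Filter Topology Complex
open Crest.Agent.R275.Geo Crest.Agent.R275.Smf798 Crest.Agent.R275.Prod363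
open Crest.Agent.R275.Dg199
open Crest.Agent.R275.NA7763 Crest.Agent.R275.NA6763 Crest.Agent.R275.NA3m425
open Crest.Agent.R275.NA6b763 Crest.Agent.R275.NA3a759

section general

variable {A : Type*} [CommRing A]

/-- 199's local structure gives `LocReg` -/
theorem locReg_of {J : Ideal A} {s : A} (h : s ∈ J ∨ ∃ u1 ∈ J, ∃ u2 ∈ J,
    (∀ f ∈ J, ∃ a b, s * f = u1 * a + u2 * b) ∧ (∀ g, u1 * g = 0 → s * g = 0) ∧
      (∀ f g, u1 * g = u2 * f → ∃ c, s * f = u1 * c)) : LocReg J s := by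
  rcases h with h | ⟨u1, h1, u2, h2, h3, h4, h5⟩
  · exact Or.inl ⟨1, by rwa [pow_one]⟩
  · refine Or.inr ⟨1, u1, u2, h1, h2, fun x hx => ?_, fun g hg => ?_, fun g f hgf => ?_⟩
    · obtain ⟨a, b, hab⟩ := h3 x hx
      rw [pow_one, hab]
      exact Ideal.mem_span_pair.2 ⟨a, b, by ring⟩
    · rw [pow_one]; exact h4 g hg
    · rw [pow_one]; exact h5 f g hgf

theorem span_eq_top_of_sum {N : ℕ} {s : Fin N → A} (h : ∑ i, s i = 1) :
    Ideal.span (Set.range s) = ⊤ := by
  rw [Ideal.eq_top_iff_one, ← h]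
  exact Ideal.sum_mem _ fun i _ => Ideal.subset_span ⟨i, rfl⟩

end general

section smfs

variable {n : ℕ} {M : Type} [TopologicalSpace M] (A : Atl n M)

theorem isUnit_two_smf : IsUnit (2 : smf A) := by
  have h : (2 : smf A) = algebraMap ℂ (smf A) 2 := by rw [map_ofNat]
  rw [h]
  exact (IsUnit.mk0 (2 : ℂ) two_ne_zero).map (algebraMap ℂ (smf A))

/-- `smf A` as a `ℚ`-algebra -/
abbrev algQ : Algebra ℚ (smf A) := ((algebraMap ℂ (smf A)).comp (algebraMap ℚ ℂ)).toAlgebra

end smfs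

section diag

variable {M : Type} [TopologicalSpace M] [T2Space M] [CompactSpace M] (A : Atl 2 M)
variable {Om : Type*} [AddCommGroup Om] [Module ℂ Om] [Module (smf (A.prod A)) Om]
  [IsScalarTower ℂ (smf (A.prod A)) Om]

theorem exists_kosData (E : Dol ℂ (smf (A.prod A)) Om) (hs : ∀ a, E.s a = (dgS A).τ a)
    (hc : E.Cond (dgA A).reg.J) :
    ∃ (q : ℕ) (D : KosData E q), 4 ≤ q ∧ D.J = (dgA A).reg.J := by
  obtain ⟨q, h, hq, h1, h2⟩ := dg_gens A
  obtain ⟨N, s, h3, -, h4⟩ := dg_loc A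
  refine ⟨q, { J := (dgA A).reg.J
               h := h
               span := h2
               odd := fun i => by rw [hs, h1]
               κ := Fin N
               sf := s
               sf_top := span_eq_top_of_sum h3
               loc := fun i => locReg_of ?_
               cond := hc }, hq, rfl⟩
  rcases h4 i with h5 | ⟨u1, g1, u2, g2, -, -, g3, g4, g5⟩
  · exact Or.inl h5
  · exact Or.inr ⟨u1, g1, u2, g2, g3, g4, g5⟩

/-- the swap preserves the ideal of the diagonal and its powers -/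
theorem s_mem_dg (E : Dol ℂ (smf (A.prod A)) Om) (hs : ∀ a, E.s a = (dgS A).τ a)
    (hc : E.Cond (dgA A).reg.J) (m : ℕ) :
    ∀ a ∈ (dgA A).reg.J ^ m, E.s a ∈ (dgA A).reg.J ^ m := by
  obtain ⟨q, D, -, hD⟩ := exists_kosData A E hs hc
  intro a ha
  rw [← hD] at ha ⊢
  exact D.s_mem_pow m a ha

/-- the complex `J^m Ω`, `J` the ideal of the diagonal -/
def dcx (E : Dol ℂ (smf (A.prod A)) Om) (hs : ∀ a, E.s a = (dgS A).τ a)
    (hc : E.Cond (dgA A).reg.J) (m : ℕ) :
    SC ℂ ((dgA A).reg.J ^ m • (⊤ : Submodule (smf (A.prod A)) Om) :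
      Submodule (smf (A.prod A)) Om) :=
  E.sub ((dgA A).reg.J ^ m) (E.cond_pow hc m) (s_mem_dg A E hs hc m)

/-- finiteness of the cohomology of `J^m Ω` -/
theorem finite_dcx [Module.Flat (smf (A.prod A)) Om] (E : Dol ℂ (smf (A.prod A)) Om)
    (Ix : SInd E) (hs : ∀ a, E.s a = (dgS A).τ a) (hc : E.Cond (dgA A).reg.J) (m : ℕ) :
    FiniteDimensional ℂ (dcx A E hs hc m).H := by
  obtain ⟨q, D, -, hD⟩ := exists_kosData A E hs hc
  have h1 := (st_cx D Ix (isUnit_two_smf _) m).1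
  unfold KosData.cx at h1
  revert h1
  unfold dcx
  have key : ∀ (J : Ideal (smf (A.prod A))) (e : J = (dgA A).reg.J) (hc' : E.Cond (J ^ m))
      (hs' : ∀ a ∈ J ^ m, E.s a ∈ J ^ m), FiniteDimensional ℂ (E.sub (J ^ m) hc' hs').H →
      FiniteDimensional ℂ (E.sub ((dgA A).reg.J ^ m) (E.cond_pow hc m)
        (s_mem_dg A E hs hc m)).H := by
    rintro _ rfl _ _ h; exact h
  exact key D.J hD _ _

/-- **Noether's formula** from: an equivariant index on `M × M`, `χ(M × M, swap) = χ`, the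
supertraces of the graded pieces of the filtration by powers of the diagonal ideal. -/
theorem noether_dg [Module.Flat (smf (A.prod A)) Om] (E : Dol ℂ (smf (A.prod A)) Om)
    (Ix : SInd E) (hs : ∀ a, E.s a = (dgS A).τ a) (hc : E.Cond (dgA A).reg.J)
    (chi K2 e : ℤ) (G : ℕ → ℤ) (hX0 : E.sc.st = (chi : ℂ))
    (hX : ∀ m, (dcx A E hs hc m).st - (dcx A E hs hc (m + 1)).st = (((-1) ^ m * G m : ℤ) : ℂ))
    (hG : ∀ m, G m = (m + 1) * chi + K2 * ((m + 1).choose 3 : ℕ) - e * ((m + 2).choose 3 : ℕ)) :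
    12 * chi = K2 + e := by
  obtain ⟨q, D, hq, hD⟩ := exists_kosData A E hs hc
  let _ := algQ (A.prod A)
  refine noether_abs D Ix (isUnit_two_smf _) hq chi K2 e G hX0 (fun m => ?_) hG
  rw [← hX m]
  have key : ∀ (m : ℕ) (J : Ideal (smf (A.prod A))) (e : J = (dgA A).reg.J)
      (hc' : E.Cond (J ^ m)) (hs' : ∀ a ∈ J ^ m, E.s a ∈ J ^ m),
      (E.sub (J ^ m) hc' hs').st = (dcx A E hs hc m).st := by
    rintro m _ rfl _ _; rfl
  exact congrArg₂ (· - ·) (key m D.J hD _ _) (key (m + 1) D.J hD _ _)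

end diag

end Crest.Agent.R275.NA8759
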