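import Crest.Agent.R275.NA4h_783
import Crest.Agent.R275.NA4h_476
import Crest.Agent.R275.NA8c_759
import Crest.Agent.R275.NA13c_425

/-!
# R275, PART I', NA4, part U (helper476): the graded pieces of the filtration by the diagonal

783's restriction `rho A m : Fm (BB A) m → Sec (CC A m)` (surjective, `∂̄`-compatible, acyclic
kernel modulo `Fm (BB A) (m+1)`) gives 759's hypothesis
`(dcx m).st - (dcx (m+1)).st = (-1)^m * st (Sec (CC A m))`.
-/

set_option autoImplicit false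
set_option linter.unusedSectionVars false

open Set Filter Topology Complex
open scoped ContDiff Matrix ComplexConjugate

namespace Crest.Agent.R275.NA4U476

open Crest.Agent.R275.Geo Crest.Agent.R275.NA3m425 Crest.Agent.R275.Smf798
  Crest.Agent.R275.SmR425 Crest.Agent.R275.Con425 Crest.Agent.R275.Dg199
  Crest.Agent.R275.Prod363 Crest.Agent.R275.DolG763 Crest.Agent.R275.NA13425
  Crest.Agent.R275.Lam2130 Crest.Agent.R275.NA8759 Crest.Agent.R275.NA7763
  Crest.Agent.R275.NA6b763 Crest.Agent.R275.SymBun585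

noncomputable section

section general

variable {X : Type} [TopologicalSpace X] {A : Atl 2 X} {B : FBun (A.prod A)}

/-- multiplication of the homogeneous parts by constants preserves the filtration -/
theorem degW_mem {m : ℕ} {w : Sec B} (hw : w ∈ NA4783.Fm B m) (c : ℕ → ℂ) :
    degW B c w ∈ NA4783.Fm B m := by
  rw [NA4783.mem_Fm_iff] at hw ⊢
  intro i p hp k
  exact (hw i p hp k).mul_left (G := fun _ => c (B.deg k))
    (Eventually.of_forall fun q => smN_const _ q)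

/-- 783's filtration is the filtration by the powers of the ideal of the diagonal -/
theorem Fm_eq [T2Space X] [CompactSpace X] (P : Part (A.prod A)) (m : ℕ) :
    NA4783.Fm B m = (dgA A).reg.J ^ m • (⊤ : Submodule (smf (A.prod A)) (Sec B)) := by
  ext w
  rw [dg_mem_iff A P m w]
  exact NA4783.mem_Fm_iff

end general

section rho

variable {X : Type} [TopologicalSpace X] {A : Atl 2 X} {m : ℕ}

open NA4783 (BB CC Fm rho Rep ResL)

/-- `rho` commutes with the operators `degW` -/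
theorem rho_degW (w : Fm (BB A) m) (c : ℕ → ℂ) :
    rho A m ⟨degW (BB A) c w.1, degW_mem w.2 c⟩ = degW (CC A m) c (rho A m w) := by
  classical
  refine sec_ext fun i x => ?_
  by_cases hx : x ∈ (A.e i).source
  · obtain ⟨g, hg⟩ := NA4783.exists_rep_sec w hx
    let T : X × X → Matrix (BB A).κ (BB A).κ ℂ := fun _ => Matrix.diagonal fun k => c ((BB A).deg k)
    have h := hg.mulVec (T := T) (fun k l => Eventually.of_forall fun q => smN_const _ q)
    have hT : ∀ (q : X × X) (v : (BB A).κ → ℂ) (k : (BB A).κ),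
        (T q *ᵥ v) k = c ((BB A).deg k) * v k := fun q v k => Matrix.mulVec_diagonal _ _ k
    have h2 : Rep (A := A) m ((degW (BB A) c w.1).1 (NA4783.dI i)) i x (fun c' q => T q *ᵥ g c' q) :=
      h.congr (Eventually.of_forall fun q => funext fun k => (hT q _ k).symm)
    refine funext fun k => ?_
    obtain ⟨k, d⟩ := k
    have e1 := NA4783.rho_apply ⟨degW (BB A) c w.1, degW_mem w.2 c⟩ hx h2 k d
    have e2 := NA4783.rho_apply w hx hg k d
    have e3 : (degW (CC A m) c (rho A m w)).1 i x (k, d) = c (dg k) * (rho A m w).1 i x (k, d) :=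
      rfl
    refine e1.trans (Eq.trans ?_ e3.symm)
    rw [e2]
    have h3 : ∀ v : (BB A).κ → ℂ, ResL A v k = ∑ p : Fin 4 × Fin 4, NA4783.Res k p * v p :=
      fun v => rfl
    rw [h3, h3, Finset.mul_sum]
    refine Finset.sum_congr rfl fun p _ => ?_
    have h5 : (T (x, x) *ᵥ g d (x, x)) p = c ((BB A).deg p) * g d (x, x) p :=
      hT (x, x) (g d (x, x)) p
    refine (congrArg (fun z => NA4783.Res k p * z) h5).trans ?_
    by_cases h0 : NA4783.Res k p = 0
    · have h6 : ∀ a b : ℂ, NA4783.Res k p * a = c (dg k) * (NA4783.Res k p * b) := fun a b => by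
        rw [h0, zero_mul, zero_mul, mul_zero]
      exact h6 _ _
    · have h4 : (BB A).deg p = dg k := (NA4783.Res_deg h0).symm
      have h6 : ∀ r b : ℂ, r * (c ((BB A).deg p) * b) = c (dg k) * (r * b) := fun r b => by
        rw [h4]; ring
      exact h6 _ _
  · funext k
    rw [NA4783.rho_coe, NA4783.rhoF_off hx,
      Sec.off (CC A m) (degW (CC A m) c (rho A m w)).2 hx]

/-- the ungraded form of the acyclicity -/
theorem acyc_all
    (hac : ∀ (q : ℕ) (w : Fm (BB A) m), IsDeg (BB A) q w.1.1 → rho A m w = 0 →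
      nabL (BB A) w.1 ∈ Fm (BB A) (m + 1) → ∃ v : Fm (BB A) m, rho A m v = 0 ∧
        w.1 - nabL (BB A) v.1 ∈ Fm (BB A) (m + 1))
    (w : Fm (BB A) m) (h0 : rho A m w = 0) (hn : nabL (BB A) w.1 ∈ Fm (BB A) (m + 1)) :
    ∃ v : Fm (BB A) m, rho A m v = 0 ∧ w.1 - nabL (BB A) v.1 ∈ Fm (BB A) (m + 1) := by
  classical
  let wq : ℕ → Fm (BB A) m := fun q => ⟨prZ (BB A) (q : ℤ) w.1, degW_mem w.2 _⟩
  have h1 : ∀ q : ℕ, ∃ v : Fm (BB A) m, rho A m v = 0 ∧
      (wq q).1 - nabL (BB A) v.1 ∈ Fm (BB A) (m + 1) := by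
    intro q
    refine hac q (wq q) ?_ ?_ ?_
    · intro i x k hk
      by_contra h
      apply hk
      show (if ((BB A).deg k : ℤ) = (q : ℤ) then (1 : ℂ) else 0) * w.1.1 i x k = 0
      rw [if_neg (fun h' => h (by exact_mod_cast h')), zero_mul]
    · have := rho_degW w fun j => if (j : ℤ) = (q : ℤ) then (1 : ℂ) else 0
      refine this.trans ?_
      rw [h0, map_zero]
    · show nabL (BB A) (prZ (BB A) (q : ℤ) w.1) ∈ Fm (BB A) (m + 1)
      rw [nabL_prZ]
      exact degW_mem hn _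
  choose v hv1 hv2 using h1
  refine ⟨∑ q ∈ Finset.range (topd (BB A) + 1), v q, ?_, ?_⟩
  · rw [map_sum]
    exact Finset.sum_eq_zero fun q _ => hv1 q
  · have e1 : w.1 = ∑ q ∈ Finset.range (topd (BB A) + 1), (wq q).1 :=
      (sum_prZ (BB A) (topd (BB A)) le_rfl w.1).symm
    have e2 : ((∑ q ∈ Finset.range (topd (BB A) + 1), v q : Fm (BB A) m) : Sec (BB A)) =
        ∑ q ∈ Finset.range (topd (BB A) + 1), (v q).1 := by
      rw [Submodule.coe_sum]
    rw [e2, map_sum]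
    have e3 : w.1 - ∑ q ∈ Finset.range (topd (BB A) + 1), nabL (BB A) (v q).1 =
        ∑ q ∈ Finset.range (topd (BB A) + 1), ((wq q).1 - nabL (BB A) (v q).1) := by
      rw [Finset.sum_sub_distrib, ← e1]
    rw [e3]
    exact Submodule.sum_mem _ fun q _ => hv2 q

end rho

section glue

variable {X : Type} [TopologicalSpace X] [T2Space X] [CompactSpace X] {A : Atl 2 X} {m : ℕ}

open NA4783 (BB CC Fm rho)

/-- **(I4)** in 759's form -/
theorem graded_piece (P : Part (A.prod A))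
    (hBB : ∀ u : Sec ((lam2 A).prod (lam2 A)), nabL _ (nabL _ u) = 0)
    (hT : ∀ u : Sec (CC A m), nabL (CC A m) (nabL (CC A m) u) = 0)
    (hs : ∀ a, (dolL hBB (swLift (lam2 A))).s a = (dgS A).τ a)
    (hc : (dolL hBB (swLift (lam2 A))).Cond (dgA A).reg.J)
    (hac : ∀ (q : ℕ) (w : Fm (BB A) m), IsDeg (BB A) q w.1.1 → rho A m w = 0 →
      nabL (BB A) w.1 ∈ Fm (BB A) (m + 1) → ∃ v : Fm (BB A) m, rho A m v = 0 ∧
        w.1 - nabL (BB A) v.1 ∈ Fm (BB A) (m + 1))
    (hsur : Function.Surjective (rho A m))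
    (hsw : ∀ (w : Fm (BB A) m) (hw : (swpL (lam2 A) w.1 : Sec (BB A)) ∈ Fm (BB A) m),
      rho A m ⟨swpL (lam2 A) w.1, hw⟩ = ((-1 : ℂ) ^ m) • rho A m w)
    [FiniteDimensional ℂ (dcx A (dolL hBB (swLift (lam2 A))) hs hc m).H]
    [FiniteDimensional ℂ (dcx A (dolL hBB (swLift (lam2 A))) hs hc (m + 1)).H] :
    FiniteDimensional ℂ (dolP hT).sc.H ∧
      (dcx A (dolL hBB (swLift (lam2 A))) hs hc m).st -
        (dcx A (dolL hBB (swLift (lam2 A))) hs hc (m + 1)).st =
          (-1) ^ m * (dolP hT).sc.st := by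
  have hF : ∀ m, Fm (BB A) m =
      (dgA A).reg.J ^ m • (⊤ : Submodule (smf (A.prod A)) (Sec (BB A))) := fun m => Fm_eq P m
  have hmem : ∀ {m : ℕ} {w : Sec (BB A)}, w ∈ Fm (BB A) m ↔
      w ∈ (dgA A).reg.J ^ m • (⊤ : Submodule (smf (A.prod A)) (Sec (BB A))) := by
    intro m w
    rw [hF m]
  have hle : (dgA A).reg.J ^ (m + 1) • (⊤ : Submodule (smf (A.prod A)) (Sec (BB A))) ≤
      (dgA A).reg.J ^ m • (⊤ : Submodule (smf (A.prod A)) (Sec (BB A))) := by
    rw [← hF, ← hF]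
    exact NA4783.Fm_succ_le m
  -- the inclusion
  let i : SC.Hom (dcx A (dolL hBB (swLift (lam2 A))) hs hc (m + 1))
      (dcx A (dolL hBB (swLift (lam2 A))) hs hc m) :=
    { f := (Submodule.inclusion hle).restrictScalars ℂ
      d := fun _ => rfl
      T := fun _ => rfl }
  -- the restriction
  let p : ((dgA A).reg.J ^ m • (⊤ : Submodule (smf (A.prod A)) (Sec ((lam2 A).prod (lam2 A)))) :
      Submodule (smf (A.prod A)) (Sec ((lam2 A).prod (lam2 A)))) →ₗ[ℂ] Sec (CC A m) :=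
    { toFun := fun w => rho A m ⟨w.1, hmem.2 w.2⟩
      map_add' := fun w w' => (rho A m).map_add ⟨w.1, hmem.2 w.2⟩ ⟨w'.1, hmem.2 w'.2⟩
      map_smul' := fun c w => (rho A m).map_smul c ⟨w.1, hmem.2 w.2⟩ }
  refine NA4h476.step_sign (dolP hT).sc i p ((-1) ^ m) (fun x => ?_) (fun x => ?_) ?_ ?_
    (fun y => ?_) ?_
  · exact (NA4783.rho_nab (⟨x.1, hmem.2 x.2⟩ : Fm (BB A) m)).symm
  · have hsx : (swpL (lam2 A) x.1 : Sec (BB A)) ∈ Fm (BB A) m := by
      have h1 := ((dolL hBB (swLift (lam2 A))).T_mem (J := (dgA A).reg.J ^ m)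
        (s_mem_dg A _ hs hc m) x.2)
      have h2 := degW_mem (hmem.2 h1) fun j => (-1) ^ j
      have h3 : degW (BB A) (fun j => (-1) ^ j) (sg (BB A) (swpL (lam2 A) x.1)) =
          swpL (lam2 A) x.1 := sg_sg (BB A) _
      have h4 : degW (BB A) (fun j => (-1) ^ j) (sg (BB A) (swpL (lam2 A) x.1)) ∈
        Fm (BB A) m := h2
      rwa [h3] at h4
    have e1 := rho_degW (⟨swpL (lam2 A) x.1, hsx⟩ : Fm (BB A) m) fun j => (-1) ^ j
    rw [hsw ⟨x.1, hmem.2 x.2⟩ hsx] at e1
    exact e1.trans (((degW (CC A m) fun j => (-1) ^ j).restrictScalars ℂ).map_smul _ _)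
  · exact Submodule.inclusion_injective hle
  · intro s
    obtain ⟨w, hw⟩ := hsur s
    exact ⟨⟨w.1, hmem.1 w.2⟩, hw⟩
  · exact NA4783.rho_succ _ (hmem.2 y.2)
  · intro x hx hy
    obtain ⟨y, hy⟩ := hy
    have hn : nabL (BB A) (x.1 : Sec (BB A)) ∈ Fm (BB A) (m + 1) := by
      have h1 : (y : Sec ((lam2 A).prod (lam2 A))) = nabL _ x.1 := congrArg Subtype.val hy
      have h2 := hmem.2 y.2
      rw [h1] at h2
      exact h2
    obtain ⟨v, hv1, hv2⟩ := acyc_all hac ⟨x.1, hmem.2 x.2⟩ hx hn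
    exact ⟨⟨v.1, hmem.1 v.2⟩, ⟨_, hmem.1 hv2⟩, hv1, Subtype.ext rfl⟩

/-- **(I4)** for all orders, the finiteness from the equivariant index -/
theorem graded_all (P : Part (A.prod A))
    (hBB : ∀ u : Sec ((lam2 A).prod (lam2 A)), nabL _ (nabL _ u) = 0)
    (hT : ∀ m, ∀ u : Sec (CC A m), nabL (CC A m) (nabL (CC A m) u) = 0)
    (hs : ∀ a, (dolL hBB (swLift (lam2 A))).s a = (dgS A).τ a)
    (hc : (dolL hBB (swLift (lam2 A))).Cond (dgA A).reg.J)
    (Ix : SInd (dolL hBB (swLift (lam2 A))))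
    (hac : ∀ (m q : ℕ) (w : Fm (BB A) m), IsDeg (BB A) q w.1.1 → rho A m w = 0 →
      nabL (BB A) w.1 ∈ Fm (BB A) (m + 1) → ∃ v : Fm (BB A) m, rho A m v = 0 ∧
        w.1 - nabL (BB A) v.1 ∈ Fm (BB A) (m + 1))
    (hsur : ∀ m, Function.Surjective (rho A m))
    (hsw : ∀ (m : ℕ) (w : Fm (BB A) m) (hw : (swpL (lam2 A) w.1 : Sec (BB A)) ∈ Fm (BB A) m),
      rho A m ⟨swpL (lam2 A) w.1, hw⟩ = ((-1 : ℂ) ^ m) • rho A m w) (m : ℕ) :
    FiniteDimensional ℂ (dolP (hT m)).sc.H ∧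
      (dcx A (dolL hBB (swLift (lam2 A))) hs hc m).st -
        (dcx A (dolL hBB (swLift (lam2 A))) hs hc (m + 1)).st =
          (-1) ^ m * (dolP (hT m)).sc.st := by
  have := flat_sec P ((lam2 A).prod (lam2 A))
  have h1 := finite_dcx A (dolL hBB (swLift (lam2 A))) Ix hs hc m
  have h2 := finite_dcx A (dolL hBB (swLift (lam2 A))) Ix hs hc (m + 1)
  exact graded_piece P hBB (hT m) hs hc (hac m) (hsur m) (hsw m)

end glue

end

end Crest.Agent.R275.NA4U476
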