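import Crest.Agent.R275.NoeAsm_890
import Crest.Agent.R275.MIi_683
import Crest.Agent.R275.NA4U_476
import Crest.Agent.R275.NA4j_412

/-!
# R275, Noether's formula, final form (helper890)

`noether_geo`: 825's field `CMData.noether` for helper683's geometric index `geoI P' _`, for every
compact Hausdorff `M` with a finite good atlas; inputs: acyclicity `Hac` (783), swap `Hsw` (585),
Serre duality.
-/

set_option autoImplicit false
set_option linter.unusedSectionVars false

open Set Filter Topology Complex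
open scoped ContDiff Matrix ComplexConjugate Kronecker

namespace Crest.Agent.R275.NoeFin890

open Geo Smf798 KR798 SB798 NA7763 NA6b763 DolG763 Brix509 MI683 Lam2130 EDR890 EDRConc585
open LnkP5476 LnkP6476 NoeAsm890 Prod363 NA4783 NA8759

noncomputable section

variable {M : Type} [TopologicalSpace M] [T2Space M] [CompactSpace M]

/-- 783's acyclicity, in the form used by 476 -/
def Hac (A : Atl 2 M) : Prop :=
  ∀ (m q : ℕ) (w : Fm (BB A) m), IsDeg (BB A) q w.1.1 → rho A m w = 0 →
    nabL (BB A) w.1 ∈ Fm (BB A) (m + 1) → ∃ v : Fm (BB A) m, rho A m v = 0 ∧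
      w.1 - nabL (BB A) v.1 ∈ Fm (BB A) (m + 1)

/-- 585's swap rule, in the form used by 476 -/
def Hsw (A : Atl 2 M) : Prop :=
  ∀ (m : ℕ) (w : Fm (BB A) m) (hw : (swpL (lam2 A) w.1 : Sec (BB A)) ∈ Fm (BB A) m),
    rho A m ⟨swpL (lam2 A) w.1, hw⟩ = ((-1 : ℂ) ^ m) • rho A m w

variable {A : Atl 2 M}

theorem noether_geo [Fintype A.ι] (hA : GC293.GoodA A) (P P' : Part A) (hac : Hac A)
    (hsw : Hsw A)
    (hK : ChiM825.chiL P (geoI P' (nabL_sq A)) (ChiM825.slb (Core144.KB A)) =
      ChiM825.chiL P (geoI P' (nabL_sq A)) (GC293.SLB.triv A)) :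
    12 * ChiM825.chiL P (geoI P' (nabL_sq A)) (GC293.SLB.triv A) =
      ChiM825.bL P (geoI P' (nabL_sq A)) (ChiM825.slb (Core144.KB A))
        (ChiM825.slb (Core144.KB A)) + nerveChi (fun i => (A.e i).source) Finset.univ := by
  refine noether (gmodP_σ P' (nabL_sq A)) P (isCoh_geo P') hA (P.prod P)
    (sindSw P flat_prod) (fun m _ _ => ?_) hK
  exact (NA4U476.graded_all (P.prod P) flat_prod flat_sym (EE_s (lam2 A) flat_prod)
    (EE_cond (P.prod P) (lam2 A) flat_prod) (sindSw P flat_prod) hac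
    (fun m => NA4j412.rho_surj) hsw m).2

open ChiM825 Core144 Q74 in
/-- the same with 825's fields `euler`, `serre0`, `serre1` -/
theorem noether_geo' [Fintype A.ι] (hA : GC293.GoodA A) (P P' : Part A) (hac : Hac A)
    (hsw : Hsw A)
    (euler : ∀ L : LB A, chiL P (geoI P' (nabL_sq A)) (slb L) = chiE (isLC L))
    (serre0 : ∀ L : LB A, hq 2 L = hq 0 (Core144.KB A * L⁻¹))
    (serre1 : ∀ L : LB A, hq 1 L = hq 1 (Core144.KB A * L⁻¹)) :
    12 * chiL P (geoI P' (nabL_sq A)) (GC293.SLB.triv A) =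
      bL P (geoI P' (nabL_sq A)) (slb (Core144.KB A)) (slb (Core144.KB A)) +
        nerveChi (fun i => (A.e i).source) Finset.univ :=
  noether_geo hA P P' hac hsw (hK_of P euler serre0 serre1)

end

end Crest.Agent.R275.NoeFin890
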