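import Crest.Agent.R275.CMInst_615
import Crest.Agent.R275.NoeFin_890
import Crest.Agent.R275.EulC_130
import Crest.Agent.R275.KXN_865
import Crest.Agent.R275.WD_938
import Crest.Agent.R275.YBaseX_144
import Crest.Agent.R275.YCneg_630
import Crest.Agent.R275.EintY_473

/-!
# R275 (S0418), integration (helper615): `Ix` for the geometric index, `XBase` from `XGeo`

* `gix_euler`  : index = Euler characteristic for helper106's `gix P`, `(gix P).I = geoI P _`;
* `NoeH A`     : the two open inputs of Noether's formula (783's acyclicity, 585's swap rule);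
* `ix_geo`     : `Ix P (gix P').I e`, `e` = Euler number of the nerve, for every finite good atlas of a
                 compact surface;
* `xBase_at`   : `XBase G.u (G.N.at' ρ hρ)` from `XGeo`, `CovData`, `PlurigeneraVanish`;
* `cm_at`, `cm_sm`, `cm_big` : `CMData` on `X`;
* `cm_cyc`     : `CMData` on `X_N` for the lifted atlas.
-/

set_option autoImplicit false
set_option linter.unusedSectionVars false

open Set Filter Topology Complex Crest.AlgGeometry.Surface
open scoped Manifold ContDiff

noncomputable section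

namespace Crest.Agent.R275.CM615

open Geo Core144 ChiM825 GC293 Q74 SerG398 Smf798 KR798 Lt893 XN194 ZC352 HS328 Plu825
  NoeFin890 EDR890 XNI106 KAsm106 KXN865 MI683 LnkP5476 NAtl938 Base144 YCneg630 EintY473

/-! ### the geometric index -/

section ix

variable {M : Type} [TopologicalSpace M] [CompactSpace M] [T2Space M] {A : Atl 2 M}

/-- index = Euler characteristic -/
theorem gix_euler (g : GIx A) (P : Part A) (L : LB A) :
    chiL P g.I (slb L) = chiE (isLC L) := EulC130.euler g.hσ g.coh P L

variable (A) in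
/-- the open inputs of Noether's formula -/
structure NoeH : Prop where
  hac : Hac A
  hsw : Hsw A

/-- **the index theoretic inputs of `CMData`** -/
theorem ix_geo [Fintype A.ι] (hA : GoodA A) (P P' : Part A) (h : NoeH A) :
    Ix P (gix P').I (nerveChi (UA A) Finset.univ) where
  euler L := gix_euler (gix P') P L
  noether := noether_geo' hA P P' h.hac h.hsw (fun L => gix_euler (gix P') P L)
    (fun L => (serre_LB P L).2.2) (fun L => (serre_LB P L).2.1)

end ix

/-! ### the geometric base -/

section base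

variable {X : Type} [TopologicalSpace X] [CompactSpace X] [T2Space X] [ChartedSpace C2 X]
  [IsManifold 𝓘(ℂ, C2) 1 X]

/-- the lifts of `u` are smooth on the big charts of `G.N` -/
theorem sm_L (G : XGeo X) (i : G.N.ι) : G.N.big.SmAt i (G.L.f i) := by
  have h0 : (G.N.big.e i).target ⊆ (G.N₀.big.e i).target := by
    rw [G.N.big_target i, G.N₀.big_target i]
    exact Metric.ball_subset_ball G.h2
  exact ContDiffOn.mono (G.sm i) h0

variable (G : XGeo X) (H : CovData G.u) (hp : PlurigeneraVanish X)

include H hp in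
/-- **`XBase` from `XGeo`** -/
theorem xBase_at {ρ : ℝ} (hρ : G.N.r ≤ ρ) (hR : ρ ≤ G.N.R) : XBase G.u (G.N.at' ρ hρ) where
  conn := H.conn
  ht := H.smooth
  per Q := H.univ ℝ Q
  fin := G.fin
  hol := HolA.of_max (AdmN.adm G.maxN hρ)
  max := AdmN.adm G.maxN hρ
  good := WD938.goodA_at' G.good hρ hR
  h1 := h1z_nested G.N hρ hR
  plu := hp

include H hp in
theorem xBase_sm : XBase G.u G.N.sm := xBase_at G H hp le_rfl G.N.r_le_R

include H hp in
theorem xBase_big : XBase G.u G.N.big := xBase_at G H hp G.N.r_le_R le_rfl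

include H hp in
/-- **`CMData` on `X`**, for the balls of radius `ρ` -/
theorem cm_at {ρ : ℝ} (hρ : G.N.r ≤ ρ) (hR : ρ ≤ G.N.R) {P : Part (G.N.at' ρ hρ)}
    {I : KIndex (smf (G.N.at' ρ hρ))} {e : ℤ} (HI : Ix P I e) : CMData P I e :=
  cmX (xBase_at G H hp hρ hR) (zdL_lift G.L (sm_L G) hρ) HI

end base

/-! ### the geometric index on the surfaces `X_N` -/

section cyc

variable {X : Type} [TopologicalSpace X] [CompactSpace X] [T2Space X] [ChartedSpace C2 X]
  [IsManifold 𝓘(ℂ, C2) 1 X] {u : C(X, Circ)} {A : Atl 2 X} [Finite A.ι] (N : ℕ) [NeZero N]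

theorem ix_cyc (H : XBase u A) (L : Lifts A (u : X → Circ)) (P P' : Part (AX N L))
    (h : NoeH (AX N L)) : Ix P (gix P').I (eX N L) := by
  have : Fintype (AX N L).ι := Fintype.ofFinite _
  rw [eX_eq]
  exact ix_geo (good_AN N H L) P P' h

/-- the input `HI` of helper865's `xnIn_xBase`, `forms_xBase` -/
theorem ix_xc (H : XBase u A) (L : Lifts A (u : X → Circ)) (P : Part A) (h : NoeH (AX N L)) :
    Ix (PX N P L) (geoI (PX N P L) (nabL_sq _)) (eX N L) :=
  ix_cyc N H L (PX N P L) (PX N P L) h

/-- **`CMData` on `X_N`** for the lifted atlas and the geometric index -/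
theorem cm_cyc (H : XBase u A) {Z : ZD A} (hZ : Z.Lift u) (L : Lifts A (u : X → Circ))
    (P P' : Part (AX N L)) (h : NoeH (AX N L)) : CMData P (gix P').I (eX N L) :=
  cmXC N H hZ L (ix_cyc N H L P P' h)

/-- **`CMData` on `X`** for the geometric index -/
theorem cm_geo [Fintype A.ι] (H : XBase u A) {Z : ZD A} (hZ : Z.Lift u) (P P' : Part A)
    (h : NoeH A) : CMData P (gix P').I (nerveChi (UA A) Finset.univ) :=
  cmX H hZ (ix_geo H.good P P' h)

end cyc

/-! ### at the level of `XGeo` -/

section xgeo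

variable {X : Type} [TopologicalSpace X] [CompactSpace X] [T2Space X] [ChartedSpace C2 X]
  [IsManifold 𝓘(ℂ, C2) 1 X] (G : XGeo X) (H : CovData G.u) (hp : PlurigeneraVanish X)

include H hp

/-- **`CMData` on `X`** for the balls of radius `ρ` and the geometric index -/
theorem cmG_at {ρ : ℝ} (hρ : G.N.r ≤ ρ) (hR : ρ ≤ G.N.R) [Fintype (G.N.at' ρ hρ).ι]
    (P P' : Part (G.N.at' ρ hρ)) (h : NoeH (G.N.at' ρ hρ)) :
    CMData P (gix P').I (nerveChi (UA (G.N.at' ρ hρ)) Finset.univ) :=
  cm_at G H hp hρ hR (ix_geo (WD938.goodA_at' G.good hρ hR) P P' h)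

/-- **`CMData` on `X`**, small balls -/
theorem cmG_sm [Fintype G.N.sm.ι] (P' : Part G.N.sm) (h : NoeH G.N.sm) :
    CMData G.P (gix P').I (nerveChi (UA G.N.sm) Finset.univ) :=
  cmG_at G H hp le_rfl G.N.r_le_R G.P P' h

/-- **`CMData` on `X`**, big balls -/
theorem cmG_big [Fintype G.N.big.ι] (P P' : Part G.N.big) (h : NoeH G.N.big) :
    CMData P (gix P').I (nerveChi (UA G.N.big) Finset.univ) :=
  cmG_at G H hp G.N.r_le_R le_rfl P P' h

/-- **`CMData` on `X_N`** for the covering `xcov N G.u G.L` of the big balls -/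
theorem cmG_cyc [Finite G.N.big.ι] (N : ℕ) [NeZero N] (P P' : Part (AX N G.L))
    (h : NoeH (AX N G.L)) : CMData P (gix P').I (eX N G.L) :=
  cm_cyc N (xBase_big G H hp) (zdL_lift G.L (sm_L G) G.N.r_le_R) G.L P P' h

/-- the input `HI` of helper865's `xnIn_xBase` -/
theorem ixG_cyc [Finite G.N.big.ι] (N : ℕ) [NeZero N] (P : Part G.N.big) (h : NoeH (AX N G.L)) :
    Ix (PX N P G.L) (geoI (PX N P G.L) (nabL_sq _)) (eX N G.L) :=
  ix_xc N (xBase_big G H hp) G.L P h

end xgeo

end Crest.Agent.R275.CM615
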