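import Crest.Agent.R275.Kun4_570
import Crest.Agent.R275.RetG_666
import Crest.Agent.R275.ScaleD_685
import Crest.Agent.R275.SwLift_763
import Crest.Agent.R275.BrixB_509

/-!
R275, PART I', leaf NA0 = XS0 (helper570): the Kunneth theorem, final form.

* `nice_scS`    : the scale `scS P B N` of 666 is equivalent to the chart norms.
* `kunneth_SC`  : `AA.st = A0.st` for the supercomplexes on `Sec (B.prod B)`, `Sec B`.
* `kunneth_dol` : `(dolL hBB (swLift B)).sc.st = (scB B hB).st`.
-/

set_option autoImplicit false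
set_option linter.unusedSectionVars false

open Filter Topology Set Complex
open scoped ContDiff Real Matrix Kronecker

namespace Crest.Agent.R275.Kun570

open Crest.Agent.R275.Tor812 Crest.Agent.R275.TorE812 Crest.Agent.R275.TorS666
open Crest.Agent.R275.Geo Crest.Agent.R275.Prod363 Crest.Agent.R275.C1c193
open Crest.Agent.R275.Fred685 Crest.Agent.R275.RetC666 Crest.Agent.R275.NA7763
open Crest.Agent.R275.DolG763

noncomputable section

variable {n : ℕ} {M : Type} [TopologicalSpace M] {A : Atl n M}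

/-! ### the scale of 666 -/

section scale

theorem cut_smul {κ : Type} [Fintype κ] [DecidableEq κ] {i : A.ι} {a : M → ℂ} (ha : Cut A i a) :
    IsAmp A i (fun x => a x • (1 : Matrix κ κ ℂ)) :=
  amp_of_fun ha.sm ha.cpt ha.sub (m := fun _ => (1 : Matrix κ κ ℂ)) fun _ _ => smAt_const _

theorem loc_eq_La {B : FBun A} {i : A.ι} {a : M → ℂ} (ha : Cut A i a) (k : B.κ) (u : Sec B) :
    loc A i (fun x => a x • (1 : Matrix B.κ B.κ ℂ)) (u.1 i) k = La B ha k u := by
  rw [C1c193.loc_eq (cut_smul ha) (u.2.1 i)]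
  refine pf_congr _ _ (smAt_mul ha.sm (sec_sm u i k)) (ha.cptIn.mul_right _) fun x _ => ?_
  rw [Matrix.smul_mulVec, Matrix.one_mulVec]
  rfl

theorem cut_psi (P : Part A) (i : A.ι) : Cut A i (fun x => (P.ψ i x : ℂ)) := by
  have hs : tsupport (fun x => (P.ψ i x : ℂ)) ⊆ tsupport (P.ψ i) := by
    refine closure_mono fun y hy hy' => hy ?_
    show (P.ψ i y : ℂ) = 0
    rw [hy', Complex.ofReal_zero]
  refine ⟨?_, (P.ψ_cpt i).of_isClosed_subset (isClosed_tsupport _) hs,
    hs.trans ((P.ψ_sub i).trans (P.χ_sub i))⟩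
  exact Complex.ofRealCLM.contDiff.comp_contDiffOn (P.ψ_sm i i)

variable [Finite A.ι] (P : Part A) (B : FBun A) (N : ℕ)

theorem nice_scS : Nice (scS P B N) := by
  classical
  constructor
  · intro s
    have := Fintype.ofFinite A.ι
    refine ⟨Finset.univ, fun i x => (P.ψ i x : ℂ), fun i => cut_psi P i, s + N, 1, zero_le_one,
      fun w => ?_⟩
    rw [one_mul]
    refine (nrmS_le_sum P B N s w).trans (Finset.sum_le_sum fun i _ =>
      Finset.sum_le_sum fun k _ => ?_)
    have h1 : loc A i (P.psi B.κ i) (w.1 i) k = La B (cut_psi P i) k w :=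
      loc_eq_La (cut_psi P i) k w
    rw [h1]
    exact nrm_mono (by omega) _
  · intro i a ha κ s
    obtain ⟨C, hC0, hC⟩ := nrm_loc_any P B (cut_smul (κ := B.κ) ha) N 0 (fun _ => 0)
      (fun _ _ _ _ => Nat.zero_le _) s
    refine ⟨s, C, hC0, fun w => ?_⟩
    have h := hC w κ
    rw [loc_eq_La ha κ w] at h
    exact h

theorem op0_gam (hN : ∀ k, B.deg k ≤ N) : Op0 (scS P B N) (scS P B N) (gam B) := by
  have h1 : gam B = ∑ q ∈ Finset.range (topDeg B + 1), ((-1 : ℂ) ^ q) • pqL B q := by
    refine LinearMap.ext fun u => ?_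
    have h2 : ∀ q, gam B (pqL B q u) = ((-1 : ℂ) ^ q) • pqL B q u := by
      intro q
      refine Subtype.ext (funext fun i => funext fun x => funext fun k => ?_)
      show (-1 : ℂ) ^ B.deg k * pq B q u.1 i x k = (-1 : ℂ) ^ q * pq B q u.1 i x k
      rw [pq_apply]
      split_ifs with h
      · rw [h]
      · rw [mul_zero, mul_zero]
    have h3 := congrArg (gam B) (pqL_sum (B := B) le_rfl u)
    rw [map_sum] at h3
    rw [← h3]
    simp only [h2, LinearMap.sum_apply, LinearMap.smul_apply]
  rw [h1]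
  exact op0_sum _ fun q _ => (op0_pqL P B hN q).smul _

end scale

/-! ### final forms -/

section final

variable [T2Space M] [Finite A.ι]

/-- **Kunneth, supercomplex form** -/
theorem kunneth_SC (P : Part A) (B : FBun A) (A0 : SC ℂ (Sec B)) (h0d : A0.d = nabL B) (h0T : A0.T = gam B)
    (AA : SC ℂ (Sec (B.prod B))) (hd : AA.d = nabL (B.prod B))
    (hT : AA.T = gam (B.prod B) ∘ₗ swpL B) :
    FiniteDimensional ℂ AA.H ∧ AA.st = A0.st :=
  kunneth_geo (nice_scS P B (topDeg B)) (op0_nabL P B fun k => deg_le_topDeg k)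
    (op0_gam P B (topDeg B) fun k => deg_le_topDeg k) (op0_KML P B (topDeg B))
    (neg_htpy P B fun k => deg_le_topDeg k) A0 h0d h0T AA hd hT

end final

section dol

variable {A : Atl 2 M} [T2Space M] [Finite A.ι]

/-- **Kunneth, final form (XS0)** -/
theorem kunneth_dol (P : Part A) (B : FBun A) (hB : ∀ u : Sec B, nabL B (nabL B u) = 0)
    (hBB : ∀ u : Sec (B.prod B), nabL (B.prod B) (nabL (B.prod B) u) = 0) :
    FiniteDimensional ℂ (dolL hBB (swLift B)).sc.H ∧
      (dolL hBB (swLift B)).sc.st = (Brix509.scB B hB).st :=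
  kunneth_SC P B (Brix509.scB B hB) rfl rfl (dolL hBB (swLift B)).sc rfl rfl

end dol

end

end Crest.Agent.R275.Kun570
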