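/-
R275 / block LINK (helper894), part D3f: analysis near a point: metric weights, the division
property, the interface `PtRes` of the resolution of a point.
-/
import Crest.Agent.R275.LnkE_894
import Crest.Agent.R275.Dg4_199

set_option autoImplicit false
set_option linter.unusedSectionVars false

open Set Filter Topology Complex
open scoped ContDiff Matrix ComplexConjugate Kronecker
open Crest.Agent.R275.Geo Crest.Agent.R275.Smf798 Crest.Agent.R275.KR798
open Crest.Agent.R275.LnkA894 Crest.Agent.R275.SB798 Crest.Agent.R275.Dg199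
open Crest.Agent.R275.LnkE894

namespace Crest.Agent.R275.LnkF894

noncomputable section

/-! ### classes of identity matrices -/

section cone

variable {R : Type*} [CommRing R] (I : KIndex R)

theorem c_one_fin (k : ℕ) : I.c (1 : Matrix (Fin k) (Fin k) R) one_idem = (k : I.Rg) := by
  have h := c_bd I k (fun _ => Fin 1) (fun _ => (1 : Matrix (Fin 1) (Fin 1) R)) (fun _ => one_idem)
  rw [Finset.sum_congr rfl (fun j _ => I.c_one (n := Fin 1)), Finset.sum_const, Finset.card_univ,
    Fintype.card_fin, nsmul_eq_mul, mul_one] at h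
  rw [← h]
  apply I.c_congr
  have e : (Σ _ : Fin k, Fin 1) ≃ Fin k := Equiv.sigmaUnique (Fin k) (fun _ => Fin 1)
  have h2 : Matrix.reindex e e (Matrix.blockDiagonal' fun _ : Fin k =>
      (1 : Matrix (Fin 1) (Fin 1) R)) = 1 := by
    have h3 : (Matrix.blockDiagonal' fun _ : Fin k => (1 : Matrix (Fin 1) (Fin 1) R)) = 1 :=
      Matrix.blockDiagonal'_one
    rw [h3]
    simp
  rw [← h2]
  exact (isoM_reindex e (idem_bd fun _ => one_idem)).symm

end cone

variable {M : Type} [TopologicalSpace M]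

/-! ### metric weights -/

section weight

variable {n : ℕ} {A : Atl n M} (P : Part A) [CompactSpace M] (E : SB A) [Unique E.ρ]

/-- the metric weight of the frame `c` -/
def wt (c : A.ι) (x : M) : ℝ :=
  ∑ m : Ix P, P.ψ m.1 x ^ 2 * ‖E.g m.1 c x default default‖ ^ 2

theorem hdual_eq {s : A.ι → M → E.ρ → ℂ} (hs : SB798.IsSec E s) {c : A.ι} {x : M}
    (hx : x ∈ (A.e c).source) :
    hdual P E s c x default = (wt P E c x : ℂ) * conj (s c x default) := by
  unfold hdual wt
  rw [Fintype.sum_prod_type]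
  push_cast
  rw [Finset.sum_mul]
  refine Finset.sum_congr rfl fun m _ => ?_
  rw [Fintype.sum_unique]
  by_cases hm : x ∈ (A.e m.1).source
  · have h1 : s m.1 x default = E.g m.1 c x default default * s c x default := by
      have h2 := congrFun (hs.tr m.1 c x ⟨hm, hx⟩) default
      rw [h2, Matrix.mulVec, dotProduct, Fintype.sum_unique]
    have h3 : conj (E.g m.1 c x default default) * E.g m.1 c x default default =
        ((‖E.g m.1 c x default default‖ : ℝ) : ℂ) ^ 2 := by
      rw [mul_comm, Complex.mul_conj, Complex.normSq_eq_norm_sq]; push_cast; ring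
    rw [h1, map_mul]
    linear_combination ((P.ψ m.1 x : ℂ) ^ 2 * conj (s c x default)) * h3
  · rw [psi_zero P hm]; simp

theorem wt_pos {c : A.ι} {x : M} (hx : x ∈ (A.e c).source) : 0 < wt P E c x := by
  obtain ⟨m, hm, hxm⟩ := exists_psi_ne P x
  refine Finset.sum_pos' (fun m _ => by positivity) ⟨m, Finset.mem_univ _, ?_⟩
  have h1 : E.g m.1 c x default default ≠ 0 := by
    intro h
    have h2 := congrFun (congrFun (E.g_inv ⟨hxm, hx⟩) default) default
    rw [Matrix.mul_apply, Fintype.sum_unique, Matrix.one_apply_eq, h, zero_mul] at h2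
    exact zero_ne_one h2
  have h3 : 0 < ‖E.g m.1 c x default default‖ := norm_pos_iff.2 h1
  positivity

theorem wt_smN {c : A.ι} {q : M} (hq : q ∈ (A.e c).source) :
    SmN A (fun x => (wt P E c x : ℂ)) q := by
  have h : (fun x => (wt P E c x : ℂ)) = fun x => ∑ m : Ix P,
      ((P.ψ m.1 x : ℂ) * (P.ψ m.1 x : ℂ)) * (E.g m.1 c x default default *
        conj (E.g m.1 c x default default)) := by
    funext x
    unfold wt
    push_cast
    refine Finset.sum_congr rfl fun m _ => ?_
    rw [Complex.mul_conj, Complex.normSq_eq_norm_sq]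
    push_cast; ring
  rw [h]
  refine SmN.sum fun m _ => ?_
  have hpsi : SmN A (fun x => (P.ψ m.1 x : ℂ)) q := (sm_iff.1 (P.ψ_sm m.1) q).ofReal
  by_cases hm : q ∈ tsupport (P.ψ m.1)
  · have hm' := tsupport_psi P m.1 hm
    have hg := smN_g E hm' hq default default
    exact (hpsi.mul hpsi).mul (hg.mul hg.conj)
  · refine (smN_const (A := A) (0 : ℂ) q).congr ?_
    filter_upwards [(isClosed_tsupport (P.ψ m.1)).isOpen_compl.mem_nhds hm] with x hx
    rw [image_eq_zero_of_notMem_tsupport hx]; simp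

/-- a positive smooth function equal to the weight near `p` -/
theorem exists_u [T2Space M] {c : A.ι} {p : M} (hp : p ∈ (A.e c).source) :
    ∃ (u v : smf A), u * v = 1 ∧ (∀ x, ∃ r : ℝ, 0 < r ∧ u.1 x = r) ∧
      ∀ᶠ x in 𝓝 p, u.1 x = (wt P E c x : ℂ) := by
  obtain ⟨φ, h1, h2, h3, -, h4, h5⟩ := exists_bump A ((A.e c).open_source.mem_nhds hp)
  have hφ : ∀ q, SmN A (fun x => (φ x : ℂ)) q := fun q => (h1 q).ofReal
  have hsub0 : tsupport (fun x => (φ x : ℂ)) ⊆ tsupport φ := by
    refine closure_mono fun y hy h0 => hy ?_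
    show (φ y : ℂ) = 0
    rw [h0]; rfl
  have hsub : tsupport (fun x => (φ x : ℂ)) ⊆ (A.e c).source := hsub0.trans h3
  let F : M → ℝ := fun x => φ x * wt P E c x + (1 - φ x)
  have hF : ∀ x, 0 < F x := by
    intro x
    by_cases h0 : φ x = 0
    · show 0 < φ x * wt P E c x + (1 - φ x)
      rw [h0]; norm_num
    · have hx : x ∈ (A.e c).source := h3 (subset_tsupport _ h0)
      have hpos : 0 < φ x := lt_of_le_of_ne (h4 x) (Ne.symm h0)
      have := mul_pos hpos (wt_pos P E hx)
      show 0 < φ x * wt P E c x + (1 - φ x)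
      linarith [h5 x]
  have hFs : ∀ q, SmN A (fun x => (F x : ℂ)) q := by
    intro q
    have e : (fun x => (F x : ℂ)) = fun x => (φ x : ℂ) * (wt P E c x : ℂ) + (1 - (φ x : ℂ)) := by
      funext x
      show ((φ x * wt P E c x + (1 - φ x) : ℝ) : ℂ) = _
      push_cast; ring
    rw [e]
    exact (smN_mul_tsupport hφ (fun q hq => wt_smN P E (hsub hq)) q).add
      ((smN_const _ q).sub (hφ q))
  have hne : ∀ x, (F x : ℂ) ≠ 0 := fun x => by exact_mod_cast (hF x).ne'
  refine ⟨mk' _ hFs, mk' (fun x => ((F x : ℂ))⁻¹) (fun q => (hFs q).inv (hne q)), ?_,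
    fun x => ⟨F x, hF x, rfl⟩, ?_⟩
  · exact smf_ext fun x => mul_inv_cancel₀ (hne x)
  · filter_upwards [h2] with x hx
    show ((φ x * wt P E c x + (1 - φ x) : ℝ) : ℂ) = _
    rw [hx]; push_cast; ring

end weight

/-! ### division near a point -/

section div

variable {A : Atl 2 M}

/-- the coordinates -/
def T0 : Cn 2 ≃L[ℂ] ℂ × (ℂ × Cn 0) :=
  LinearEquiv.toContinuousLinearEquiv
    { toFun := fun z => (z 0, (z 1, 0))
      invFun := fun w => WithLp.toLp 2 ![w.1, w.2.1]
      map_add' := fun v w => by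
        refine Prod.ext rfl (Prod.ext rfl ?_)
        exact Subsingleton.elim _ _
      map_smul' := fun c v => by
        refine Prod.ext rfl (Prod.ext rfl ?_)
        exact Subsingleton.elim _ _
      left_inv := fun z => by
        ext i
        fin_cases i <;> rfl
      right_inv := fun w => by
        refine Prod.ext rfl (Prod.ext rfl ?_)
        exact Subsingleton.elim _ _ }

@[simp] theorem T0_fst (z : Cn 2) : (T0 z).1 = z 0 := rfl
@[simp] theorem T0_snd (z : Cn 2) : (T0 z).2.1 = z 1 := rfl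

variable [T2Space M]

/-- a point as an adapted set -/
def adp {c : A.ι} {p : M} (hp : p ∈ (A.e c).source) : Adapted 0 A where
  D := {p}
  closed := isClosed_singleton
  K := Unit
  ix _ := c
  T _ := T0
  c _ := A.e c p
  cover := by
    rintro q rfl
    exact ⟨(), hp⟩
  eq := by
    intro _ q hq
    rw [mem_singleton_iff, T0_fst, T0_snd]
    constructor
    · rintro rfl
      simp
    · rintro ⟨h0, h1⟩
      have h2 : A.e c q = A.e c p := by
        rw [← sub_eq_zero]
        ext i
        fin_cases i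
        · exact h0
        · exact h1
      exact (A.e c).injOn hq hp h2

theorem adp_uu0 {c : A.ι} {p : M} (hp : p ∈ (A.e c).source) (q : M) :
    (adp hp).uu () 0 q = (A.e c q - A.e c p) 0 := rfl

theorem adp_uu1 {c : A.ι} {p : M} (hp : p ∈ (A.e c).source) (q : M) :
    (adp hp).uu () 1 q = (A.e c q - A.e c p) 1 := rfl

variable {c : A.ι} {p : M} {U : Set M} {h : Fin 3 → smf A} {σ : smf A}

/-- functions killed by the first coordinate vanish -/
theorem nd_aux (hp : p ∈ (A.e c).source) (hU : IsOpen U) (hUc : U ⊆ (A.e c).source)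
    {f : M → ℂ} (hf : ∀ q ∈ U, SmN A f q)
    (h0 : ∀ x ∈ U, (A.e c x - A.e c p) 0 * f x = 0) {x : M} (hx : x ∈ U) : f x = 0 := by
  by_contra hne
  have h1 := (hf x hx).continuousAt.eventually_ne hne
  have h2 := (adp hp).dense_aux () (q := x) (hUc hx)
  refine h2 ?_
  filter_upwards [h1, hU.mem_nhds hx] with y hy hyU
  have := h0 y hyU
  simp only [not_not]
  exact (mul_eq_zero.1 this).resolve_right hy

theorem nd_of (hp : p ∈ (A.e c).source) (hU : IsOpen U) (hUc : U ⊆ (A.e c).source)
    (hσ : tsupport σ.1 ⊆ U) (e0 : ∀ x ∈ U, (h 0).1 x = (A.e c x - A.e c p) 0) (f : smf A)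
    (hf : h 0 * f = 0) : σ * f = 0 := by
  refine smf_ext fun x => ?_
  by_cases hx : x ∈ U
  · have h1 : f.1 x = 0 := by
      refine nd_aux hp hU hUc (fun q _ => smN_of_mem f q) (fun y hy => ?_) hx
      rw [← e0 y hy]
      exact congrFun (congrArg Subtype.val hf) y
    show σ.1 x * f.1 x = 0
    rw [h1, mul_zero]
  · show σ.1 x * f.1 x = 0
    rw [image_eq_zero_of_notMem_tsupport fun h => hx (hσ h), zero_mul]

theorem dv_of (hp : p ∈ (A.e c).source) (hU : IsOpen U) (hUc : U ⊆ (A.e c).source)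
    (hσ : tsupport σ.1 ⊆ U) (e0 : ∀ x ∈ U, (h 0).1 x = (A.e c x - A.e c p) 0)
    (e1 : ∀ x ∈ U, (h 1).1 x = (A.e c x - A.e c p) 1) (e2 : ∀ x ∈ U, (h 2).1 x = 0)
    (v : Fin 3 → smf A) (hv : ∑ a, h a * v a = 0) :
    ∃ w : smf A, σ * v 0 = -(h 1 * w) ∧ σ * v 1 = h 0 * w := by
  have hv' : ∀ x ∈ U, (h 0).1 x * (v 0).1 x + (h 1).1 x * (v 1).1 x = 0 := by
    intro x hx
    rw [Fin.sum_univ_three] at hv
    have h3 : (h 0).1 x * (v 0).1 x + (h 1).1 x * (v 1).1 x + (h 2).1 x * (v 2).1 x = 0 :=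
      congrFun (congrArg Subtype.val hv) x
    rw [e2 x hx, zero_mul, add_zero] at h3
    exact h3
  obtain ⟨w, hw1, hw2⟩ := (adp hp).div_aux () U hU hUc (fun x => -(v 1).1 x) (v 0).1
    (fun q _ => (smN_of_mem (v 1) q).neg) (fun q _ => smN_of_mem (v 0) q) (fun x hx => by
      rw [adp_uu0, adp_uu1, ← e0 x hx, ← e1 x hx]
      linear_combination hv' x hx)
  have hσ0 : ∀ x ∉ U, σ.1 x = 0 := fun x hx => image_eq_zero_of_notMem_tsupport fun h => hx (hσ h)
  have hsm : ∀ q, SmN A (fun x => σ.1 x * w x) q :=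
    smN_mul_tsupport (fun q => smN_of_mem σ q) fun q hq => hw1 q (hσ hq)
  refine ⟨mk' (fun x => -(σ.1 x * w x)) (fun q => (hsm q).neg), smf_ext fun x => ?_,
    smf_ext fun x => ?_⟩
  · show σ.1 x * (v 0).1 x = -((h 1).1 x * -(σ.1 x * w x))
    by_cases hx : x ∈ U
    · have h4 : ∀ y ∈ U, (A.e c y - A.e c p) 0 * ((v 0).1 y - (h 1).1 y * w y) = 0 := by
        intro y hy
        have h5 := hw2 y hy
        rw [adp_uu0] at h5
        have h6 := hv' y hy
        rw [e0 y hy] at h6
        linear_combination h6 + (h 1).1 y * h5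
      have h7 : (v 0).1 x - (h 1).1 x * w x = 0 :=
        nd_aux hp hU hUc (f := fun y => (v 0).1 y - (h 1).1 y * w y)
          (fun q hq => (smN_of_mem (v 0) q).sub ((smN_of_mem (h 1) q).mul (hw1 q hq))) h4 hx
      linear_combination σ.1 x * h7
    · rw [hσ0 x hx]; ring
  · show σ.1 x * (v 1).1 x = (h 0).1 x * -(σ.1 x * w x)
    by_cases hx : x ∈ U
    · have h5 := hw2 x hx
      rw [adp_uu0, ← e0 x hx] at h5
      linear_combination (-σ.1 x) * h5
    · rw [hσ0 x hx]; ring

end div

/-- Resolution of the ideal of a point with its index (block LINK, leaf D4). -/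
structure PtRes (A : Atl 2 M) (I : KIndex (smf A)) (p : M) (c : A.ι) where
  h : Fin 3 → smf A
  n : Type
  [fn : Fintype n]
  [dn : DecidableEq n]
  q : Matrix n n (smf A)
  io : Matrix (Fin 3) n (smf A)
  res : NA3m425.Res h q io
  h0 : ∀ᶠ x in 𝓝 p, (h 0).1 x = (A.e c x - A.e c p) 0
  h1 : ∀ᶠ x in 𝓝 p, (h 1).1 x = (A.e c x - A.e c p) 1
  h2 : ∀ᶠ x in 𝓝 p, (h 2).1 x = 0
  nz : ∀ x, x ≠ p → ∃ i, (h i).1 x ≠ 0
  ind : I.data.indR (I.c q res.idem) = 2 * I.data.indR 1 + 1

attribute [instance] PtRes.fn PtRes.dn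

end

end Crest.Agent.R275.LnkF894
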