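/-
R275 / block LINK (helper894), part D3g: the index form of two line bundles counts the zeros of a
standard pair of sections.
-/
import Crest.Agent.R275.LnkF_894
import Crest.Agent.R275.StdSec_880

set_option autoImplicit false
set_option linter.unusedSectionVars false

open Set Filter Topology Complex
open scoped ContDiff Matrix ComplexConjugate Kronecker
open Crest.Agent.R275.Geo Crest.Agent.R275.Smf798 Crest.Agent.R275.KR798
open Crest.Agent.R275.LnkA894 Crest.Agent.R275.SB798 Crest.Agent.R275.Dg199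
open Crest.Agent.R275.LnkE894 Crest.Agent.R275.LnkF894
open Crest.Agent.R275.LnkB894 Crest.Agent.R275.LnkC894 Crest.Agent.R275.LnkD894
open Crest.Agent.R275.StdSec880 (StdPair)

namespace Crest.Agent.R275.LnkG894

noncomputable section

variable {M : Type} [TopologicalSpace M] {A : Atl 2 M}

/-- the scalar cocycle of a line bundle -/
def gsc (E : SB A) [Unique E.ρ] : A.ι → A.ι → M → ℂ := fun i j x => E.g i j x default default

theorem isSec_of {E : SB A} [Unique E.ρ] {s : A.ι → M → ℂ}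
    (hs : StdSec880.IsSec A (gsc E) s) : SB798.IsSec E (fun i x _ => s i x) where
  sm i _ := hs.sm i
  tr i j x hx := by
    funext k
    rw [Matrix.mulVec, dotProduct, Fintype.sum_unique, Subsingleton.elim k default]
    exact hs.tr i j x hx

variable [T2Space M] [CompactSpace M] (P : Part A) (I : KIndex (smf A))

theorem nsq_loc {E : SB A} [Unique E.ρ] {s : A.ι → M → E.ρ → ℂ} (hs : SB798.IsSec E s) {c : A.ι}
    {x : M} (hx : x ∈ (A.e c).source) :
    (nsq P E s x : ℂ) = (wt P E c x : ℂ) * conj (s c x default) * s c x default := by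
  rw [← hdual_dot hs hx, dotProduct, Fintype.sum_unique, hdual_eq P E hs hx]

/-- the local model at a zero -/
theorem local_model (hpt : ∀ p c, p ∈ (A.e c).source → Nonempty (PtRes A I p c)) (E E' : SB A)
    [Unique E.ρ] [Unique E'.ρ] (S : StdPair A (gsc E) (gsc E')) {p : M} (hp : p ∈ S.Z)
    {W : Set M} (hW : W ∈ 𝓝 p) :
    ∃ (σ τ : smf A) (T' : Tri (smf A))
      (Y : Ident (addR (addT ((triL (P := P) (isSec_of S.sec)).mul (triL (P := P)
        (isSec_of S.sec'))))) T' τ), Supp Y σ ∧ (∀ x ∉ W, σ.1 x = 0) ∧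
      (∀ x, ∃ r : ℝ, 0 ≤ r ∧ r ≤ 1 ∧ τ.1 x = r) ∧ τ.1 p = 1 ∧
      (∀ x, ∃ r : ℝ, 0 ≤ r ∧ T'.g.1 x = r ∧ (x ≠ p → 0 < r)) ∧
      I.data.indR (T'.kap I) = if S.sg p then 1 else -1 := by
  have hc := S.mem p hp
  obtain ⟨R⟩ := hpt p (S.c p) hc
  obtain ⟨u, v, huv, hur, hue⟩ := exists_u P E hc
  obtain ⟨u', v', -, hur', hue'⟩ := exists_u P E' hc
  set hs3 : Fin 3 → smf A := ![u * cj (R.h 0), u' * cj (R.h 1), cj (R.h 2)] with hhs3
  obtain ⟨jo, D⟩ := exists_dual R.res hs3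
  -- a good neighbourhood
  have hev : ∀ᶠ x in 𝓝 p,
      S.s (S.c p) x = (if S.sg p then (R.h 0).1 x else conj ((R.h 0).1 x)) ∧
      S.s' (S.c p) x = (R.h 1).1 x ∧ (R.h 0).1 x = (A.e (S.c p) x - A.e (S.c p) p) 0 ∧
      (R.h 1).1 x = (A.e (S.c p) x - A.e (S.c p) p) 1 ∧ (R.h 2).1 x = 0 ∧
      u.1 x = (wt P E (S.c p) x : ℂ) ∧ u'.1 x = (wt P E' (S.c p) x : ℂ) ∧
      x ∈ (A.e (S.c p)).source ∧ x ∈ W := by
    filter_upwards [S.std p hp, R.h0, R.h1, R.h2, hue, hue',
      (A.e (S.c p)).open_source.mem_nhds hc, hW] with x a1 a2 a3 a4 a5 a6 a7 a8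
    refine ⟨?_, ?_, a2, a3, a4, a5, a6, a7, a8⟩
    · rw [a1.1, a2]
    · rw [a1.2, a3]
  obtain ⟨U, hU, hUo, hpU⟩ := eventually_nhds_iff.1 hev
  obtain ⟨φ, b1, b2, b3, -, b4, b5⟩ := exists_bump A (hUo.mem_nhds hpU)
  have hφ : ∀ q, SmN A (fun x => (φ x : ℂ)) q := fun q => (b1 q).ofReal
  set σ : smf A := mk' (fun x => (φ x : ℂ)) hφ with hσdef
  have hσv : ∀ x, σ.1 x = (φ x : ℂ) := fun x => rfl
  have hsub0 : tsupport σ.1 ⊆ tsupport φ := by
    refine closure_mono fun y hy h0 => hy ?_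
    rw [hσv, h0]; rfl
  have hσU : tsupport σ.1 ⊆ U := hsub0.trans b3
  have hUc : U ⊆ (A.e (S.c p)).source := fun x hx => (hU x hx).2.2.2.2.2.2.2.1
  have hσc : tsupport σ.1 ⊆ (A.e (S.c p)).source := hσU.trans hUc
  have hσ0 : ∀ x, x ∉ U → σ.1 x = 0 := fun x hx =>
    image_eq_zero_of_notMem_tsupport fun h => hx (hσU h)
  -- the two line triples
  have k0 : ∀ x, (hs3 0).1 x = u.1 x * conj ((R.h 0).1 x) := fun x => rfl
  have k1 : ∀ x, (hs3 1).1 x = u'.1 x * conj ((R.h 1).1 x) := fun x => rfl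
  have k2 : ∀ x, (hs3 2).1 x = conj ((R.h 2).1 x) := fun x => rfl
  obtain ⟨X2⟩ := triL_I P (isSec_of S.sec') hσc (R.h 1) (hs3 1)
    (fun y => by
      by_cases hy : y ∈ U
      · rw [(hU y hy).2.1]
      · rw [hσ0 y hy, zero_mul, zero_mul])
    (fun y => by
      by_cases hy : y ∈ U
      · rw [k1, hdual_eq P E' (isSec_of S.sec') (hUc hy), (hU y hy).2.2.2.2.2.2.1,
          (hU y hy).2.1]
      · rw [hσ0 y hy, zero_mul, zero_mul])
  have h2 : σ * R.h 2 = 0 := smf_ext fun x => by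
    show σ.1 x * (R.h 2).1 x = 0
    by_cases hx : x ∈ U
    · rw [(hU x hx).2.2.2.2.1, mul_zero]
    · rw [hσ0 x hx, zero_mul]
  have hs2 : σ * hs3 2 = 0 := smf_ext fun x => by
    show σ.1 x * (hs3 2).1 x = 0
    by_cases hx : x ∈ U
    · rw [k2, (hU x hx).2.2.2.2.1, map_zero, mul_zero]
    · rw [hσ0 x hx, zero_mul]
  have nd : ∀ f : smf A, R.h 0 * f = 0 → σ * f = 0 :=
    nd_of hc hUo hUc hσU (fun x hx => (hU x hx).2.2.1)
  have dv := dv_of hc hUo hUc hσU (h := R.h) (fun x hx => (hU x hx).2.2.1)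
    (fun x hx => (hU x hx).2.2.2.1) (fun x hx => (hU x hx).2.2.2.2.1)
  set T : Tri (smf A) := (triL (P := P) (isSec_of S.sec)).mul (triL (P := P)
        (isSec_of S.sec')) with hT
  have hgU : ∀ x ∈ U, T.g.1 x = u.1 x * conj ((R.h 0).1 x) * (R.h 0).1 x +
      u'.1 x * conj ((R.h 1).1 x) * (R.h 1).1 x := by
    intro x hx
    have e1 : T.g.1 x = (nsq P E (fun i x _ => S.s i x) x : ℂ) +
      (nsq P E' (fun i x _ => S.s' i x) x : ℂ) := rfl
    rw [e1, nsq_loc P (isSec_of S.sec) (hUc hx), nsq_loc P (isSec_of S.sec') (hUc hx),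
      (hU x hx).1, (hU x hx).2.1, (hU x hx).2.2.2.2.2.1, (hU x hx).2.2.2.2.2.2.1]
    split_ifs
    · rfl
    · rw [Complex.conj_conj]; ring
  -- the index of the point triple
  have hind : I.data.indR ((ptTri D).kap I) = 1 := by
    rw [kap_ptTri, c_one_fin, map_sub, map_add, R.ind]
    have h3 : ((3 : ℕ) : I.Rg) = (3 : ℕ) • (1 : I.Rg) := by rw [nsmul_eq_mul, mul_one]
    rw [h3, map_nsmul]
    simp only [nsmul_eq_mul]
    push_cast
    ring
  have hgp : ∀ x, ∃ r : ℝ, 0 ≤ r ∧ (ptTri D).g.1 x = r ∧ (x ≠ p → 0 < r) := by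
    intro x
    obtain ⟨r1, hr1, q1⟩ := hur x
    obtain ⟨r2, hr2, q2⟩ := hur' x
    have e1 : (ptTri D).g.1 x = (R.h 0).1 x * (hs3 0).1 x + (R.h 1).1 x * (hs3 1).1 x +
        (R.h 2).1 x * (hs3 2).1 x := by
      have e2 : (ptTri D).g = R.h 0 * hs3 0 + R.h 1 * hs3 1 + R.h 2 * hs3 2 := by
        show ∑ a, R.h a * hs3 a = _
        rw [Fin.sum_univ_three]
      rw [e2]; rfl
    have e3 : ∀ w : ℂ, w * conj w = ((‖w‖ ^ 2 : ℝ) : ℂ) := by
      intro w
      rw [Complex.mul_conj, Complex.normSq_eq_norm_sq]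
    refine ⟨r1 * ‖(R.h 0).1 x‖ ^ 2 + r2 * ‖(R.h 1).1 x‖ ^ 2 + ‖(R.h 2).1 x‖ ^ 2, by positivity,
      ?_, fun hx => ?_⟩
    · rw [e1, k0, k1, k2, q1, q2]
      push_cast
      have f0 := e3 ((R.h 0).1 x)
      have f1 := e3 ((R.h 1).1 x)
      have f2 := e3 ((R.h 2).1 x)
      push_cast at f0 f1 f2
      linear_combination (r1 : ℂ) * f0 + (r2 : ℂ) * f1 + f2
    · obtain ⟨i, hi⟩ := R.nz x hx
      have hi' := norm_pos_iff.2 hi
      have n0 : 0 ≤ r1 * ‖(R.h 0).1 x‖ ^ 2 := by positivity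
      have n1 : 0 ≤ r2 * ‖(R.h 1).1 x‖ ^ 2 := by positivity
      have n2 : 0 ≤ ‖(R.h 2).1 x‖ ^ 2 := by positivity
      fin_cases i
      · have : 0 < r1 * ‖(R.h 0).1 x‖ ^ 2 := by
          have h9 : 0 < ‖(R.h 0).1 x‖ := hi'
          positivity
        linarith
      · have : 0 < r2 * ‖(R.h 1).1 x‖ ^ 2 := by
          have h9 : 0 < ‖(R.h 1).1 x‖ := hi'
          positivity
        linarith
      · have : 0 < ‖(R.h 2).1 x‖ ^ 2 := by
          have h9 : 0 < ‖(R.h 2).1 x‖ := hi'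
          positivity
        linarith
  -- the values of the cut-off
  have hτ : ∀ x, (σ * σ * (σ * (1 * (σ * σ))) : smf A).1 x = ((φ x ^ 5 : ℝ) : ℂ) := by
    intro x
    show (φ x : ℂ) * (φ x : ℂ) * ((φ x : ℂ) * (1 * ((φ x : ℂ) * (φ x : ℂ)))) = _
    push_cast; ring
  have hτ1 : ∀ x, ∃ r : ℝ, 0 ≤ r ∧ r ≤ 1 ∧ (σ * σ * (σ * (1 * (σ * σ))) : smf A).1 x = r :=
    fun x => ⟨φ x ^ 5, pow_nonneg (b4 x) 5, pow_le_one₀ (b4 x) (b5 x), hτ x⟩
  have hτp : (σ * σ * (σ * (1 * (σ * σ))) : smf A).1 p = 1 := by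
    rw [hτ p, b2.self_of_nhds]; norm_num
  have hσW : ∀ x ∉ W, σ.1 x = 0 := fun x hx => hσ0 x fun hxU => hx (hU x hxU).2.2.2.2.2.2.2.2
  have hσmul : ∀ {a b : smf A}, (∀ x ∈ U, a.1 x = b.1 x) → σ * (1 * (σ * σ)) * a =
      σ * (1 * (σ * σ)) * b := by
    intro a b hab
    refine smf_ext fun x => ?_
    show σ.1 x * (1 * (σ.1 x * σ.1 x)) * a.1 x = σ.1 x * (1 * (σ.1 x * σ.1 x)) * b.1 x
    by_cases hx : x ∈ U
    · rw [hab x hx]
    · rw [hσ0 x hx]; ring
  by_cases hsg : S.sg p = true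
  · -- positive zero
    obtain ⟨X1⟩ := triL_I P (isSec_of S.sec) hσc (R.h 0) (hs3 0)
      (fun y => by
        by_cases hy : y ∈ U
        · have := (hU y hy).1
          rw [if_pos hsg] at this
          rw [this]
        · rw [hσ0 y hy, zero_mul, zero_mul])
      (fun y => by
        by_cases hy : y ∈ U
        · have := (hU y hy).1
          rw [if_pos hsg] at this
          rw [k0, hdual_eq P E (isSec_of S.sec) (hUc hy), (hU y hy).2.2.2.2.2.1, this]
        · rw [hσ0 y hy, zero_mul, zero_mul])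
    let X : Ident T (Kz (R.h 0) (R.h 1) (hs3 0) (hs3 1)) (σ * (1 * (σ * σ))) :=
      scaleI (comp (mulI X1 X2) (mulL1 _ _ _ _)) σ
    obtain ⟨Y, hY⟩ := chain_pos D X (supp_scaleI _ σ) (hσmul fun x hx => by
      rw [hgU x hx]; rfl) h2 hs2 nd dv
    refine ⟨σ, _, addR (ptTri D), Y, hY, hσW, hτ1, hτp, hgp, ?_⟩
    rw [kap_addR, hind, if_pos hsg]
  · -- negative zero
    have hX1 : Nonempty (Ident (triL (P := P) (isSec_of S.sec)) (L1 (hs3 0) (R.h 0)) σ) := by
      obtain ⟨X0⟩ := triL_I P (isSec_of S.sec) hσc (cj (R.h 0)) (u * R.h 0)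
        (fun y => by
          by_cases hy : y ∈ U
          · have := (hU y hy).1
            rw [if_neg hsg] at this
            rw [this]; rfl
          · rw [hσ0 y hy, zero_mul, zero_mul])
        (fun y => by
          by_cases hy : y ∈ U
          · have h7 := (hU y hy).1
            rw [if_neg hsg] at h7
            rw [hdual_eq P E (isSec_of S.sec) (hUc hy), ← (hU y hy).2.2.2.2.2.1, h7,
              Complex.conj_conj]
            rfl
          · rw [hσ0 y hy, zero_mul, zero_mul])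
      have e1 : v * (u * R.h 0) = R.h 0 := by
        rw [← mul_assoc, mul_comm v u, huv, one_mul]
      have X00 : Ident (triL (P := P) (isSec_of S.sec)) (L1 (u * cj (R.h 0)) (v * (u * R.h 0)))
        (1 * σ) := comp X0 (frameI _ _ u v huv)
      rw [e1, one_mul] at X00
      exact ⟨X00⟩
    obtain ⟨X1⟩ := hX1
    let X : Ident T (Kz (hs3 0) (R.h 1) (R.h 0) (hs3 1)) (σ * (1 * (σ * σ))) :=
      scaleI (comp (mulI X1 X2) (mulL1 _ _ _ _)) σ
    obtain ⟨Y, hY⟩ := chain_neg D X (supp_scaleI _ σ) (hσmul fun x hx => by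
      rw [hgU x hx]
      show _ = (R.h 0).1 x * (hs3 0).1 x + (hs3 1).1 x * (R.h 1).1 x
      rw [k0, k1]; ring) h2 hs2 nd dv
    refine ⟨σ, _, addT (rev (ptTri D)), Y, hY, hσW, hτ1, hτp, hgp, ?_⟩
    rw [kap_addT, kap_rev, map_neg, hind, if_neg hsg]

/-- **THEOREM D3**: the index form of two line bundles is the signed number of zeros of a standard
pair of sections. -/
theorem linkIdx (hpt : ∀ p c, p ∈ (A.e c).source → Nonempty (PtRes A I p c)) (E E' : SB A)
    [Unique E.ρ] [Unique E'.ρ] (S : StdPair A (gsc E) (gsc E')) :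
    I.data.indR ((1 - cE P I E) * (1 - cE P I E')) = ∑ p ∈ S.Z, if S.sg p then 1 else -1 := by
  classical
  obtain ⟨W, hW1, hW2⟩ := S.Z.finite_toSet.t2_separation
  set k := S.Z.card with hk
  let z : Fin k → M := fun j => (S.Z.equivFin.symm j : M)
  have hz : ∀ j, z j ∈ S.Z := fun j => (S.Z.equivFin.symm j).2
  have hzi : ∀ i j, i ≠ j → z i ≠ z j := fun i j hij h =>
    hij (S.Z.equivFin.symm.injective (Subtype.ext h))
  have key := fun j => local_model P I hpt E E' S (hz j) ((hW1 (z j)).2.mem_nhds (hW1 (z j)).1)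
  set T : Tri (smf A) := (triL (P := P) (isSec_of S.sec)).mul (triL (P := P)
        (isSec_of S.sec')) with hT
  choose σ τ T' Y hY hσ hτ hτ1 hg hind using key
  have hdis : ∀ i j, i ≠ j → σ i * σ j = 0 := by
    intro i j hij
    refine smf_ext fun x => ?_
    show (σ i).1 x * (σ j).1 x = 0
    by_cases h1 : x ∈ W (z i)
    · have h2 : x ∉ W (z j) := fun h2 =>
        Set.disjoint_left.1 (hW2 (hz i) (hz j) (hzi i j hij)) h1 h2
      rw [hσ j x h2, mul_zero]
    · rw [hσ i x h1, zero_mul]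
  -- unit conditions
  have hTg : ∀ x, ∃ r : ℝ, 0 ≤ r ∧ (addR (addT T)).g.1 x = r ∧ (x ∉ S.Z → 0 < r) := by
    intro x
    refine ⟨nsq P E (fun i x _ => S.s i x) x + nsq P E' (fun i x _ => S.s' i x) x,
      add_nonneg (nsq_nonneg _ _ _) (nsq_nonneg _ _ _), ?_, fun hx => ?_⟩
    · have e1 : T.g.1 x = (nsq P E (fun i x _ => S.s i x) x : ℂ) +
        (nsq P E' (fun i x _ => S.s' i x) x : ℂ) := rfl
      rw [addR_g, addT_g, e1]; push_cast; rfl
    · obtain ⟨i, hi⟩ := A.cover x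
      have h0 := (S.zero_iff i x hi).not.2 hx
      have n1 := nsq_nonneg (P := P) E (fun i x _ => S.s i x) x
      have n2 := nsq_nonneg (P := P) E' (fun i x _ => S.s' i x) x
      by_cases h1 : S.s i x = 0
      · have h2 : S.s' i x ≠ 0 := fun h2 => h0 ⟨h1, h2⟩
        have := nsq_pos (P := P) (isSec_of S.sec') hi (fun h => h2 (congrFun h default))
        linarith
      · have := nsq_pos (P := P) (isSec_of S.sec) hi (fun h => h1 (congrFun h default))
        linarith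
  have hu : IsUnit ((1 - ∑ i, τ i) * (1 - ∑ i, τ i) * (addR (addT T)).g + ∑ i, τ i * τ i) := by
    rw [Smf798.isUnit_iff]
    intro x
    choose r hr1 hr2 hr3 using fun j => hτ j x
    obtain ⟨g, hg0, hg1, hg2⟩ := hTg x
    have e0 : ((1 - ∑ i, τ i) * (1 - ∑ i, τ i) * (addR (addT T)).g + ∑ i, τ i * τ i).1 x =
        (((1 - ∑ i, r i) * (1 - ∑ i, r i) * g + ∑ i, r i * r i : ℝ) : ℂ) := by
      have e1 : ((1 - ∑ i, τ i) * (1 - ∑ i, τ i) * (addR (addT T)).g + ∑ i, τ i * τ i).1 x =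
          ev x ((1 - ∑ i, τ i) * (1 - ∑ i, τ i) * (addR (addT T)).g + ∑ i, τ i * τ i) := rfl
      rw [e1]
      simp only [map_add, map_mul, map_sub, map_one, map_sum, ev_apply, hr3, hg1]
      push_cast; rfl
    rw [e0, Ne, Complex.ofReal_eq_zero]
    have p1 : 0 ≤ (1 - ∑ i, r i) * (1 - ∑ i, r i) * g := mul_nonneg (mul_self_nonneg _) hg0
    have p2 : 0 ≤ ∑ i, r i * r i := Finset.sum_nonneg fun i _ => mul_self_nonneg _
    by_cases hr : ∀ i, r i = 0
    · have hxZ : x ∉ S.Z := by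
        intro hx
        obtain ⟨j, hj⟩ : ∃ j, z j = x := ⟨S.Z.equivFin ⟨x, hx⟩, by
          show ((S.Z.equivFin.symm (S.Z.equivFin ⟨x, hx⟩) : S.Z) : M) = x
          rw [Equiv.symm_apply_apply]⟩
        have h1 := hτ1 j
        rw [hj, hr3 j, hr j] at h1
        norm_num at h1
      have := hg2 hxZ
      simp only [hr, Finset.sum_const_zero, sub_zero, mul_one, one_mul, mul_zero, add_zero]
      exact this.ne'
    · push Not at hr
      obtain ⟨j, hj⟩ := hr
      have : 0 < ∑ i, r i * r i :=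
        Finset.sum_pos' (fun i _ => mul_self_nonneg _) ⟨j, Finset.mem_univ _, mul_self_pos.2 hj⟩
      linarith
  have hv : ∀ j, IsUnit (τ j * τ j + (1 - τ j) * (1 - τ j) * (T' j).g) := by
    intro j
    rw [Smf798.isUnit_iff]
    intro x
    obtain ⟨r, hr1, hr2, hr3⟩ := hτ j x
    obtain ⟨g, hg0, hg1, hg2⟩ := hg j x
    have e0 : (τ j * τ j + (1 - τ j) * (1 - τ j) * (T' j).g).1 x =
        ((r * r + (1 - r) * (1 - r) * g : ℝ) : ℂ) := by
      have e1 : (τ j * τ j + (1 - τ j) * (1 - τ j) * (T' j).g).1 x =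
          ev x (τ j * τ j + (1 - τ j) * (1 - τ j) * (T' j).g) := rfl
      rw [e1]
      simp only [map_add, map_mul, map_sub, map_one, ev_apply, hr3, hg1]
      push_cast; rfl
    rw [e0, Ne, Complex.ofReal_eq_zero]
    have p1 : 0 ≤ (1 - r) * (1 - r) * g := mul_nonneg (mul_self_nonneg _) hg0
    by_cases hr : r = 0
    · have hxp : x ≠ z j := by
        rintro rfl
        have h1 := hτ1 j
        rw [hr3, hr] at h1
        norm_num at h1
      have := hg2 hxp
      rw [hr]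
      simp only [mul_zero, sub_zero, mul_one, one_mul, zero_add]
      exact this.ne'
    · have : 0 < r * r := mul_self_pos.2 hr
      linarith
  have hloc := kap_loc (fam Y hY hdis) I hu hv
  rw [kap_addR, kap_addT, Tri.kap_mul, kap_triL, kap_triL] at hloc
  rw [hloc, map_sum]
  simp only [hind]
  rw [← Finset.sum_coe_sort S.Z (fun p => if S.sg p then (1 : ℤ) else -1)]
  exact S.Z.equivFin.symm.sum_comp (fun p : S.Z => if S.sg p then (1 : ℤ) else -1)

end

end Crest.Agent.R275.LnkG894
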