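/-
R275 / block LINK (helper894), part D6: ASSEMBLY.  The second difference of the index of line
bundles (helper825's `bL`, `bZ`) is the cup product form.
-/
import Crest.Agent.R275.LnkG_894
import Crest.Agent.R275.LnkCup_692
import Crest.Agent.R275.ChiM_825

set_option autoImplicit false
set_option linter.unusedSectionVars false

open Set Filter Topology
open Crest.Agent.R275.Geo Crest.Agent.R275.Smf798 Crest.Agent.R275.KR798
open Crest.Agent.R275.SB798 Crest.Agent.R275.GC293 Crest.Agent.R275.ChiM825
open Crest.Agent.R275.LnkF894 Crest.Agent.R275.LnkG894 Crest.Agent.R275.StdSec880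
open Crest.Agent.R275.LnkCup692 Crest.Agent.R275.ASZ627

namespace Crest.Agent.R275.LnkH894

noncomputable section

variable {M : Type} [TopologicalSpace M] {A : Atl 2 M}

/-- a smooth line bundle gives a smooth cocycle in the sense of `StdSec_880` -/
theorem sCoc (L : SLB A) : SCoc A L.g where
  sm i j := (smOn_inter_iff i j).1 (L.sm i j)
  self i x hx := L.one i x hx
  mul i j k x hx := L.mul i j k x hx

variable [T2Space M] [CompactSpace M] (P : Part A) (I : KIndex (smf A))

/-- the index form counts zeros -/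
theorem bL_eq_deg (hpt : ∀ p c, p ∈ (A.e c).source → Nonempty (PtRes A I p c)) (L L' : SLB A)
    (S : StdPair A L.g L'.g) : bL P I L L' = StdPair.deg S := by
  rw [bL_eq]
  have h := linkIdx P I hpt (toSB L) (toSB L') S
  rw [show cl P I L = cE P I (toSB L) from rfl, show cl P I L' = cE P I (toSB L') from rfl, h,
    StdPair.deg]
  refine Finset.sum_congr rfl fun p _ => ?_
  cases hs : S.sg p <;> simp [sgn]

/-- **LINK**: the index form is the cup product form. -/
theorem link (hpt : ∀ p c, p ∈ (A.e c).source → Nonempty (PtRes A I p c)) {R : Type*}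
    [AddCommGroup R] (O : OrE M R) (one : R) {L L' : SLB A} {c c' : A.ι → A.ι → A.ι → ℤ}
    (hc : IsC1 L c) (hc' : IsC1 L' c') {lab : M → A.ι}
    (hlab : RLab (fun i => (A.e i).source) lab)
    (nrm : ∀ (i : A.ι) (p : M), p ∈ (A.e i).source → ∃ V ∈ 𝓝 p, closure V ⊆ (A.e i).source ∧
      O.E (tau A i p V) = one) :
    O.E (cup 2 (lp lab c) (lp lab c')) = bL P I L L' • one := by
  obtain ⟨S⟩ := stdPair (sCoc L) (sCoc L')
  rw [bL_eq_deg P I hpt L L' S, linkCup_int O one A S hc hc' hlab nrm]

/-- **LINK**, in terms of integral classes. -/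
theorem linkZ (hpt : ∀ p c, p ∈ (A.e c).source → Nonempty (PtRes A I p c)) {R : Type*}
    [AddCommGroup R] (O : OrE M R) (one : R) {lab : M → A.ι}
    (hlab : RLab (fun i => (A.e i).source) lab)
    (nrm : ∀ (i : A.ι) (p : M), p ∈ (A.e i).source → ∃ V ∈ 𝓝 p, closure V ⊆ (A.e i).source ∧
      O.E (tau A i p V) = one) (c d : Z2 A ℤ) :
    O.E (cup 2 (lp lab c.1) (lp lab d.1)) = bZ P I c d • one := by
  rw [bZ_eq]
  exact link P I hpt O one (isC1_LofC P c) (isC1_LofC P d) hlab nrm

end

end Crest.Agent.R275.LnkH894
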