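/-
R275 / block LINK (helper894): the LINK theorem for the geometric index (683's module index), with
the resolution of a point from 476.
-/
import Crest.Agent.R275.LnkH_894
import Crest.Agent.R275.LnkP6_476

set_option autoImplicit false
set_option linter.unusedSectionVars false

open Set Filter Topology
open Crest.Agent.R275.Geo Crest.Agent.R275.Smf798 Crest.Agent.R275.KR798
open Crest.Agent.R275.SB798 Crest.Agent.R275.GC293 Crest.Agent.R275.ChiM825
open Crest.Agent.R275.LnkF894 Crest.Agent.R275.LnkG894 Crest.Agent.R275.StdSec880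
open Crest.Agent.R275.LnkCup692 Crest.Agent.R275.ASZ627 Crest.Agent.R275.LnkP6476
open Crest.Agent.R275.MI683 Crest.Agent.R275.Lam2130 Crest.Agent.R275.SmR425

namespace Crest.Agent.R275.LnkI894

noncomputable section

variable {M : Type} [TopologicalSpace M] [T2Space M] [CompactSpace M] {A : Atl 2 M}
  {G : ModSc (smf A) (Sec (lam2 A))}

/-- the resolutions of points exist for the geometric index -/
theorem ptRes (hσ : ∀ f : smf A, G.σ f = f) (hG : IsCoh G) (P : Part A) (p : M) (c : A.ι)
    (hp : p ∈ (A.e c).source) : Nonempty (PtRes A (G.kIndex hσ) p c) := by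
  obtain ⟨h, N, q, io, R, h0, h1, h2, h3, -, h4⟩ := ind_pt hσ hG P hp
  exact ⟨{ h := h, n := Fin N, q := q, io := io, res := R, h0 := h0, h1 := h1, h2 := h2,
           nz := h3, ind := h4 }⟩

/-- **LINK** for the geometric index. -/
theorem linkZ (hσ : ∀ f : smf A, G.σ f = f) (hG : IsCoh G) (P : Part A) {R : Type*}
    [AddCommGroup R] (O : OrE M R) (one : R) {lab : M → A.ι}
    (hlab : RLab (fun i => (A.e i).source) lab)
    (nrm : ∀ (i : A.ι) (p : M), p ∈ (A.e i).source → ∃ V ∈ 𝓝 p, closure V ⊆ (A.e i).source ∧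
      O.E (tau A i p V) = one) (c d : Z2 A ℤ) :
    O.E (cup 2 (lp lab c.1) (lp lab d.1)) = bZ P (G.kIndex hσ) c d • one :=
  LnkH894.linkZ P (G.kIndex hσ) (fun p c hp => ptRes hσ hG P p c hp) O one hlab nrm c d

end

end Crest.Agent.R275.LnkI894
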