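/-
R275 / block LINK (helper894): helper106's `KX106.Link` for the geometric index.
-/
import Crest.Agent.R275.LnkI_894
import Crest.Agent.R275.KX_106
import Crest.Agent.R275.PDB2_412

set_option autoImplicit false
set_option linter.unusedSectionVars false

open Set Filter Topology
open Crest.Agent.R275.Geo Crest.Agent.R275.Smf798 Crest.Agent.R275.KR798
open Crest.Agent.R275.SB798 Crest.Agent.R275.GC293 Crest.Agent.R275.ChiM825
open Crest.Agent.R275.LnkF894 Crest.Agent.R275.LnkG894 Crest.Agent.R275.StdSec880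
open Crest.Agent.R275.LnkCup692 Crest.Agent.R275.ASZ627 Crest.Agent.R275.LnkP6476
open Crest.Agent.R275.MI683 Crest.Agent.R275.Lam2130 Crest.Agent.R275.SmR425
open Crest.Agent.R275.Zig470 Crest.Agent.R275.PDB412 Crest.Agent.R275.KZig106
open Crest.Agent.R275.KAsm106 Crest.Agent.R275.ASConv293

namespace Crest.Agent.R275.LnkJ894

noncomputable section

variable {M : Type} [TopologicalSpace M] [T2Space M] [CompactSpace M] {A : Atl 2 M}

theorem rlab_of_lab {lab : M → A.ι} (h : Lab (UA A) lab) :
    RLab (fun i => (A.e i).source) lab := by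
  intro x
  obtain ⟨F, h1, h2⟩ := h x
  exact ⟨F, h1, h2⟩

/-- LINK from the resolutions of points -/
theorem link_of_ptRes (P : Part A) (I : KIndex (smf A))
    (hpt : ∀ p c, p ∈ (A.e c).source → Nonempty (PtRes A I p c)) {E : (List M → ℤ) → ℝ}
    (D : Ev 3 E) (hN : Nrm A E) {lab : M → A.ι} (hlab : Lab (UA A) lab) :
    KX106.Link P I E lab := by
  intro L L' c c' hc hc'
  have h := LnkH894.link P I hpt (orE D) (1 : ℝ) hc hc' (rlab_of_lab hlab)
    (PDB2412.tau_of_nrm D hN)
  rw [orE_E] at h
  rw [h]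
  simp

/-- **LINK** (helper106's form) for the geometric index of helper683 -/
theorem link {G : ModSc (smf A) (Sec (lam2 A))} (hσ : ∀ f : smf A, G.σ f = f) (hG : IsCoh G)
    (P : Part A) {E : (List M → ℤ) → ℝ} (D : Ev 3 E) (hN : Nrm A E) {lab : M → A.ι}
    (hlab : Lab (UA A) lab) : KX106.Link P (G.kIndex hσ) E lab :=
  link_of_ptRes P (G.kIndex hσ) (fun p c hp => LnkI894.ptRes hσ hG P p c hp) D hN hlab

end

end Crest.Agent.R275.LnkJ894
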