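import Crest.Agent.R240.SmInt
import Crest.Agent.R275.C1a_509

/-!
R275, block LINK, leaf D4 (helper476), part 1: the radial homotopy for `∂̄` at a point of `ℂⁿ`,
modulo the ideal `(z₁, …, zₙ)`.

* `II m g z = ∫₀¹ sᵐ g(sz) ds`, smooth on balls; `dbj_II`, `ftc`;
* `Kh`, `dB`: the homotopy and `∂̄` on functions with values in a Fock space, in components;
* `homotopy`: `∂̄ K f + K ∂̄ f = f - f₀(0) - Σ z_j II (∂f/∂z_j)`.
-/

set_option autoImplicit false
set_option linter.unusedSectionVars false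

open Set Filter Topology MeasureTheory Complex
open scoped ContDiff ComplexConjugate
open Crest.Agent.R240.SmJ Crest.Agent.R275.Geo

namespace Crest.Agent.R275.LnkP1476

noncomputable section

variable {n : ℕ}

/-- `∂/∂z_a` -/
def dzj (a : Fin n) (f : Cn n → ℂ) (z : Cn n) : ℂ :=
  (1 / 2 : ℂ) * (fderiv ℝ f z (EuclideanSpace.single a 1) -
    I * fderiv ℝ f z (EuclideanSpace.single a I))

theorem clm_vec (L : Cn n →L[ℝ] ℂ) (v : Cn n) :
    L v = ∑ a, (v a * ((1 / 2 : ℂ) * (L (EuclideanSpace.single a 1) -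
      I * L (EuclideanSpace.single a I))) +
      conj (v a) * ((1 / 2 : ℂ) * (L (EuclideanSpace.single a 1) +
      I * L (EuclideanSpace.single a I)))) := by
  conv_lhs => rw [vec_eq_sum v]
  rw [map_sum]
  refine Finset.sum_congr rfl fun a _ => ?_
  rw [map_add, map_smul, map_smul, Complex.real_smul, Complex.real_smul]
  have h1 : v a = (v a).re + (v a).im * I := (Complex.re_add_im _).symm
  have h2 : conj (v a) = (v a).re - (v a).im * I := by
    apply Complex.ext <;> simp
  rw [h2]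
  conv_rhs => rw [h1]
  have h3 : ∀ w : ℂ, ((w.re : ℂ) + w.im * I).re = w.re := by intro w; simp
  have h4 : ∀ w : ℂ, ((w.re : ℂ) + w.im * I).im = w.im := by intro w; simp
  rw [h3, h4]
  linear_combination (((v a).im : ℂ) * L (EuclideanSpace.single a I)) * Complex.I_mul_I

theorem fderiv_vec (f : Cn n → ℂ) (z v : Cn n) :
    fderiv ℝ f z v = ∑ a, (v a * dzj a f z + conj (v a) * dbj a f z) :=
  clm_vec (fderiv ℝ f z) v

theorem contDiffOn_fderiv_apply {U : Set (Cn n)} (hU : IsOpen U) {g : Cn n → ℂ}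
    (hg : ContDiffOn ℝ ∞ g U) (v : Cn n) : ContDiffOn ℝ ∞ (fun p => fderiv ℝ g p v) U :=
  (hg.fderiv_of_isOpen hU (m := ∞) (by simp)).clm_apply contDiffOn_const

theorem contDiffOn_dzj {U : Set (Cn n)} (hU : IsOpen U) {g : Cn n → ℂ}
    (hg : ContDiffOn ℝ ∞ g U) (a : Fin n) : ContDiffOn ℝ ∞ (dzj a g) U :=
  contDiffOn_const.mul ((contDiffOn_fderiv_apply hU hg _).sub
    (contDiffOn_const.mul (contDiffOn_fderiv_apply hU hg _)))

/-- star shaped at `0` -/
def Star (U : Set (Cn n)) : Prop := ∀ p ∈ U, ∀ s ∈ Icc (0 : ℝ) 1, s • p ∈ U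

theorem star_ball (r : ℝ) : Star (Metric.ball (0 : Cn n) r) := by
  intro p hp s hs
  rw [mem_ball_zero_iff] at hp ⊢
  rw [norm_smul, Real.norm_of_nonneg hs.1]
  calc s * ‖p‖ ≤ 1 * ‖p‖ := by gcongr; exact hs.2
    _ = ‖p‖ := one_mul _
    _ < r := hp

/-- the integrand -/
def IG (m : ℕ) (g : Cn n → ℂ) (q : Cn n × ℝ) : ℂ := ((q.2 : ℂ) ^ m) * g (q.2 • q.1)

/-- the Hadamard integral -/
def II (m : ℕ) (g : Cn n → ℂ) (p : Cn n) : ℂ := ∫ s in Icc (0 : ℝ) 1, IG m g (p, s)

/-- the scaled domain -/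
def SU (U : Set (Cn n)) : Set (Cn n × ℝ) := {q | q.2 • q.1 ∈ U}

theorem isOpen_SU {U : Set (Cn n)} (hU : IsOpen U) : IsOpen (SU U) :=
  hU.preimage (by fun_prop)

theorem subset_SU {U : Set (Cn n)} (hS : Star U) : U ×ˢ Icc (0 : ℝ) 1 ⊆ SU U :=
  fun q hq => hS q.1 hq.1 q.2 hq.2

theorem contDiffOn_IG {U : Set (Cn n)} (m : ℕ) {g : Cn n → ℂ}
    (hg : ContDiffOn ℝ ∞ g U) : ContDiffOn ℝ ∞ (IG m g) (SU U) := by
  unfold IG
  refine ContDiffOn.mul ?_ ?_
  · refine ContDiff.contDiffOn ?_
    have : ContDiff ℝ ∞ (fun q : Cn n × ℝ => ((q.2 : ℝ) : ℂ)) :=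
      Complex.ofRealCLM.contDiff.comp contDiff_snd
    exact this.pow m
  · have h1 : ContDiff ℝ ∞ (fun q : Cn n × ℝ => q.2 • q.1) := contDiff_snd.smul contDiff_fst
    exact hg.comp h1.contDiffOn (fun q hq => hq)

theorem contDiffOn_II {U : Set (Cn n)} (hU : IsOpen U) (hS : Star U) (m : ℕ) {g : Cn n → ℂ}
    (hg : ContDiffOn ℝ ∞ g U) : ContDiffOn ℝ ∞ (II m g) U := by
  have h := contDiffOn_integral (E := Cn n) (E' := ℝ) (V := ℂ) (g := IG m g) (K := Icc (0 : ℝ) 1)
    (isOpen_SU hU) hU isCompact_Icc (subset_SU hS) volume (contDiffOn_IG m hg)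
  exact h

theorem dx_IG {U : Set (Cn n)} (hU : IsOpen U) (m : ℕ) {g : Cn n → ℂ}
    (hg : ContDiffOn ℝ ∞ g U) {p : Cn n} {s : ℝ} (hp : (p, s) ∈ SU U) (v : Cn n) :
    dx (IG m g) (p, s) v = ((s : ℂ) ^ (m + 1)) * fderiv ℝ g (s • p) v := by
  have hd : DifferentiableAt ℝ (IG m g) (p, s) :=
    ((contDiffOn_IG m hg).contDiffAt ((isOpen_SU hU).mem_nhds hp)).differentiableAt (by simp)
  have h1 : HasFDerivAt (fun x => IG m g (x, s)) (dx (IG m g) (p, s)) p :=
    hasFDerivAt_dx (p := (p, s)) hd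
  have hgd : DifferentiableAt ℝ g (s • p) :=
    (hg.contDiffAt (hU.mem_nhds hp)).differentiableAt (by simp)
  have hL : HasFDerivAt (fun x : Cn n => s • x) (s • ContinuousLinearMap.id ℝ (Cn n)) p :=
    (s • ContinuousLinearMap.id ℝ (Cn n)).hasFDerivAt
  have h2 : HasFDerivAt (fun x => IG m g (x, s))
      (((s : ℂ) ^ m) • ((fderiv ℝ g (s • p)).comp (s • ContinuousLinearMap.id ℝ (Cn n)))) p := by
    have h3 : HasFDerivAt (fun x : Cn n => g (s • x))
        ((fderiv ℝ g (s • p)).comp (s • ContinuousLinearMap.id ℝ (Cn n))) p :=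
      HasFDerivAt.comp p (by exact hgd.hasFDerivAt) hL
    change HasFDerivAt (fun x : Cn n => ((s : ℂ) ^ m) * g (s • x)) _ p
    exact h3.const_mul _
  rw [h1.unique h2]
  have h4 : (s • ContinuousLinearMap.id ℝ (Cn n)) v = s • v := rfl
  rw [_root_.smul_apply, ContinuousLinearMap.comp_apply, h4, map_smul]
  rw [Complex.real_smul, smul_eq_mul, pow_succ]
  ring

theorem cont_seg {U : Set (Cn n)} (hS : Star U) {g : Cn n → ℂ}
    (hg : ContinuousOn g U) (m : ℕ) {p : Cn n} (hp : p ∈ U) :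
    ContinuousOn (fun s : ℝ => IG m g (p, s)) (Icc (0 : ℝ) 1) := by
  unfold IG
  refine ContinuousOn.mul (by fun_prop) ?_
  refine hg.comp (f := fun s : ℝ => s • p) (by fun_prop) ?_
  intro s hs
  exact hS p hp s hs

theorem int_seg {U : Set (Cn n)} (hS : Star U) {g : Cn n → ℂ}
    (hg : ContinuousOn g U) (m : ℕ) {p : Cn n} (hp : p ∈ U) :
    IntegrableOn (fun s : ℝ => IG m g (p, s)) (Icc (0 : ℝ) 1) :=
  (cont_seg hS hg m hp).integrableOn_Icc

theorem fderiv_II {U : Set (Cn n)} (hU : IsOpen U) (hS : Star U) (m : ℕ) {g : Cn n → ℂ}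
    (hg : ContDiffOn ℝ ∞ g U) {p : Cn n} (hp : p ∈ U) (v : Cn n) :
    fderiv ℝ (II m g) p v = II (m + 1) (fun z => fderiv ℝ g z v) p := by
  have h := hasFDerivAt_integral (E := Cn n) (E' := ℝ) (V := ℂ) (g := IG m g)
    (K := Icc (0 : ℝ) 1) (isOpen_SU hU) hU isCompact_Icc (subset_SU hS) volume
    (contDiffOn_IG m hg) hp
  have h' : HasFDerivAt (II m g) (∫ y in Icc (0 : ℝ) 1, dx (IG m g) (p, y)) p := h
  rw [h'.fderiv]
  have hint : Integrable (fun s => dx (IG m g) (p, s)) (volume.restrict (Icc (0 : ℝ) 1)) := by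
    have hc : ContinuousOn (fun s => dx (IG m g) (p, s)) (Icc (0 : ℝ) 1) := by
      have h1 : ContinuousOn (dx (IG m g)) (SU U) :=
        (contDiffOn_dx (E := Cn n) (E' := ℝ) (V := ℂ) (g := IG m g) (s := SU U)
          (isOpen_SU hU) (contDiffOn_IG m hg)).continuousOn
      refine h1.comp (f := fun s : ℝ => (p, s)) (by fun_prop) ?_
      intro s hs
      exact subset_SU hS ⟨hp, hs⟩
    exact hc.integrableOn_Icc
  rw [ContinuousLinearMap.integral_apply hint]
  unfold II
  refine setIntegral_congr_fun measurableSet_Icc fun s hs => ?_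
  exact dx_IG hU m hg (subset_SU hS ⟨hp, hs⟩) v

theorem II_add {U : Set (Cn n)} (hS : Star U) (m : ℕ) {f g : Cn n → ℂ}
    (hf : ContinuousOn f U) (hg : ContinuousOn g U) {p : Cn n} (hp : p ∈ U) :
    II m (fun z => f z + g z) p = II m f p + II m g p := by
  unfold II
  rw [← integral_add (int_seg hS hf m hp) (int_seg hS hg m hp)]
  refine setIntegral_congr_fun measurableSet_Icc fun s _ => ?_
  simp only [IG]; ring

theorem II_const_mul (m : ℕ) (c : ℂ) (f : Cn n → ℂ) (p : Cn n) :
    II m (fun z => c * f z) p = c * II m f p := by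
  unfold II
  rw [← integral_const_mul]
  refine setIntegral_congr_fun measurableSet_Icc fun s _ => ?_
  simp only [IG]; ring

theorem II_zero (m : ℕ) (p : Cn n) : II m (fun _ : Cn n => (0 : ℂ)) p = 0 := by
  simp [II, IG]

theorem II_congr {U : Set (Cn n)} (hS : Star U) (m : ℕ) {f g : Cn n → ℂ} (h : EqOn f g U)
    {p : Cn n} (hp : p ∈ U) : II m f p = II m g p := by
  unfold II
  refine setIntegral_congr_fun measurableSet_Icc fun s hs => ?_
  simp only [IG, h (hS p hp s hs)]

theorem II_sum {U : Set (Cn n)} (hS : Star U) (m : ℕ) {ι : Type*} (t : Finset ι)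
    (f : ι → Cn n → ℂ) (hf : ∀ i ∈ t, ContinuousOn (f i) U) {p : Cn n} (hp : p ∈ U) :
    II m (fun z => ∑ i ∈ t, f i z) p = ∑ i ∈ t, II m (f i) p := by
  classical
  induction t using Finset.induction_on with
  | empty => simp only [Finset.sum_empty]; exact II_zero m p
  | insert i t hi ih =>
    have e : (fun z => ∑ l ∈ insert i t, f l z) = fun z => f i z + ∑ l ∈ t, f l z := by
      funext z; rw [Finset.sum_insert hi]
    rw [e, II_add hS m (hf i (Finset.mem_insert_self i t))
      (continuousOn_finsetSum t fun l hl => hf l (Finset.mem_insert_of_mem hl)) hp,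
      ih (fun l hl => hf l (Finset.mem_insert_of_mem hl)), Finset.sum_insert hi]

theorem II_coord_mul (m : ℕ) (b : Fin n) (g : Cn n → ℂ) (p : Cn n) :
    II m (fun z => z b * g z) p = p b * II (m + 1) g p := by
  unfold II
  rw [← integral_const_mul]
  refine setIntegral_congr_fun measurableSet_Icc fun s _ => ?_
  have h1 : (s • p) b = (s : ℂ) * p b := by
    rw [PiLp.smul_apply, Complex.real_smul]
  simp only [IG, h1, pow_succ]
  ring

theorem dbj_II {U : Set (Cn n)} (hU : IsOpen U) (hS : Star U) (m : ℕ) {g : Cn n → ℂ}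
    (hg : ContDiffOn ℝ ∞ g U) (a : Fin n) {p : Cn n} (hp : p ∈ U) :
    dbj a (II m g) p = II (m + 1) (dbj a g) p := by
  have h1 := fderiv_II hU hS m hg hp (EuclideanSpace.single a 1)
  have h2 := fderiv_II hU hS m hg hp (EuclideanSpace.single a I)
  have c1 := (contDiffOn_fderiv_apply hU hg (EuclideanSpace.single a 1)).continuousOn
  have c2 := (contDiffOn_fderiv_apply hU hg (EuclideanSpace.single a I)).continuousOn
  have c2' : ContinuousOn (fun z => I * fderiv ℝ g z (EuclideanSpace.single a I)) U :=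
    continuousOn_const.mul c2
  have e : dbj a g = fun z => (1 / 2 : ℂ) * (fderiv ℝ g z (EuclideanSpace.single a 1) +
      I * fderiv ℝ g z (EuclideanSpace.single a I)) := rfl
  rw [e, II_const_mul, II_add hS (m + 1) c1 c2' hp, II_const_mul]
  simp only [dbj, smul_eq_mul, h1, h2]

/-- fundamental theorem along the ray -/
theorem ftc {U : Set (Cn n)} (hU : IsOpen U) (hS : Star U) (m : ℕ) {g : Cn n → ℂ}
    (hg : ContDiffOn ℝ ∞ g U) {p : Cn n} (hp : p ∈ U) :
    g p - (if m = 0 then g 0 else 0) = m * II (m - 1) g p +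
      ∑ a, (p a * II m (dzj a g) p + conj (p a) * II m (dbj a g) p) := by
  have hderiv : ∀ s ∈ uIcc (0 : ℝ) 1, HasDerivAt (fun s : ℝ => ((s : ℂ) ^ m) * g (s • p))
      ((m : ℂ) * (s : ℂ) ^ (m - 1) * g (s • p) + ((s : ℂ) ^ m) * fderiv ℝ g (s • p) p) s := by
    intro s hs
    rw [uIcc_of_le zero_le_one] at hs
    have hgd : DifferentiableAt ℝ g (s • p) :=
      (hg.contDiffAt (hU.mem_nhds (hS p hp s hs))).differentiableAt (by simp)
    have h1 : HasDerivAt (fun s : ℝ => s • p) p s := by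
      simpa using (hasDerivAt_id s).smul_const p
    have h2 : HasDerivAt (fun s : ℝ => g (s • p)) (fderiv ℝ g (s • p) p) s :=
      hgd.hasFDerivAt.comp_hasDerivAt s h1
    have h3 : HasDerivAt (fun s : ℝ => ((s : ℂ) ^ m)) ((m : ℂ) * (s : ℂ) ^ (m - 1)) s := by
      have := (hasDerivAt_pow m (s : ℂ)).comp_ofReal
      simpa using this
    exact h3.mul h2
  have hsum : ∀ s : ℝ, (m : ℂ) * (s : ℂ) ^ (m - 1) * g (s • p) +
      ((s : ℂ) ^ m) * fderiv ℝ g (s • p) p = (m : ℂ) * IG (m - 1) g (p, s) +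
      ∑ a, (p a * IG m (dzj a g) (p, s) + conj (p a) * IG m (dbj a g) (p, s)) := by
    intro s
    rw [fderiv_vec, Finset.mul_sum]
    simp only [IG]
    congr 1
    · ring
    · exact Finset.sum_congr rfl fun a _ => by ring
  have hcz : ∀ a, ContinuousOn (dzj a g) U := fun a => (contDiffOn_dzj hU hg a).continuousOn
  have hcb : ∀ a, ContinuousOn (dbj a g) U := fun a => (contDiffOn_dbj hU hg a).continuousOn
  have i0 : IntegrableOn (fun s : ℝ => (m : ℂ) * IG (m - 1) g (p, s)) (Icc (0 : ℝ) 1) :=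
    (continuousOn_const.mul (cont_seg hS hg.continuousOn (m - 1) hp)).integrableOn_Icc
  have ia : ∀ a ∈ (Finset.univ : Finset (Fin n)), IntegrableOn (fun s : ℝ =>
      p a * IG m (dzj a g) (p, s) + conj (p a) * IG m (dbj a g) (p, s)) (Icc (0 : ℝ) 1) :=
    fun a _ => ((continuousOn_const.mul (cont_seg hS (hcz a) m hp)).add
      (continuousOn_const.mul (cont_seg hS (hcb a) m hp))).integrableOn_Icc
  have hcont : ContinuousOn (fun s : ℝ => (m : ℂ) * (s : ℂ) ^ (m - 1) * g (s • p) +
      ((s : ℂ) ^ m) * fderiv ℝ g (s • p) p) (Icc (0 : ℝ) 1) := by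
    simp only [hsum]
    refine (continuousOn_const.mul (cont_seg hS hg.continuousOn (m - 1) hp)).add ?_
    exact continuousOn_finsetSum _ fun a _ =>
      (continuousOn_const.mul (cont_seg hS (hcz a) m hp)).add
      (continuousOn_const.mul (cont_seg hS (hcb a) m hp))
  have hftc := intervalIntegral.integral_eq_sub_of_hasDerivAt hderiv
    (ContinuousOn.intervalIntegrable_of_Icc zero_le_one hcont)
  rw [intervalIntegral.integral_of_le zero_le_one, ← integral_Icc_eq_integral_Ioc] at hftc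
  simp only [one_smul, zero_smul, Complex.ofReal_one, one_pow, one_mul, Complex.ofReal_zero] at hftc
  have e1 : ∫ s in Icc (0 : ℝ) 1, ((m : ℂ) * (s : ℂ) ^ (m - 1) * g (s • p) +
      ((s : ℂ) ^ m) * fderiv ℝ g (s • p) p) = m * II (m - 1) g p +
      ∑ a, (p a * II m (dzj a g) p + conj (p a) * II m (dbj a g) p) := by
    simp only [hsum]
    rw [integral_add i0 (integrable_finsetSum _ ia), integral_finsetSum _ ia,
      integral_const_mul]
    congr 1
    refine Finset.sum_congr rfl fun a _ => ?_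
    have j1 : IntegrableOn (fun s : ℝ => p a * IG m (dzj a g) (p, s)) (Icc (0 : ℝ) 1) :=
      (continuousOn_const.mul (cont_seg hS (hcz a) m hp)).integrableOn_Icc
    have j2 : IntegrableOn (fun s : ℝ => conj (p a) * IG m (dbj a g) (p, s)) (Icc (0 : ℝ) 1) :=
      (continuousOn_const.mul (cont_seg hS (hcb a) m hp)).integrableOn_Icc
    rw [integral_add j1 j2, integral_const_mul, integral_const_mul]
    rfl
  rw [e1] at hftc
  rw [hftc]
  congr 1
  by_cases hm : m = 0
  · subst hm; simp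
  · simp [hm, zero_pow hm]

/-! ### `∂̄` calculus -/

theorem dbj_mul {f g : Cn n → ℂ} {z : Cn n} (hf : DifferentiableAt ℝ f z)
    (hg : DifferentiableAt ℝ g z) (a : Fin n) :
    dbj a (fun w => f w * g w) z = f z * dbj a g z + dbj a f z * g z := by
  have h : fderiv ℝ (fun w => f w * g w) z = f z • fderiv ℝ g z + g z • fderiv ℝ f z :=
    fderiv_mul hf hg
  simp only [dbj, h, _root_.add_apply, _root_.smul_apply, smul_eq_mul]
  ring

theorem dbj_sum {ι : Type*} (t : Finset ι) {f : ι → Cn n → ℂ} {z : Cn n}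
    (hf : ∀ i ∈ t, DifferentiableAt ℝ (f i) z) (a : Fin n) :
    dbj a (fun w => ∑ i ∈ t, f i w) z = ∑ i ∈ t, dbj a (f i) z := by
  have h : fderiv ℝ (fun w => ∑ i ∈ t, f i w) z = ∑ i ∈ t, fderiv ℝ (f i) z :=
    fderiv_fun_sum hf
  simp only [dbj, h, FunLike.coe_sum, Finset.sum_apply, smul_eq_mul]
  rw [Finset.mul_sum, ← Finset.sum_add_distrib, Finset.mul_sum]

/-- the coordinate `z ↦ conj z_j` as a real linear map -/
def cL (j : Fin n) : Cn n →L[ℝ] ℂ :=
  (Complex.conjCLE : ℂ →L[ℝ] ℂ).comp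
    ((EuclideanSpace.proj j : Cn n →L[ℂ] ℂ).restrictScalars ℝ)

theorem cL_apply (j : Fin n) (z : Cn n) : cL j z = conj (z j) := rfl

theorem dbj_conj_coord (a j : Fin n) (z : Cn n) :
    dbj a (fun w : Cn n => conj (w j)) z = if a = j then 1 else 0 := by
  have h : fderiv ℝ (fun w : Cn n => conj (w j)) z = cL j := (cL j).hasFDerivAt.fderiv
  simp only [dbj, h, cL_apply, smul_eq_mul, PiLp.single_apply]
  by_cases hj : a = j
  · subst hj
    simp only [if_true]
    rw [map_one, Complex.conj_I]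
    linear_combination (-(1 / 2 : ℂ)) * Complex.I_mul_I
  · rw [if_neg (Ne.symm hj), if_neg (Ne.symm hj), if_neg hj]
    simp

section fock

variable {κ : Type} [Fintype κ] [DecidableEq κ] (e io : Fin n → Matrix κ κ ℂ) (deg : κ → ℕ)

/-- `∂̄` on functions with values in the Fock space -/
def dB (f : κ → Cn n → ℂ) (k : κ) (z : Cn n) : ℂ := ∑ a, ∑ l, e a k l * dbj a (f l) z

/-- the radial homotopy -/
def Kh (f : κ → Cn n → ℂ) (k : κ) (z : Cn n) : ℂ :=
  ∑ j, ∑ l, conj (z j) * io j k l * II (deg k) (f l) z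

theorem contDiffOn_dB {U : Set (Cn n)} (hU : IsOpen U) {f : κ → Cn n → ℂ}
    (hf : ∀ l, ContDiffOn ℝ ∞ (f l) U) (k : κ) : ContDiffOn ℝ ∞ (dB e f k) U :=
  ContDiffOn.sum fun a _ => ContDiffOn.sum fun l _ =>
    contDiffOn_const.mul (contDiffOn_dbj hU (hf l) a)

theorem contDiff_conj_coord (j : Fin n) : ContDiff ℝ ∞ (fun z : Cn n => conj (z j)) :=
  (cL j).contDiff

theorem contDiffOn_Kh {U : Set (Cn n)} (hU : IsOpen U) (hS : Star U) {f : κ → Cn n → ℂ}
    (hf : ∀ l, ContDiffOn ℝ ∞ (f l) U) (k : κ) : ContDiffOn ℝ ∞ (Kh io deg f k) U :=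
  ContDiffOn.sum fun j _ => ContDiffOn.sum fun l _ =>
    ((contDiff_conj_coord j).contDiffOn.mul contDiffOn_const).mul
      (contDiffOn_II hU hS (deg k) (hf l))

theorem dbj_Kh {U : Set (Cn n)} (hU : IsOpen U) (hS : Star U) {f : κ → Cn n → ℂ}
    (hf : ∀ l, ContDiffOn ℝ ∞ (f l) U) (a : Fin n) (l : κ) {z : Cn n} (hz : z ∈ U) :
    dbj a (Kh io deg f l) z = ∑ j, ∑ m, io j l m *
      ((if a = j then 1 else 0) * II (deg l) (f m) z +
        conj (z j) * II (deg l + 1) (dbj a (f m)) z) := by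
  have hII : ∀ m, DifferentiableAt ℝ (II (deg l) (f m)) z := fun m =>
    ((contDiffOn_II hU hS (deg l) (hf m)).contDiffAt (hU.mem_nhds hz)).differentiableAt (by simp)
  have hc : ∀ j, DifferentiableAt ℝ (fun w : Cn n => conj (w j)) z := fun j =>
    (contDiff_conj_coord j).contDiffAt.differentiableAt (by simp)
  have hcc : ∀ j m, DifferentiableAt ℝ (fun w : Cn n => conj (w j) * io j l m) z := fun j m =>
    (hc j).mul_const _
  have hcm : ∀ j m, DifferentiableAt ℝ
      (fun w : Cn n => conj (w j) * io j l m * II (deg l) (f m) w) z :=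
    fun j m => (hcc j m).mul (hII m)
  have hcs : ∀ j, DifferentiableAt ℝ
      (fun w : Cn n => ∑ m, conj (w j) * io j l m * II (deg l) (f m) w) z :=
    fun j => DifferentiableAt.fun_sum fun m _ => hcm j m
  refine (dbj_sum Finset.univ (f := fun (j : Fin n) (w : Cn n) =>
    ∑ m, conj (w j) * io j l m * II (deg l) (f m) w) (fun j _ => hcs j) a).trans ?_
  refine Finset.sum_congr rfl fun j _ => ?_
  refine (dbj_sum Finset.univ (f := fun (m : κ) (w : Cn n) =>
    conj (w j) * io j l m * II (deg l) (f m) w) (fun m _ => hcm j m) a).trans ?_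
  refine Finset.sum_congr rfl fun m _ => ?_
  refine (dbj_mul (hcc j m) (hII m) a).trans ?_
  have e2 : dbj a (fun w : Cn n => conj (w j) * io j l m) z =
      (if a = j then 1 else 0) * io j l m := by
    refine (dbj_mul (hc j) (differentiableAt_const (io j l m)) a).trans ?_
    rw [dbj_conj_coord, dbj_const, mul_zero, zero_add]
  rw [e2, dbj_II hU hS (deg l) (hf m) a hz]
  ring

/-- **the homotopy identity** -/
theorem homotopy (e_deg : ∀ a k l, e a k l ≠ 0 → deg k = deg l + 1)
    (ei : ∀ a b, e a * io b + io b * e a = if a = b then 1 else 0)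
    (num : ∀ k l, (∑ a, e a * io a) k l = if k = l then (deg k : ℂ) else 0)
    {U : Set (Cn n)} (hU : IsOpen U) (hS : Star U) {f : κ → Cn n → ℂ}
    (hf : ∀ l, ContDiffOn ℝ ∞ (f l) U) (k : κ) {z : Cn n} (hz : z ∈ U) :
    dB e (Kh io deg f) k z + Kh io deg (dB e f) k z =
      f k z - (if deg k = 0 then f k 0 else 0) - ∑ a, z a * II (deg k) (dzj a (f k)) z := by
  set X : κ → ℂ := fun m => II (deg k - 1) (f m) z with hX
  set Y : Fin n → κ → ℂ := fun a m => II (deg k) (dbj a (f m)) z with hY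
  -- first term
  have h1 : dB e (Kh io deg f) k z = ∑ a, ∑ l, ∑ j, ∑ m, e a k l * io j l m *
      ((if a = j then 1 else 0) * X m + conj (z j) * Y a m) := by
    unfold dB
    refine Finset.sum_congr rfl fun a _ => Finset.sum_congr rfl fun l _ => ?_
    rw [dbj_Kh io deg hU hS hf a l hz, Finset.mul_sum]
    refine Finset.sum_congr rfl fun j _ => ?_
    rw [Finset.mul_sum]
    refine Finset.sum_congr rfl fun m _ => ?_
    by_cases h0 : e a k l = 0
    · rw [h0]; ring
    · have hd := e_deg a k l h0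
      have hd' : deg l = deg k - 1 := by omega
      simp only [hX, hY]
      rw [← hd, hd']
      ring
  have h2 : Kh io deg (dB e f) k z = ∑ j, ∑ l, ∑ a, ∑ m, conj (z j) * io j k l * e a l m * Y a m := by
    unfold Kh
    refine Finset.sum_congr rfl fun j _ => Finset.sum_congr rfl fun l _ => ?_
    have e2 : II (deg k) (dB e f l) z = ∑ a, ∑ m, e a l m * Y a m := by
      have hca : ∀ a m, ContinuousOn (fun w => e a l m * dbj a (f m) w) U := fun a m =>
        continuousOn_const.mul (contDiffOn_dbj hU (hf m) a).continuousOn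
      have e3 : dB e f l = fun w => ∑ a, ∑ m, e a l m * dbj a (f m) w := rfl
      rw [e3, II_sum hS (deg k) _ (fun a w => ∑ m, e a l m * dbj a (f m) w)
        (fun a _ => continuousOn_finsetSum _ fun m _ => hca a m) hz]
      refine Finset.sum_congr rfl fun a _ => ?_
      rw [II_sum hS (deg k) _ (fun m w => e a l m * dbj a (f m) w) (fun m _ => hca a m) hz]
      refine Finset.sum_congr rfl fun m _ => ?_
      rw [II_const_mul]
    rw [e2, Finset.mul_sum]
    refine Finset.sum_congr rfl fun a _ => ?_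
    rw [Finset.mul_sum]
    refine Finset.sum_congr rfl fun m _ => ?_
    ring
  -- number operator
  have h3 : ∑ a, ∑ l, ∑ j, ∑ m, e a k l * io j l m * ((if a = j then 1 else 0) * X m) =
      deg k * X k := by
    have e3 : ∀ a l, ∑ j, ∑ m, e a k l * io j l m * ((if a = j then 1 else 0) * X m) =
        ∑ m, e a k l * io a l m * X m := by
      intro a l
      rw [Finset.sum_eq_single a]
      · refine Finset.sum_congr rfl fun m _ => ?_
        rw [if_pos rfl, one_mul]
      · intro j _ hj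
        refine Finset.sum_eq_zero fun m _ => ?_
        rw [if_neg (Ne.symm hj), zero_mul, mul_zero]
      · intro h; exact (h (Finset.mem_univ _)).elim
    simp only [e3]
    have e4 : ∑ a, ∑ l, ∑ m, e a k l * io a l m * X m = ∑ m, (∑ a, e a * io a) k m * X m := by
      have e5 : ∀ m, (∑ a, e a * io a) k m = ∑ a, ∑ l, e a k l * io a l m := by
        intro m
        rw [Matrix.sum_apply]
        refine Finset.sum_congr rfl fun a _ => ?_
        rw [Matrix.mul_apply]
      have e6 : ∀ a, ∑ l, ∑ m, e a k l * io a l m * X m = ∑ m, ∑ l, e a k l * io a l m * X m :=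
        fun a => Finset.sum_comm
      simp only [e6]
      rw [Finset.sum_comm]
      refine Finset.sum_congr rfl fun m _ => ?_
      rw [e5, Finset.sum_mul]
      refine Finset.sum_congr rfl fun a _ => ?_
      rw [Finset.sum_mul]
    rw [e4]
    simp only [num]
    rw [Finset.sum_eq_single k]
    · rw [if_pos rfl]
    · intro m _ hm
      rw [if_neg (Ne.symm hm), zero_mul]
    · intro h; exact (h (Finset.mem_univ _)).elim
  -- anticommutator
  have h4 : ∑ a, ∑ l, ∑ j, ∑ m, e a k l * io j l m * (conj (z j) * Y a m) +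
      ∑ j, ∑ l, ∑ a, ∑ m, conj (z j) * io j k l * e a l m * Y a m =
      ∑ j, conj (z j) * Y j k := by
    have e5 : ∑ a, ∑ l, ∑ j, ∑ m, e a k l * io j l m * (conj (z j) * Y a m) =
        ∑ j, ∑ a, ∑ m, conj (z j) * Y a m * (e a * io j) k m := by
      have e6 : ∀ a, ∑ l, ∑ j, ∑ m, e a k l * io j l m * (conj (z j) * Y a m) =
          ∑ j, ∑ m, conj (z j) * Y a m * (e a * io j) k m := by
        intro a
        rw [Finset.sum_comm]
        refine Finset.sum_congr rfl fun j _ => ?_
        rw [Finset.sum_comm]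
        refine Finset.sum_congr rfl fun m _ => ?_
        rw [Matrix.mul_apply, Finset.mul_sum]
        refine Finset.sum_congr rfl fun l _ => ?_
        ring
      simp only [e6]
      rw [Finset.sum_comm]
    have e7 : ∑ j, ∑ l, ∑ a, ∑ m, conj (z j) * io j k l * e a l m * Y a m =
        ∑ j, ∑ a, ∑ m, conj (z j) * Y a m * (io j * e a) k m := by
      refine Finset.sum_congr rfl fun j _ => ?_
      rw [Finset.sum_comm]
      refine Finset.sum_congr rfl fun a _ => ?_
      rw [Finset.sum_comm]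
      refine Finset.sum_congr rfl fun m _ => ?_
      rw [Matrix.mul_apply, Finset.mul_sum]
      refine Finset.sum_congr rfl fun l _ => ?_
      ring
    rw [e5, e7, ← Finset.sum_add_distrib]
    refine Finset.sum_congr rfl fun j _ => ?_
    rw [← Finset.sum_add_distrib, Finset.sum_eq_single j]
    · rw [← Finset.sum_add_distrib, Finset.sum_eq_single k]
      · rw [← mul_add, ← Matrix.add_apply, ei, if_pos rfl, Matrix.one_apply_eq, mul_one]
      · intro m _ hm
        rw [← mul_add, ← Matrix.add_apply, ei, if_pos rfl, Matrix.one_apply_ne (Ne.symm hm),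
          mul_zero]
      · intro h; exact (h (Finset.mem_univ _)).elim
    · intro a _ ha
      rw [← Finset.sum_add_distrib]
      refine Finset.sum_eq_zero fun m _ => ?_
      rw [← mul_add, ← Matrix.add_apply, ei, if_neg ha, Matrix.zero_apply, mul_zero]
    · intro h; exact (h (Finset.mem_univ _)).elim
  have h5 := ftc hU hS (deg k) (hf k) hz
  have h6 : dB e (Kh io deg f) k z + Kh io deg (dB e f) k z = deg k * X k +
      ∑ j, conj (z j) * Y j k := by
    rw [h1, h2, ← h4, ← h3]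
    simp only [mul_add, Finset.sum_add_distrib]
    ring
  rw [h6]
  rw [Finset.sum_add_distrib] at h5
  simp only [hX, hY]
  linear_combination -h5

/-- `K` preserves the ideal `(z₁, …, zₙ)` -/
theorem Kh_ideal {U : Set (Cn n)} (hS : Star U) {h : κ → Cn n → ℂ}
    {g : Fin n → κ → Cn n → ℂ} (hg : ∀ b l, ContinuousOn (g b l) U)
    (hh : ∀ l, ∀ z ∈ U, h l z = ∑ b, z b * g b l z) (k : κ) {z : Cn n} (hz : z ∈ U) :
    Kh io deg h k z = ∑ b, z b *
      ∑ j, ∑ l, conj (z j) * io j k l * II (deg k + 1) (g b l) z := by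
  have hcb : ∀ b : Fin n, ContinuousOn (fun w : Cn n => w b) U := fun b =>
    (EuclideanSpace.proj b : Cn n →L[ℂ] ℂ).continuous.continuousOn
  have e1 : ∀ l, II (deg k) (h l) z = ∑ b, z b * II (deg k + 1) (g b l) z := by
    intro l
    rw [II_congr hS (deg k) (hh l) hz,
      II_sum hS (deg k) _ (fun b w => w b * g b l w) (fun b _ => (hcb b).mul (hg b l)) hz]
    exact Finset.sum_congr rfl fun b _ => II_coord_mul _ _ _ _
  unfold Kh
  simp only [e1, Finset.mul_sum]
  have e2 : ∀ j, ∑ l, ∑ b, conj (z j) * io j k l * (z b * II (deg k + 1) (g b l) z) =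
      ∑ b, ∑ l, z b * (conj (z j) * io j k l * II (deg k + 1) (g b l) z) := by
    intro j
    rw [Finset.sum_comm]
    exact Finset.sum_congr rfl fun b _ => Finset.sum_congr rfl fun l _ => by ring
  simp only [e2]
  rw [Finset.sum_comm]

/-- **local acyclicity** of `Ω^{0,*} / (z₁, …, zₙ)` at a point, radial form. -/
theorem local_acyclic (e_deg : ∀ a k l, e a k l ≠ 0 → deg k = deg l + 1)
    (ei : ∀ a b, e a * io b + io b * e a = if a = b then 1 else 0)
    (num : ∀ k l, (∑ a, e a * io a) k l = if k = l then (deg k : ℂ) else 0)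
    {U : Set (Cn n)} (hU : IsOpen U) (hS : Star U) {f : κ → Cn n → ℂ}
    (hf : ∀ l, ContDiffOn ℝ ∞ (f l) U) {g : Fin n → κ → Cn n → ℂ}
    (hg : ∀ b l, ContDiffOn ℝ ∞ (g b l) U)
    (hd : ∀ l, ∀ z ∈ U, dB e f l z = ∑ b, z b * g b l z) :
    ∃ (h : κ → Cn n → ℂ) (w : Fin n → κ → Cn n → ℂ), (∀ k, ContDiffOn ℝ ∞ (h k) U) ∧
      (∀ b k, ContDiffOn ℝ ∞ (w b k) U) ∧ ∀ k, ∀ z ∈ U,
        f k z - (if deg k = 0 then f k 0 else 0) - dB e h k z = ∑ b, z b * w b k z := by
  refine ⟨Kh io deg f, fun b k z => II (deg k) (dzj b (f k)) z +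
    ∑ j, ∑ l, conj (z j) * io j k l * II (deg k + 1) (g b l) z,
    contDiffOn_Kh io deg hU hS hf, fun b k => ?_, fun k z hz => ?_⟩
  · refine (contDiffOn_II hU hS _ (contDiffOn_dzj hU (hf k) b)).add ?_
    exact ContDiffOn.sum fun j _ => ContDiffOn.sum fun l _ =>
      ((contDiff_conj_coord j).contDiffOn.mul contDiffOn_const).mul
        (contDiffOn_II hU hS _ (hg b l))
  · have h1 := homotopy e io deg e_deg ei num hU hS hf k hz
    have h2 := Kh_ideal io deg hS (fun b l => (hg b l).continuousOn) hd k hz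
    have h3 : ∑ b, z b * (II (deg k) (dzj b (f k)) z +
        ∑ j, ∑ l, conj (z j) * io j k l * II (deg k + 1) (g b l) z) =
        ∑ b, z b * II (deg k) (dzj b (f k)) z + ∑ b, z b *
          ∑ j, ∑ l, conj (z j) * io j k l * II (deg k + 1) (g b l) z := by
      rw [← Finset.sum_add_distrib]
      exact Finset.sum_congr rfl fun b _ => mul_add _ _ _
    rw [h3, ← h2]
    linear_combination -h1

end fock

end

end Crest.Agent.R275.LnkP1476
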