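import Crest.Agent.R275.LnkP1_476
import Crest.Agent.R275.SmR_425
import Crest.Agent.R275.QN2b_734

/-!
R275, block LINK, leaf D4 (helper476), part 2: the ideal `I_p` of a point of a complex manifold
(functions which near `p` are in `(z₁, …, zₙ) C^∞`), the submodule `I_p • Sec B`, and the acyclicity
of the quotient `Sec B / I_p • Sec B` away from the constants.
-/

set_option autoImplicit false
set_option linter.unusedSectionVars false

open Set Filter Topology Complex
open scoped ContDiff ComplexConjugate Matrix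
open Crest.Agent.R275.Geo Crest.Agent.R275.SmR425 Crest.Agent.R275.Smf798
open Crest.Agent.R275.LnkP1476

namespace Crest.Agent.R275.LnkP2476

noncomputable section

variable {n : ℕ} {M : Type} [TopologicalSpace M] {A : Atl n M}

/-! ### the local condition -/

/-- near `c`, `F` is in the ideal generated by the coordinates centred at `c` -/
def IdAt (c : Cn n) (F : Cn n → ℂ) : Prop :=
  ∃ r > 0, ∃ g : Fin n → Cn n → ℂ, (∀ b, ContDiffOn ℝ ∞ (g b) (Metric.ball c r)) ∧
    ∀ z ∈ Metric.ball c r, F z = ∑ b, (z b - c b) * g b z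

theorem IdAt.congr {c : Cn n} {F G : Cn n → ℂ} (h : IdAt c F) (e : F =ᶠ[𝓝 c] G) : IdAt c G := by
  obtain ⟨r, hr, g, hg, hF⟩ := h
  obtain ⟨r', hr', he⟩ := Metric.eventually_nhds_iff_ball.1 e
  refine ⟨min r r', lt_min hr hr', g, fun b => (hg b).mono
    (Metric.ball_subset_ball (min_le_left _ _)), fun z hz => ?_⟩
  rw [← he z (Metric.ball_subset_ball (min_le_right _ _) hz)]
  exact hF z (Metric.ball_subset_ball (min_le_left _ _) hz)

theorem idAt_zero (c : Cn n) : IdAt c (fun _ => 0) :=
  ⟨1, one_pos, fun _ _ => 0, fun _ => contDiffOn_const, fun z _ => by simp⟩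

theorem IdAt.add {c : Cn n} {F G : Cn n → ℂ} (h : IdAt c F) (h' : IdAt c G) :
    IdAt c (fun z => F z + G z) := by
  obtain ⟨r, hr, g, hg, hF⟩ := h
  obtain ⟨r', hr', g', hg', hG⟩ := h'
  refine ⟨min r r', lt_min hr hr', fun b z => g b z + g' b z, fun b => ContDiffOn.add
    ((hg b).mono (Metric.ball_subset_ball (min_le_left _ _)))
    ((hg' b).mono (Metric.ball_subset_ball (min_le_right _ _))), fun z hz => ?_⟩
  show F z + G z = ∑ b, (z b - c b) * (g b z + g' b z)
  rw [hF z (Metric.ball_subset_ball (min_le_left _ _) hz),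
    hG z (Metric.ball_subset_ball (min_le_right _ _) hz), ← Finset.sum_add_distrib]
  exact Finset.sum_congr rfl fun b _ => (mul_add _ _ _).symm

theorem IdAt.mul {c : Cn n} {F G : Cn n → ℂ} (h : IdAt c F) {r' : ℝ} (hr' : 0 < r')
    (hG : ContDiffOn ℝ ∞ G (Metric.ball c r')) : IdAt c (fun z => G z * F z) := by
  obtain ⟨r, hr, g, hg, hF⟩ := h
  refine ⟨min r r', lt_min hr hr', fun b z => G z * g b z, fun b => ContDiffOn.mul
    (hG.mono (Metric.ball_subset_ball (min_le_right _ _)))
    ((hg b).mono (Metric.ball_subset_ball (min_le_left _ _))), fun z hz => ?_⟩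
  show G z * F z = ∑ b, (z b - c b) * (G z * g b z)
  rw [hF z (Metric.ball_subset_ball (min_le_left _ _) hz), Finset.mul_sum]
  exact Finset.sum_congr rfl fun b _ => by ring

theorem IdAt.sum {ι : Type*} {c : Cn n} (t : Finset ι) {F : ι → Cn n → ℂ}
    (h : ∀ i ∈ t, IdAt c (F i)) : IdAt c (fun z => ∑ i ∈ t, F i z) := by
  classical
  induction t using Finset.induction_on with
  | empty => simpa using idAt_zero c
  | insert i t hi ih =>
    have h1 := (h i (Finset.mem_insert_self i t)).add
      (ih fun l hl => h l (Finset.mem_insert_of_mem hl))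
    refine h1.congr (Eventually.of_forall fun z => ?_)
    show F i z + ∑ l ∈ t, F l z = ∑ l ∈ insert i t, F l z
    rw [Finset.sum_insert hi]

theorem IdAt.apply_self {c : Cn n} {F : Cn n → ℂ} (h : IdAt c F) : F c = 0 := by
  obtain ⟨r, hr, g, hg, hF⟩ := h
  rw [hF c (Metric.mem_ball_self hr)]
  simp

/-- common data for a finite family -/
theorem IdAt.family {κ : Type*} [Fintype κ] {c : Cn n} {F : κ → Cn n → ℂ}
    (h : ∀ k, IdAt c (F k)) {R : ℝ} (hR : 0 < R) : ∃ r > 0, r ≤ R ∧ ∃ g : Fin n → κ → Cn n → ℂ,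
      (∀ b k, ContDiffOn ℝ ∞ (g b k) (Metric.ball c r)) ∧
      ∀ k, ∀ z ∈ Metric.ball c r, F k z = ∑ b, (z b - c b) * g b k z := by
  classical
  choose r hr g hg hF using h
  have hne : (insert R (Finset.univ.image r)).Nonempty := Finset.insert_nonempty _ _
  set ρ := (insert R (Finset.univ.image r)).min' hne with hρ
  have h1 : ρ ≤ R := Finset.min'_le _ _ (Finset.mem_insert_self _ _)
  have h2 : ∀ k, ρ ≤ r k := fun k => Finset.min'_le _ _
    (Finset.mem_insert_of_mem (Finset.mem_image_of_mem _ (Finset.mem_univ k)))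
  have h3 : 0 < ρ := by
    rw [hρ, Finset.lt_min'_iff]
    intro x hx
    rcases Finset.mem_insert.1 hx with h | h
    · rwa [h]
    · obtain ⟨k, -, rfl⟩ := Finset.mem_image.1 h
      exact hr k
  exact ⟨ρ, h3, h1, fun b k => g k b,
    fun b k => (hg k b).mono (Metric.ball_subset_ball (h2 k)),
    fun k z hz => hF k z (Metric.ball_subset_ball (h2 k) hz)⟩

/-! ### the ideal -/

section ideal

variable {p : M} {i : A.ι}

/-- the local condition for functions on `M`, read in the chart `i` -/
def InI (A : Atl n M) (i : A.ι) (p : M) (f : M → ℂ) : Prop :=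
  IdAt (A.e i p) (fun z => f ((A.e i).symm z))

theorem tendsto_symm (hp : p ∈ (A.e i).source) : Tendsto (A.e i).symm (𝓝 (A.e i p)) (𝓝 p) := by
  have := ((A.e i).continuousAt_symm ((A.e i).map_source hp)).tendsto
  rwa [(A.e i).left_inv hp] at this

theorem InI.congr (hp : p ∈ (A.e i).source) {f g : M → ℂ} (h : InI A i p f)
    (e : f =ᶠ[𝓝 p] g) : InI A i p g :=
  IdAt.congr h ((tendsto_symm hp).eventually e)

theorem InI.mul_smAt (hp : p ∈ (A.e i).source) {f g : M → ℂ} (h : InI A i p f)
    (hg : A.SmAt i g) : InI A i p (fun x => g x * f x) := by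
  obtain ⟨r, hr, hb⟩ := Metric.isOpen_iff.1 (A.e i).open_target (A.e i p) ((A.e i).map_source hp)
  exact IdAt.mul h hr (hg.mono hb)

theorem InI.of_eventually_zero (hp : p ∈ (A.e i).source) {f : M → ℂ} (h : ∀ᶠ x in 𝓝 p, f x = 0) :
    InI A i p f :=
  (idAt_zero (A.e i p)).congr (by
    filter_upwards [(tendsto_symm hp).eventually h] with z hz using hz.symm)

theorem InI.apply_self (hp : p ∈ (A.e i).source) {f : M → ℂ} (h : InI A i p f) : f p = 0 := by
  have := IdAt.apply_self h
  rwa [(A.e i).left_inv hp] at this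

/-- the ideal of the point `p` -/
def Ip (A : Atl n M) (i : A.ι) (p : M) (hp : p ∈ (A.e i).source) : Ideal (smf A) where
  carrier := {f | InI A i p f.1}
  add_mem' := by
    intro f g hf hg
    exact IdAt.add hf hg
  zero_mem' := idAt_zero _
  smul_mem' := by
    intro c f hf
    exact InI.mul_smAt hp hf (c.2 i)

theorem mem_Ip {hp : p ∈ (A.e i).source} {f : smf A} : f ∈ Ip A i p hp ↔ InI A i p f.1 := Iff.rfl

variable {B : FBun A} [T2Space M]

/-- a bump function in the ring -/
theorem exists_chi (hp : p ∈ (A.e i).source) {N : Set M} (hN : N ∈ 𝓝 p) :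
    ∃ χ : M → ℝ, A.Sm χ ∧ (∀ᶠ x in 𝓝 p, χ x = 1) ∧ tsupport χ ⊆ N ∧ tsupport χ ⊆ (A.e i).source := by
  obtain ⟨χ, h1, -, h3, -, h5⟩ := QN2b734.exists_bump_point A
    (Filter.inter_mem hN ((A.e i).open_source.mem_nhds hp))
  exact ⟨χ, QN2b734.sm_iff.2 h1, h3, h5.trans inter_subset_left, h5.trans inter_subset_right⟩

/-- **`I_p • Sec B` is described by the local condition.** -/
theorem mem_smul_top_iff (hp : p ∈ (A.e i).source) (u : Sec B) :
    u ∈ (Ip A i p hp • (⊤ : Submodule (smf A) (Sec B))) ↔
      ∀ k, InI A i p (fun x => u.1 i x k) := by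
  constructor
  · intro h k
    refine Submodule.smul_induction_on (p := fun u => InI A i p (fun x => u.1 i x k)) h ?_ ?_
    · intro f hf v _
      have h1 : InI A i p (fun x => v.1 i x k * f.1 x) := InI.mul_smAt hp hf (v.2.1 i k)
      refine h1.congr hp (Eventually.of_forall fun x => ?_)
      simp only [sec_smul_apply, Pi.smul_apply, smul_eq_mul]
      ring
    · intro v w hv hw
      exact IdAt.add hv hw
  · intro h
    obtain ⟨χ, hχ, hχ1, -, hχs⟩ := exists_chi (A := A) hp (N := univ) univ_mem
    -- the function `χ²` in the ring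
    have hχc : A.Sm (fun x => (χ x : ℂ)) := sm_ofReal hχ
    let X : smf A := ⟨fun x => (χ x : ℂ), hχc⟩
    have hu : u = (1 - X * X) • u + ∑ k, (coef i χ hχ hχs k u) • frame B i χ hχ hχs k := by
      refine sec_ext fun j x => ?_
      rw [sec_add_apply, sec_smul_apply, sec_sum_apply]
      have e1 : ∑ k, ((coef i χ hχ hχs k u) • frame B i χ hχ hχs k : Sec B).1 j x =
          ((X * X : smf A).1 x) • u.1 j x := by
        funext l
        rw [Finset.sum_apply]
        by_cases hj : x ∈ (A.e j).source
        · by_cases hi : x ∈ (A.e i).source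
          · have e2 : ∀ k, ((coef i χ hχ hχs k u) • frame B i χ hχ hχs k : Sec B).1 j x l =
                ((χ x : ℂ) * u.1 i x k) * ((χ x : ℂ) * B.τ j i x l k) := by
              intro k
              rw [sec_smul_apply, Pi.smul_apply, frame_apply B i χ hχ hχs k hj hi, coef_apply]
              rfl
            simp only [e2]
            have e3 : u.1 j x l = ∑ k, B.τ j i x l k * u.1 i x k :=
              congrFun (Sec.tr B u.2 ⟨hj, hi⟩) l
            rw [Pi.smul_apply, e3, coe_mul, smul_eq_mul, Finset.mul_sum]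
            refine Finset.sum_congr rfl fun k _ => ?_
            simp only [X]
            ring
          · have h0 : χ x = 0 := image_eq_zero_of_notMem_tsupport fun h => hi (hχs h)
            rw [Pi.smul_apply, coe_mul]
            simp only [X, h0, ofReal_zero, mul_zero, zero_smul]
            refine Finset.sum_eq_zero fun k _ => ?_
            rw [sec_smul_apply, Pi.smul_apply, frame_apply_of_notMem B i χ hχ hχs k hi, smul_zero]
        · have e4 : ∀ v : Sec B, v.1 j x l = 0 := fun v => by
            rw [Sec.off B v.2 hj]; rfl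
          rw [Pi.smul_apply, e4, smul_zero]
          exact Finset.sum_eq_zero fun k _ => e4 _
      rw [e1, coe_sub, coe_one, sub_smul, one_smul]
      abel
    rw [hu]
    refine Submodule.add_mem _ (Submodule.smul_mem_smul ?_ trivial)
      (Submodule.sum_mem _ fun k _ => Submodule.smul_mem_smul ?_ trivial)
    · refine InI.of_eventually_zero hp ?_
      filter_upwards [hχ1] with x hx
      rw [coe_sub, coe_mul, coe_one]
      simp [X, hx]
    · exact InI.mul_smAt hp (h k) (g := fun x => (χ x : ℂ)) (hχc i)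

end ideal

/-! ### extension of local sections -/

section extend

variable {p : M} {i : A.ι} {B : FBun A} [T2Space M]

theorem exists_ext (hp : p ∈ (A.e i).source) {r : ℝ} (hr : 0 < r) {h : B.κ → Cn n → ℂ}
    (hh : ∀ k, ContDiffOn ℝ ∞ (h k) (Metric.ball (A.e i p) r)) :
    ∃ v : Sec B, ∀ᶠ x in 𝓝 p, ∀ k, v.1 i x k = h k (A.e i x) := by
  classical
  set N : Set M := (A.e i).source ∩ (A.e i) ⁻¹' (Metric.ball (A.e i p) r) with hN
  have hNp : N ∈ 𝓝 p := Filter.inter_mem ((A.e i).open_source.mem_nhds hp)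
    (((A.e i).continuousAt hp) (Metric.ball_mem_nhds _ hr))
  obtain ⟨χ, hχ, hχ1, hχN, hχs⟩ := exists_chi (A := A) hp hNp
  -- the coefficients
  have hG : ∀ k, A.Sm (fun x => if x ∈ (A.e i).source then (χ x : ℂ) * h k (A.e i x) else 0) := by
    intro k
    refine sm_of_smAt (W := ℂ) (i := i) ?_ ?_
    · intro z hz
      refine ContDiffAt.contDiffWithinAt ?_
      by_cases hzb : z ∈ Metric.ball (A.e i p) r
      · have h1 : ContDiffAt ℝ ∞ (fun w => (χ ((A.e i).symm w) : ℂ) * h k w) z := by
          refine ContDiffAt.mul ?_ ((hh k).contDiffAt (Metric.isOpen_ball.mem_nhds hzb))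
          exact (Complex.ofRealCLM.contDiff.contDiffAt).comp z
            ((hχ i).contDiffAt ((A.e i).open_target.mem_nhds hz))
        refine h1.congr_of_eventuallyEq ?_
        filter_upwards [(A.e i).open_target.mem_nhds hz] with w hw
        rw [if_pos ((A.e i).map_target hw), (A.e i).right_inv hw]
      · have h0 : ∀ᶠ y in 𝓝 ((A.e i).symm z), χ y = 0 := by
          have hnot : (A.e i).symm z ∉ tsupport χ := by
            intro hmem
            have := (hχN hmem).2
            rw [mem_preimage, (A.e i).right_inv hz] at this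
            exact hzb this
          filter_upwards [(isClosed_tsupport χ).isOpen_compl.mem_nhds hnot] with y hy
          exact image_eq_zero_of_notMem_tsupport hy
        have h1 : Tendsto (A.e i).symm (𝓝 z) (𝓝 ((A.e i).symm z)) :=
          (A.e i).symm.continuousAt hz
        refine (contDiffAt_const (c := (0 : ℂ))).congr_of_eventuallyEq ?_
        filter_upwards [h1.eventually h0] with w hw
        rw [hw]; simp
    · refine (closure_mono ?_).trans hχs
      intro x hx
      rw [Function.mem_support] at hx ⊢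
      intro h0
      apply hx
      simp [h0]
  let G : B.κ → smf A := fun k =>
    ⟨fun x => if x ∈ (A.e i).source then (χ x : ℂ) * h k (A.e i x) else 0, hG k⟩
  refine ⟨∑ k, G k • frame B i χ hχ hχs k, ?_⟩
  filter_upwards [hχ1, (A.e i).open_source.mem_nhds hp] with x hx hxs k
  rw [sec_sum_apply, Finset.sum_apply, Finset.sum_eq_single k]
  · rw [sec_smul_apply, Pi.smul_apply, frame_apply B i χ hχ hχs k hxs hxs, B.τ_self i x hxs]
    have e1 : (G k).1 x = (χ x : ℂ) * h k (A.e i x) := if_pos hxs
    rw [e1, hx, Matrix.one_apply_eq, smul_eq_mul]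
    simp
  · intro l _ hl
    rw [sec_smul_apply, Pi.smul_apply, frame_apply B i χ hχ hχs l hxs hxs, B.τ_self i x hxs,
      Matrix.one_apply_ne (Ne.symm hl), mul_zero, smul_zero]
  · intro h; exact (h (Finset.mem_univ _)).elim

end extend

/-! ### acyclicity -/

section acyclic

variable {p : M} {i : A.ι} {B : FBun A}

theorem nab_comp (hα : ∀ x ∈ (A.e i).source, B.α i x = 0) (u : Sec B) {x : M}
    (hx : x ∈ (A.e i).source) (k : B.κ) :
    nab B u.1 i x k = ∑ a, ∑ l, B.e a k l *
      dbj a (fun z => u.1 i ((A.e i).symm z) l) (A.e i x) := by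
  rw [nab_apply B hx, hα x hx, Matrix.zero_mulVec, add_zero, Finset.sum_apply]
  refine Finset.sum_congr rfl fun a _ => ?_
  rw [Matrix.mulVec, dotProduct]
  refine Finset.sum_congr rfl fun l _ => ?_
  rw [Atl.db_pi (u.2.1 i) hx a l]
  rfl

theorem dbj_translate (c : Cn n) (F : Cn n → ℂ) (a : Fin n) (w : Cn n) :
    dbj a (fun y => F (c + y)) w = dbj a F (c + w) := by
  have h : fderiv ℝ (fun y => F (c + y)) w = fderiv ℝ F (c + w) := fderiv_comp_add_left c
  simp only [dbj, h]

theorem acyclic [T2Space M] (hp : p ∈ (A.e i).source)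
    (hα : ∀ x ∈ (A.e i).source, B.α i x = 0)
    (num : ∀ k l, (∑ a, B.e a * B.io a) k l = if k = l then (B.deg k : ℂ) else 0)
    (u : Sec B) (hu : ∀ k, InI A i p (fun x => nab B u.1 i x k)) :
    ∃ v : Sec B, ∀ k, InI A i p (fun x => u.1 i x k -
      (if B.deg k = 0 then u.1 i p k else 0) - nab B v.1 i x k) := by
  classical
  set c : Cn n := A.e i p with hc
  obtain ⟨R, hR, hRt⟩ := Metric.isOpen_iff.1 (A.e i).open_target c ((A.e i).map_source hp)
  obtain ⟨r, hr, hrR, g, hg, hgu⟩ := IdAt.family hu hR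
  have hrt : Metric.ball c r ⊆ (A.e i).target := (Metric.ball_subset_ball hrR).trans hRt
  set U : Set (Cn n) := Metric.ball (0 : Cn n) r with hU
  have htr : ∀ w ∈ U, c + w ∈ Metric.ball c r := by
    intro w hw
    rw [mem_ball_iff_norm, add_sub_cancel_left]
    exact mem_ball_zero_iff.1 hw
  have hcd : ContDiff ℝ ∞ (fun w : Cn n => c + w) := contDiff_const.add contDiff_id
  let f : B.κ → Cn n → ℂ := fun l w => u.1 i ((A.e i).symm (c + w)) l
  have hf : ∀ l, ContDiffOn ℝ ∞ (f l) U := fun l =>
    ((u.2.1 i l).mono hrt).comp hcd.contDiffOn htr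
  let g' : Fin n → B.κ → Cn n → ℂ := fun b l w => g b l (c + w)
  have hg' : ∀ b l, ContDiffOn ℝ ∞ (g' b l) U := fun b l => (hg b l).comp hcd.contDiffOn htr
  have hd : ∀ l, ∀ w ∈ U, dB B.e f l w = ∑ b, w b * g' b l w := by
    intro l w hw
    have h1 : nab B u.1 i ((A.e i).symm (c + w)) l = _ := hgu l (c + w) (htr w hw)
    have hxs : (A.e i).symm (c + w) ∈ (A.e i).source := (A.e i).map_target (hrt (htr w hw))
    rw [nab_comp hα u hxs, (A.e i).right_inv (hrt (htr w hw))] at h1
    unfold dB
    have h2 : ∀ a m, dbj a (f m) w = dbj a (fun z => u.1 i ((A.e i).symm z) m) (c + w) :=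
      fun a m => dbj_translate c (fun z => u.1 i ((A.e i).symm z) m) a w
    simp only [h2]
    rw [h1]
    refine Finset.sum_congr rfl fun b _ => ?_
    have h3 : (c + w) b - c b = w b := by
      rw [PiLp.add_apply, add_sub_cancel_left]
    rw [h3]
  obtain ⟨h, w, hh, hw, hfin⟩ := local_acyclic B.e B.io B.deg B.e_deg B.ei num
    Metric.isOpen_ball (star_ball r) hf hg' hd
  -- extension of `h`
  have hback : ∀ z ∈ Metric.ball c r, z - c ∈ U := by
    intro z hz
    rw [hU, mem_ball_zero_iff]
    exact mem_ball_iff_norm.1 hz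
  have hcs : ContDiff ℝ ∞ (fun z : Cn n => z - c) := contDiff_id.sub contDiff_const
  obtain ⟨v, hv⟩ := exists_ext (B := B) hp hr (h := fun k z => h k (z - c))
    (fun k => (hh k).comp hcs.contDiffOn hback)
  refine ⟨v, fun k => ?_⟩
  -- compare near `p`
  have hvn : ∀ᶠ z in 𝓝 c, ∀ l, v.1 i ((A.e i).symm z) l = h l (z - c) := by
    have h1 := (tendsto_symm hp).eventually hv
    filter_upwards [h1, (A.e i).open_target.mem_nhds ((A.e i).map_source hp)] with z hz hzt l
    rw [hz l, (A.e i).right_inv hzt]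
  have hvn' : ∀ᶠ z in 𝓝 c, ∀ᶠ z' in 𝓝 z, ∀ l, v.1 i ((A.e i).symm z') l = h l (z' - c) :=
    hvn.eventually_nhds
  have hbase : IdAt c (fun z => ∑ b, (z b - c b) * w b k (z - c)) :=
    ⟨r, hr, fun b z => w b k (z - c), fun b => (hw b k).comp hcs.contDiffOn hback, fun z _ => rfl⟩
  refine hbase.congr ?_
  filter_upwards [hvn', Metric.ball_mem_nhds c hr] with z hz hzb
  have hzt := hrt hzb
  have hxs : (A.e i).symm z ∈ (A.e i).source := (A.e i).map_target hzt
  have h1 := hfin k (z - c) (hback z hzb)
  have h2 : f k (z - c) = u.1 i ((A.e i).symm z) k := by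
    simp only [f]
    rw [add_sub_cancel]
  have h3 : f k 0 = u.1 i p k := by
    simp only [f]
    rw [add_zero, hc, (A.e i).left_inv hp]
  have h4 : dB B.e h k (z - c) = nab B v.1 i ((A.e i).symm z) k := by
    rw [nab_comp hα v hxs, (A.e i).right_inv hzt]
    unfold dB
    refine Finset.sum_congr rfl fun a _ => Finset.sum_congr rfl fun l _ => ?_
    congr 1
    have h5 : dbj a (fun z => v.1 i ((A.e i).symm z) l) z = dbj a (fun z => h l (z - c)) z :=
      dbj_congr (by filter_upwards [hz] with z' hz' using hz' l) a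
    rw [h5]
    have h6 := dbj_translate (-c) (h l) a z
    have h7 : (fun y => h l (-c + y)) = fun z => h l (z - c) := by
      funext y; rw [neg_add_eq_sub]
    rw [h7, neg_add_eq_sub] at h6
    exact h6.symm
  rw [h2, h3, h4] at h1
  show ∑ b, (z b - c b) * w b k (z - c) = _
  have h8 : ∀ b, (z - c) b = z b - c b := fun b => rfl
  simp only [h8] at h1
  exact h1.symm

end acyclic

end

end Crest.Agent.R275.LnkP2476
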