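import Crest.Agent.R275.LnkP2_476
import Crest.Agent.R275.NA7_763
import Crest.Agent.R275.Lam2_130

/-!
R275, block LINK, leaf D4 (helper476), part 3: supertraces.

* `sub`, `quot`, `ses`: sub- and quotient supercomplexes of a stable submodule (any field);
* `sub_st`: for the complex `S` of smooth sections of a Dolbeault bundle with `α = 0`, number operator
  `= deg` and a unique vacuum, the subcomplex `F = I_p • Sec B` satisfies `F.st = S.st - 1`;
* `lam2` satisfies the hypotheses.
-/

set_option autoImplicit false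
set_option linter.unusedSectionVars false

open Set Filter Topology Complex
open scoped ContDiff ComplexConjugate Matrix
open Crest.Agent.R275.Geo Crest.Agent.R275.SmR425 Crest.Agent.R275.Smf798
open Crest.Agent.R275.LnkP1476 Crest.Agent.R275.LnkP2476 Crest.Agent.R275.NA7763

namespace Crest.Agent.R275.LnkP3476

noncomputable section

/-! ### sub- and quotient complexes -/

section subquot

variable {k : Type*} [Field k] {V : Type*} [AddCommGroup V] [Module k V] (S : SC k V)
  (F : Submodule k V) (hd : ∀ x ∈ F, S.d x ∈ F) (hT : ∀ x ∈ F, S.T x ∈ F)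

/-- the subcomplex -/
def sub : SC k F where
  d := S.d.restrict hd
  T := S.T.restrict hT
  dd x := Subtype.ext (S.dd x)
  dT x := Subtype.ext (S.dT x)

/-- the quotient complex -/
def quot : SC k (V ⧸ F) where
  d := F.mapQ F S.d hd
  T := F.mapQ F S.T hT
  dd x := by
    obtain ⟨x, rfl⟩ := F.mkQ_surjective x
    show F.mkQ (S.d (S.d x)) = 0
    rw [S.dd, map_zero]
  dT x := by
    obtain ⟨x, rfl⟩ := F.mkQ_surjective x
    show F.mkQ (S.d (S.T x)) = - F.mkQ (S.T (S.d x))
    rw [S.dT, map_neg]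

theorem quot_d (x : V) : (quot S F hd hT).d (F.mkQ x) = F.mkQ (S.d x) := rfl
theorem quot_T (x : V) : (quot S F hd hT).T (F.mkQ x) = F.mkQ (S.T x) := rfl

/-- the short exact sequence -/
def ses : SC.SES (sub S F hd hT) S (quot S F hd hT) where
  i := { f := F.subtype, d := fun _ => rfl, T := fun _ => rfl }
  p := { f := F.mkQ, d := fun _ => rfl, T := fun _ => rfl }
  inj := Subtype.val_injective
  surj := F.mkQ_surjective
  exact y hy := ⟨⟨y, (Submodule.Quotient.mk_eq_zero F).1 hy⟩, rfl⟩
  zero x := (Submodule.Quotient.mk_eq_zero F).2 x.2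

/-- the one-dimensional complex -/
def pt (k : Type*) [Field k] : SC k k where
  d := 0
  T := LinearMap.id
  dd _ := rfl
  dT _ := by simp

instance : FiniteDimensional k (pt k).H :=
  inferInstanceAs (FiniteDimensional k
    (LinearMap.ker (pt k).d ⧸ (LinearMap.range (pt k).d).submoduleOf (LinearMap.ker (pt k).d)))

theorem pt_st : (pt k).st = 1 := by
  -- `H = k`
  let g : k →ₗ[k] (pt k).H := (Coh.mk (pt k).d) ∘ₗ (LinearMap.id.codRestrict (LinearMap.ker (pt k).d)
    (fun _ => rfl))
  have hg : Function.Bijective g := by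
    constructor
    · rw [injective_iff_map_eq_zero]
      intro x hx
      obtain ⟨y, hy⟩ := (Coh.mk_eq_zero (d := (pt k).d) (x := x) rfl).1 hx
      exact hy.symm
    · intro a
      obtain ⟨⟨x, hx⟩, rfl⟩ := Coh.mk_surjective (pt k).d a
      exact ⟨x, rfl⟩
  let e : k ≃ₗ[k] (pt k).H := LinearEquiv.ofBijective g hg
  have h1 : (pt k).TH = e.conj LinearMap.id := by
    rw [LinearEquiv.conj_id]
    refine LinearMap.ext fun a => ?_
    revert a
    refine (pt k).ind fun x hx => rfl
  rw [SC.st, h1, LinearMap.trace_conj', LinearMap.trace_id, Module.finrank_self, Nat.cast_one]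

end subquot

/-! ### the complex of smooth sections -/

section geo

variable {n : ℕ} {M : Type} [TopologicalSpace M] [T2Space M] {A : Atl n M} {B : FBun A}
  {p : M} {i : A.ι}

theorem idAt_dbj {c : Cn n} {F : Cn n → ℂ} (h : IdAt c F) (a : Fin n) : IdAt c (dbj a F) := by
  obtain ⟨r, hr, g, hg, hF⟩ := h
  refine ⟨r, hr, fun b => Geo.dbj a (g b), fun b => contDiffOn_dbj Metric.isOpen_ball (hg b) a,
    fun z hz => ?_⟩
  have h1 : Geo.dbj a F z = Geo.dbj a (fun w => ∑ b, (w b - c b) * g b w) z := by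
    refine dbj_congr ?_ a
    filter_upwards [Metric.isOpen_ball.mem_nhds hz] with w hw using hF w hw
  have hc : ∀ b : Fin n, HasFDerivAt (fun w : Cn n => w b - c b)
      ((EuclideanSpace.proj b : Cn n →L[ℂ] ℂ).restrictScalars ℝ) z := fun b =>
    (((EuclideanSpace.proj b : Cn n →L[ℂ] ℂ).restrictScalars ℝ).hasFDerivAt).sub_const _
  have hgd : ∀ b, DifferentiableAt ℝ (g b) z := fun b =>
    ((hg b).contDiffAt (Metric.isOpen_ball.mem_nhds hz)).differentiableAt (by simp)
  have hc0 : ∀ b, Geo.dbj a (fun w : Cn n => w b - c b) z = 0 := by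
    intro b
    simp only [Geo.dbj, (hc b).fderiv, smul_eq_mul]
    have e1 : ((EuclideanSpace.proj b : Cn n →L[ℂ] ℂ).restrictScalars ℝ)
        (EuclideanSpace.single a I) = I * ((EuclideanSpace.proj b : Cn n →L[ℂ] ℂ).restrictScalars ℝ)
        (EuclideanSpace.single a 1) := by
      show (EuclideanSpace.single a I : Cn n) b = I * (EuclideanSpace.single a (1 : ℂ) : Cn n) b
      rw [PiLp.single_apply, PiLp.single_apply]
      split_ifs <;> simp
    rw [e1]
    linear_combination (1 / 2 : ℂ) * (((EuclideanSpace.proj b : Cn n →L[ℂ] ℂ).restrictScalars ℝ)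
        (EuclideanSpace.single a 1)) * Complex.I_mul_I
  rw [h1]
  refine (dbj_sum Finset.univ (f := fun (b : Fin n) (w : Cn n) => (w b - c b) * g b w)
    (fun b _ => (hc b).differentiableAt.mul (hgd b)) a).trans ?_
  refine Finset.sum_congr rfl fun b _ => ?_
  refine (dbj_mul (hc b).differentiableAt (hgd b) a).trans ?_
  rw [hc0, zero_mul, add_zero]

theorem nab_InI (hp : p ∈ (A.e i).source) (hα : ∀ x ∈ (A.e i).source, B.α i x = 0) (u : Sec B)
    (hu : ∀ k, InI A i p (fun x => u.1 i x k)) (k : B.κ) :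
    InI A i p (fun x => nab B u.1 i x k) := by
  have h1 : IdAt (A.e i p) (fun z => ∑ a, ∑ l, B.e a k l *
      dbj a (fun z => u.1 i ((A.e i).symm z) l) z) :=
    IdAt.sum _ fun a _ => IdAt.sum _ fun l _ => IdAt.mul
      (G := fun _ => B.e a k l) (idAt_dbj (hu l) a) one_pos contDiffOn_const
  refine IdAt.congr h1 ?_
  filter_upwards [(A.e i).open_target.mem_nhds ((A.e i).map_source hp)] with z hz
  rw [nab_comp hα u ((A.e i).map_target hz), (A.e i).right_inv hz]

variable (hp : p ∈ (A.e i).source)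

/-- the subspace `I_p • Sec B` over `ℂ` -/
def Fp (B : FBun A) : Submodule ℂ (Sec B) :=
  (Ip A i p hp • (⊤ : Submodule (smf A) (Sec B))).restrictScalars ℂ

theorem mem_Fp {u : Sec B} : u ∈ Fp hp B ↔ ∀ k, InI A i p (fun x => u.1 i x k) :=
  mem_smul_top_iff hp u

variable (S : SC ℂ (Sec B))

theorem Fp_d (hα : ∀ x ∈ (A.e i).source, B.α i x = 0) (hSd : ∀ u, (S.d u).1 = nab B u.1)
    (u : Sec B) (hu : u ∈ Fp hp B) : S.d u ∈ Fp hp B := by
  rw [mem_Fp] at hu ⊢
  intro k
  rw [hSd]
  exact nab_InI hp hα u hu k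

theorem Fp_T (hST : ∀ u : Sec B, ∀ x k, (S.T u).1 i x k = (-1) ^ (B.deg k) * u.1 i x k)
    (u : Sec B) (hu : u ∈ Fp hp B) : S.T u ∈ Fp hp B := by
  rw [mem_Fp] at hu ⊢
  intro k
  have hc : A.SmAt i (fun _ : M => (-1 : ℂ) ^ (B.deg k)) := contDiffOn_const
  refine InI.congr hp (InI.mul_smAt hp (hu k) hc) (Eventually.of_forall fun x => ?_)
  exact (hST u x k).symm

/-- **the supertrace of the subcomplex `I_p • Sec B`** -/
theorem sub_st [FiniteDimensional ℂ S.H] (hα : ∀ x ∈ (A.e i).source, B.α i x = 0)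
    (num : ∀ k l, (∑ a, B.e a * B.io a) k l = if k = l then (B.deg k : ℂ) else 0)
    (hSd : ∀ u, (S.d u).1 = nab B u.1)
    (hST : ∀ u : Sec B, ∀ x k, (S.T u).1 i x k = (-1) ^ (B.deg k) * u.1 i x k)
    (k0 : B.κ) (hk0 : ∀ k, B.deg k = 0 ↔ k = k0)
    (one : Sec B) (hone : S.d one = 0) (hTone : S.T one = one)
    (hone1 : ∀ᶠ x in 𝓝 p, ∀ k, one.1 i x k = if k = k0 then 1 else 0) :
    FiniteDimensional ℂ (sub S (Fp hp B) (Fp_d hp S hα hSd) (Fp_T hp S hST)).H ∧
      (sub S (Fp hp B) (Fp_d hp S hα hSd) (Fp_T hp S hST)).st = S.st - 1 := by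
  classical
  set F := Fp hp B with hF
  set hd := Fp_d hp S hα hSd
  set hT := Fp_T hp S hST
  -- components of `∇v` in degree 0
  have hdeg0 : ∀ (v : Sec B) x, x ∈ (A.e i).source → nab B v.1 i x k0 = 0 := by
    intro v x hx
    rw [nab_comp hα v hx]
    refine Finset.sum_eq_zero fun a _ => Finset.sum_eq_zero fun l _ => ?_
    have h0 : B.e a k0 l = 0 := by
      by_contra hne
      have := B.e_deg a k0 l hne
      rw [(hk0 k0).2 rfl] at this
      omega
    rw [h0, zero_mul]
  have honep : ∀ k, one.1 i p k = if k = k0 then 1 else 0 := hone1.self_of_nhds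
  let φ : SC.Hom (pt ℂ) (quot S F hd hT) :=
    { f := F.mkQ ∘ₗ (LinearMap.id.smulRight one)
      d := fun c => by
        show F.mkQ (S.d (c • one)) = F.mkQ ((0 : ℂ) • one)
        rw [map_smul, hone, smul_zero, zero_smul]
      T := fun c => by
        show F.mkQ (S.T (c • one)) = F.mkQ (c • one)
        rw [map_smul, hTone] }
  have hφ : φ.Quasi := by
    constructor
    · rw [injective_iff_map_eq_zero]
      refine (pt ℂ).ind fun c hc => ?_
      intro h
      rw [SC.Hom.mapH_cls, SC.cls_eq_zero] at h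
      obtain ⟨y, hy⟩ := h
      obtain ⟨v, rfl⟩ := F.mkQ_surjective y
      have hy' : F.mkQ (c • one - S.d v) = 0 := by
        rw [map_sub, sub_eq_zero]
        exact hy.symm
      have h1 : c • one - S.d v ∈ F := (Submodule.Quotient.mk_eq_zero F).1 hy'
      rw [hF, mem_Fp] at h1
      have h2 := InI.apply_self hp (h1 k0)
      have h3 : (c • one - S.d v).1 i p k0 = c * one.1 i p k0 - nab B v.1 i p k0 := by
        rw [← hSd]; rfl
      rw [h3, honep, if_pos rfl, hdeg0 v p hp, mul_one, sub_zero] at h2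
      rw [SC.cls_eq_zero]
      exact ⟨0, by rw [map_zero, h2]⟩
    · intro a
      revert a
      refine SC.ind _ fun y hy => ?_
      obtain ⟨u, rfl⟩ := F.mkQ_surjective y
      have h1 : S.d u ∈ F := (Submodule.Quotient.mk_eq_zero F).1 hy
      rw [hF, mem_Fp] at h1
      have h2 : ∀ k, InI A i p (fun x => nab B u.1 i x k) := by
        intro k
        have := h1 k
        rwa [hSd] at this
      obtain ⟨v, hv⟩ := acyclic hp hα num u h2
      have hc0 : (pt ℂ).d (u.1 i p k0) = 0 := rfl
      refine ⟨(pt ℂ).cls (u.1 i p k0) hc0, ?_⟩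
      rw [SC.Hom.mapH_cls, SC.cls_eq]
      refine ⟨F.mkQ (-v), ?_⟩
      rw [quot_d]
      show F.mkQ (S.d (-v)) = F.mkQ (u.1 i p k0 • one) - F.mkQ u
      rw [← map_sub, ← sub_eq_zero, ← map_sub]
      refine (Submodule.Quotient.mk_eq_zero F).2 ?_
      rw [hF, mem_Fp]
      intro k
      refine InI.congr hp (hv k) ?_
      filter_upwards [hone1] with x hx
      have h3 : (S.d (-v) - (u.1 i p k0 • one - u)).1 i x k =
          (S.d (-v)).1 i x k - (u.1 i p k0 * one.1 i x k - u.1 i x k) := rfl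
      have h4 : (S.d (-v)).1 i x k = - nab B v.1 i x k := by
        rw [map_neg, ← hSd]; rfl
      rw [h3, h4, hx k]
      by_cases hk : k = k0
      · subst hk
        rw [if_pos rfl, if_pos ((hk0 k).2 rfl)]
        ring
      · rw [if_neg hk, if_neg (fun h => hk ((hk0 k).1 h))]
        ring
  have hfinQ : FiniteDimensional ℂ (quot S F hd hT).H := hφ.finite
  have hfinS := (ses S F hd hT).finite_left
  refine ⟨hfinS, ?_⟩
  have h5 := (ses S F hd hT).st_eq
  have h6 : (quot S F hd hT).st = 1 := by rw [← hφ.st_eq, pt_st]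
  rw [h6] at h5
  rw [h5]; ring

end geo

/-! ### the Dolbeault complex of a surface -/

section lam

open Crest.Agent.R275.Lam2130

variable {M : Type} [TopologicalSpace M] {A : Atl 2 M}

theorem eio_num (k l : Fin 4) : (∑ a, eM a * ioM a) k l = if k = l then (dg k : ℂ) else 0 := by
  fin_cases k <;> fin_cases l <;>
    (simp [eM, ioM, dg, Matrix.mul_apply, Fin.sum_univ_four, Fin.sum_univ_two, Matrix.sum_apply]; try norm_num)

theorem dg_zero (k : Fin 4) : dg k = 0 ↔ k = 0 := by
  fin_cases k <;> simp [dg]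

/-- the vacuum vector -/
def v0 : Fin 4 → ℂ := ![1, 0, 0, 0]

theorem v0_apply (k : Fin 4) : v0 k = if k = 0 then 1 else 0 := by
  fin_cases k <;> simp [v0]

theorem tau_v0 (m : Matrix (Fin 2) (Fin 2) ℂ) : tauM m *ᵥ v0 = v0 := by
  funext k
  fin_cases k <;> simp [v0, tauM, Matrix.mulVec, dotProduct, Fin.sum_univ_four]

/-- the constant section `1`, raw family -/
def oneF (A : Atl 2 M) : A.ι → M → Fin 4 → ℂ := fun i x =>
  Set.indicator (A.e i).source (fun _ => v0) x

theorem oneF_mem {i : A.ι} {x : M} (hx : x ∈ (A.e i).source) : oneF A i x = v0 :=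
  Set.indicator_of_mem hx _

theorem oneF_off {i : A.ι} {x : M} (hx : x ∉ (A.e i).source) : oneF A i x = 0 :=
  Set.indicator_of_notMem hx _

/-- the constant section `1` -/
def oneS (A : Atl 2 M) : Sec (lam2 A) :=
  ⟨oneF A, by
    refine ⟨fun i k => ?_, fun i x hx => oneF_off hx, fun i j x hx => ?_⟩
    · refine (contDiffOn_const (c := v0 k)).congr ?_
      intro z hz
      exact congrFun (oneF_mem ((A.e i).map_target hz)) k
    · show oneF A i x = tauM (Jm A i j x) *ᵥ oneF A j x
      rw [oneF_mem hx.1, oneF_mem hx.2, tau_v0]⟩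

theorem oneS_apply {i : A.ι} {x : M} (hx : x ∈ (A.e i).source) (k : Fin 4) :
    (oneS A).1 i x k = if k = 0 then 1 else 0 := by
  show oneF A i x k = _
  rw [oneF_mem hx, v0_apply]

theorem nab_oneS (A : Atl 2 M) : nab (lam2 A) (oneS A).1 = 0 := by
  funext i x
  by_cases hx : x ∈ (A.e i).source
  · funext k
    rw [nab_comp (B := lam2 A) (i := i) (fun _ _ => rfl) (oneS A) hx]
    refine Finset.sum_eq_zero fun a _ => Finset.sum_eq_zero fun l _ => ?_
    have h1 : dbj a (fun z => (oneS A).1 i ((A.e i).symm z) l) (A.e i x) =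
        dbj a (fun _ : Cn 2 => v0 l) (A.e i x) := by
      refine dbj_congr ?_ a
      filter_upwards [(A.e i).open_target.mem_nhds ((A.e i).map_source hx)] with z hz
      exact congrFun (oneF_mem ((A.e i).map_target hz)) l
    rw [h1, dbj_const, mul_zero]
  · exact nab_off (lam2 A) hx

theorem oneS_deg (A : Atl 2 M) : IsDeg (lam2 A) 0 (oneS A).1 := by
  intro i x k hk
  change oneF A i x k ≠ 0 at hk
  by_cases hx : x ∈ (A.e i).source
  · rw [oneF_mem hx] at hk
    have h := v0_apply k
    by_contra hne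
    apply hk
    rw [h, if_neg]
    intro h'
    apply hne
    exact (dg_zero k).2 h'
  · exact absurd (congrFun (oneF_off hx) k) hk

variable [T2Space M] {p : M} {i : A.ι} (hp : p ∈ (A.e i).source) (S : SC ℂ (Sec (lam2 A)))

/-- **D4, supertrace form**: `χ(I_p Ω^{0,*}) = χ(Ω^{0,*}) - 1` on a complex surface. -/
theorem lam2_sub_st [FiniteDimensional ℂ S.H] (hSd : ∀ u, (S.d u).1 = nab (lam2 A) u.1)
    (hST : ∀ u : Sec (lam2 A), ∀ j x k, (S.T u).1 j x k = (-1) ^ ((lam2 A).deg k) * u.1 j x k) :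
    FiniteDimensional ℂ (sub S (Fp hp (lam2 A)) (Fp_d hp S (fun _ _ => rfl) hSd)
      (Fp_T hp S fun u => hST u i)).H ∧
    (sub S (Fp hp (lam2 A)) (Fp_d hp S (fun _ _ => rfl) hSd)
      (Fp_T hp S fun u => hST u i)).st = S.st - 1 := by
  refine sub_st hp S (fun _ _ => rfl) eio_num hSd (fun u => hST u i) (0 : Fin 4) dg_zero (oneS A)
    ?_ ?_ ?_
  · apply Subtype.ext
    rw [hSd, nab_oneS]; rfl
  · apply Subtype.ext
    funext j x k
    rw [hST]
    by_cases hk : (oneS A).1 j x k = 0
    · rw [hk, mul_zero]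
    · rw [oneS_deg A j x k hk, pow_zero, one_mul]
  · filter_upwards [(A.e i).open_source.mem_nhds hp] with x hx k
    exact oneS_apply hx k

end lam

end

end Crest.Agent.R275.LnkP3476
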