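import Crest.Agent.R275.LnkP3_476
import Crest.Agent.R275.Dg5_199
import Crest.Agent.R275.NA3aProj_759
import Crest.Agent.R275.NA3m_425

/-!
R275, block LINK, leaf D4 (helper476), part 4: the Koszul type resolution of the ideal of a point.

* `lspan_iff`: the local condition of `Ip` in the language of 199's `LSpan`;
* `J_eq`: 199's ideal of the point is `Ip`;
* `exists_pt`: three generators `h` of `Ip` (the two coordinates near `p` and a function which
  vanishes near `p`), with no common zero but `p`, and a resolution `Res h q io`.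
-/

set_option autoImplicit false
set_option linter.unusedSectionVars false

open Set Filter Topology Complex
open scoped ContDiff ComplexConjugate Matrix
open Crest.Agent.R275.Geo Crest.Agent.R275.SmR425 Crest.Agent.R275.Smf798
open Crest.Agent.R275.LnkP2476 Crest.Agent.R275.Dg199

namespace Crest.Agent.R275.LnkP4476

noncomputable section

variable {n : ℕ} {M : Type} [TopologicalSpace M]

/-- the two local conditions agree -/
theorem lspan_iff {A : Atl n M} {i : A.ι} {p : M} (hp : p ∈ (A.e i).source) (f : M → ℂ) :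
    LSpan A (fun (a : Fin n) x => A.e i x a - A.e i p a) f p ↔ InI A i p f := by
  constructor
  · rintro ⟨c, h1, h2⟩
    have h3 : ∀ᶠ x in 𝓝 p, (∀ a, SmN A (c a) x) ∧
        f x = ∑ a, (A.e i x a - A.e i p a) * c a x := by
      filter_upwards [eventually_all.2 h1, h2] with x a b using ⟨a, b⟩
    have h4 := (tendsto_symm (A := A) hp).eventually h3
    obtain ⟨r, hr, hb⟩ := Metric.eventually_nhds_iff_ball.1 (h4.and
      ((A.e i).open_target.mem_nhds ((A.e i).map_source hp)))
    refine ⟨r, hr, fun a z => c a ((A.e i).symm z), fun a z hz => ?_, fun z hz => ?_⟩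
    · obtain ⟨⟨h5, -⟩, h6⟩ := hb z hz
      have h7 := (smN_iff (A := A) (i := i) ((A.e i).map_target h6)).1 (h5 a)
      rw [(A.e i).right_inv h6] at h7
      exact h7.contDiffWithinAt
    · obtain ⟨⟨-, h5⟩, h6⟩ := hb z hz
      show f ((A.e i).symm z) = _
      rw [h5, (A.e i).right_inv h6]
  · rintro ⟨r, hr, g, hg, hF⟩
    have h1 : ∀ᶠ x in 𝓝 p, x ∈ (A.e i).source ∧ A.e i x ∈ Metric.ball (A.e i p) r := by
      filter_upwards [(A.e i).open_source.mem_nhds hp,
        ((A.e i).continuousAt hp).eventually (Metric.ball_mem_nhds _ hr)] with x a b using ⟨a, b⟩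
    refine ⟨fun a x => g a (A.e i x), fun a => ?_, ?_⟩
    · filter_upwards [h1] with x hx
      refine (smN_iff (A := A) hx.1).2 ?_
      have h2 : ContDiffAt ℝ ∞ (g a) (A.e i x) :=
        (hg a).contDiffAt (Metric.isOpen_ball.mem_nhds hx.2)
      refine h2.congr_of_eventuallyEq ?_
      filter_upwards [(A.e i).open_target.mem_nhds ((A.e i).map_source hx.1)] with z hz
      rw [(A.e i).right_inv hz]
    · filter_upwards [h1] with x hx
      have h3 : f ((A.e i).symm (A.e i x)) = _ := hF _ hx.2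
      rwa [(A.e i).left_inv hx.1] at h3

variable {A : Atl 2 M} {p : M} {i : A.ι}

/-- 199's ideal of the point -/
theorem J_eq [T2Space M] (hp : p ∈ (A.e i).source) : (ptA A p).reg.J = Ip A i p hp := by
  have key : ∀ f : smf A, LSpan A ((ptA A p).reg.u ⟨i, hp⟩) f.1 p ↔ InI A i p f.1 := by
    intro f
    rw [← lspan_iff hp]
    have e : (ptA A p).reg.u ⟨i, hp⟩ = fun (a : Fin 2) x => A.e i x a - A.e i p a := by
      funext a x
      exact ptA_uu A p ⟨i, hp⟩ a x
    rw [e]
  ext f
  rw [RegData.mem_J, mem_Ip]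
  constructor
  · intro h
    exact (key f).1 (h ⟨i, hp⟩ p rfl hp)
  · intro h
    refine RegData.mem_J_of_exists _ fun q hq => ?_
    obtain rfl : q = p := hq
    exact ⟨⟨i, hp⟩, hp, (key f).2 h⟩

variable [T2Space M] [CompactSpace M]

/-- the local generators of the ideal of a point -/
theorem exists_gens (hp : p ∈ (A.e i).source) : ∃ h : Fin 3 → smf A,
    (∀ᶠ x in 𝓝 p, (h 0).1 x = A.e i x 0 - A.e i p 0) ∧
    (∀ᶠ x in 𝓝 p, (h 1).1 x = A.e i x 1 - A.e i p 1) ∧
    (∀ᶠ x in 𝓝 p, (h 2).1 x = 0) ∧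
    (∀ x ≠ p, ∃ a, (h a).1 x ≠ 0) ∧ Ideal.span (range h) = Ip A i p hp := by
  obtain ⟨χ, hχ, hχ1, -, hχs⟩ := exists_chi (A := A) hp (N := univ) univ_mem
  obtain ⟨χ', hχ', hχ1', hχn', -⟩ := exists_chi (A := A) hp (N := {x | χ x = 1}) hχ1
  have hts : tsupport (fun x => (χ x : ℂ)) ⊆ tsupport χ := by
    refine closure_mono fun y hy h0 => hy ?_
    show (χ y : ℂ) = 0
    rw [h0]; rfl
  have hco : ∀ b : Fin 2, ∀ q ∈ (A.e i).source, SmN A (fun x => A.e i x b - A.e i p b) q := by
    intro b q hq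
    have h1 := (ptA A p).uu_sm ⟨i, hp⟩ b (q := q) hq
    exact h1.congr (Eventually.of_forall fun x => (ptA_uu A p ⟨i, hp⟩ b x).symm)
  have hsm : ∀ b : Fin 2, ∀ q, SmN A (fun x => (χ x : ℂ) * (A.e i x b - A.e i p b)) q := by
    intro b
    exact smN_mul_tsupport (fun x => (sm_iff.1 hχ x).ofReal) fun q hq => hco b q (hχs (hts hq))
  have hsm' : ∀ q, SmN A (fun x => (1 : ℂ) - (χ' x : ℂ)) q := fun q =>
    (smN_const _ q).sub (sm_iff.1 hχ' q).ofReal
  let h : Fin 3 → smf A := ![mk' _ (hsm 0), mk' _ (hsm 1), mk' _ hsm']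
  have e0 : ∀ x, (h 0).1 x = (χ x : ℂ) * (A.e i x 0 - A.e i p 0) := fun x => rfl
  have e1 : ∀ x, (h 1).1 x = (χ x : ℂ) * (A.e i x 1 - A.e i p 1) := fun x => rfl
  have e2 : ∀ x, (h 2).1 x = (1 : ℂ) - (χ' x : ℂ) := fun x => rfl
  have n0 : ∀ᶠ x in 𝓝 p, (h 0).1 x = A.e i x 0 - A.e i p 0 := by
    filter_upwards [hχ1] with x hx
    rw [e0, hx, Complex.ofReal_one, one_mul]
  have n1 : ∀ᶠ x in 𝓝 p, (h 1).1 x = A.e i x 1 - A.e i p 1 := by
    filter_upwards [hχ1] with x hx
    rw [e1, hx, Complex.ofReal_one, one_mul]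
  have n2 : ∀ᶠ x in 𝓝 p, (h 2).1 x = 0 := by
    filter_upwards [hχ1'] with x hx
    rw [e2, hx, Complex.ofReal_one, sub_self]
  have nz : ∀ x ≠ p, ∃ a, (h a).1 x ≠ 0 := by
    intro x hx
    by_contra hne
    push Not at hne
    have h2 := hne 2
    rw [e2, sub_eq_zero] at h2
    have h2' : χ' x = 1 := by exact_mod_cast h2.symm
    have h3 : x ∈ tsupport χ' := subset_tsupport _ (by
      rw [Function.mem_support, h2']; exact one_ne_zero)
    have h4 : χ x = 1 := hχn' h3
    have h5 : x ∈ (A.e i).source := hχs (subset_tsupport _ (by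
      rw [Function.mem_support, h4]; exact one_ne_zero))
    refine hx ((A.e i).injOn h5 hp ?_)
    ext b
    fin_cases b
    · have := hne 0
      rw [e0, h4, Complex.ofReal_one, one_mul, sub_eq_zero] at this
      exact this
    · have := hne 1
      rw [e1, h4, Complex.ofReal_one, one_mul, sub_eq_zero] at this
      exact this
  refine ⟨h, n0, n1, n2, nz, ?_⟩
  have hloc : ∀ a : Fin 2, LSpan A (fun b => (h b).1) (fun x => A.e i x a - A.e i p a) p := by
    intro a
    fin_cases a
    · refine (LSpan.self (A := A) (v := fun b => (h b).1) 0).congr ?_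
      filter_upwards [n0] with x hx using hx.symm
    · refine (LSpan.self (A := A) (v := fun b => (h b).1) 1).congr ?_
      filter_upwards [n1] with x hx using hx.symm
  refine le_antisymm (Ideal.span_le.2 ?_) fun f hf => ?_
  · rintro _ ⟨a, rfl⟩
    show InI A i p (h a).1
    rw [← lspan_iff hp]
    fin_cases a
    · refine (LSpan.self (A := A) (v := fun (a : Fin 2) x => A.e i x a - A.e i p a) 0).congr ?_
      exact n0
    · refine (LSpan.self (A := A) (v := fun (a : Fin 2) x => A.e i x a - A.e i p a) 1).congr ?_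
      exact n1
    · exact LSpan.of_ev_zero n2
  · have hf' : LSpan A (fun (a : Fin 2) x => A.e i x a - A.e i p a) f.1 p := (lspan_iff hp _).2 hf
    obtain ⟨C, hC⟩ := exists_glue h f fun q => by
      by_cases hq : q = p
      · subst hq
        exact hf'.trans hloc
      · obtain ⟨a, ha⟩ := nz q hq
        exact LSpan.of_ne_zero (v := fun b => (h b).1) (a := a)
          (Eventually.of_forall fun x => smN_of_mem (h a) x) ha
          (Eventually.of_forall fun x => smN_of_mem f x)
    refine Ideal.mem_span_range_iff_exists_fun.2 ⟨C, ?_⟩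
    rw [hC]
    exact Finset.sum_congr rfl fun a _ => mul_comm _ _

/-- the ideal of a point is locally generated by a regular pair -/
theorem exists_locReg (hp : p ∈ (A.e i).source) : ∃ (N : ℕ) (s : Fin N → smf A),
    Ideal.span (range s) = ⊤ ∧ ∀ a, NA3a759.LocReg (Ip A i p hp) (s a) := by
  obtain ⟨N, s, h1, h2⟩ := (ptA A p).reg.exists_loc
  refine ⟨N, s, ?_, fun a => ?_⟩
  · rw [Ideal.eq_top_iff_one, ← h1]
    exact Ideal.sum_mem _ fun a _ => Ideal.subset_span ⟨a, rfl⟩
  · rw [← J_eq hp]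
    rcases h2 a with h | ⟨u1, hu1, u2, hu2, h3, h4, h5⟩
    · exact Or.inl ⟨1, by rwa [pow_one]⟩
    · refine Or.inr ⟨1, u1, u2, hu1, hu2, fun x hx => ?_, fun g hg => ?_, fun g f hgf => ?_⟩
      · obtain ⟨c, d, hcd⟩ := h3 x hx
        rw [pow_one, hcd]
        exact Ideal.mem_span_pair.2 ⟨c, d, by ring⟩
      · rw [pow_one]; exact h4 g hg
      · rw [pow_one]; exact h5 f g hgf

/-- a resolution for any finite system of generators -/
theorem exists_res {m : Type} [Fintype m] (hp : p ∈ (A.e i).source) (h : m → smf A)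
    (hspan : Ideal.span (range h) = Ip A i p hp) :
    ∃ (N : ℕ) (q : Matrix (Fin N) (Fin N) (smf A)) (io : Matrix m (Fin N) (smf A)),
      NA3m425.Res h q io := by
  obtain ⟨N, s, h1, h2⟩ := exists_locReg (A := A) hp
  obtain ⟨h3, h4⟩ := NA3a759.projective_ker s h1 h2 1 h (by rw [hspan, pow_one])
  have e : LinearMap.ker (Fintype.linearCombination (smf A) h) =
      LinearMap.ker (NA3m425.dot (Om := smf A) h) := by
    ext v
    rw [LinearMap.mem_ker, LinearMap.mem_ker, NA3m425.dot_apply, Fintype.linearCombination_apply]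
    simp only [smul_eq_mul, mul_comm]
  rw [e] at h3 h4
  exact NA3m425.exists_res h

/-- **the geometric and algebraic part of the resolution of a point** -/
theorem exists_pt (hp : p ∈ (A.e i).source) : ∃ (h : Fin 3 → smf A) (N : ℕ)
    (q : Matrix (Fin N) (Fin N) (smf A)) (io : Matrix (Fin 3) (Fin N) (smf A)),
    NA3m425.Res h q io ∧
    (∀ᶠ x in 𝓝 p, (h 0).1 x = A.e i x 0 - A.e i p 0) ∧
    (∀ᶠ x in 𝓝 p, (h 1).1 x = A.e i x 1 - A.e i p 1) ∧
    (∀ᶠ x in 𝓝 p, (h 2).1 x = 0) ∧
    (∀ x ≠ p, ∃ a, (h a).1 x ≠ 0) ∧ Ideal.span (range h) = Ip A i p hp := by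
  obtain ⟨h, h0, h1, h2, h3, h4⟩ := exists_gens (A := A) hp
  obtain ⟨N, q, io, R⟩ := exists_res hp h h4
  exact ⟨h, N, q, io, R, h0, h1, h2, h3, h4⟩

end

end Crest.Agent.R275.LnkP4476
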