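import Crest.Agent.R275.LnkP4_476
import Crest.Agent.R275.DolG_763
import Crest.Agent.R275.NA13_425
import Crest.Agent.R275.FHom2_556

/-!
R275, block LINK, leaf D4 (helper476), part 5: the superbundle of a point.

* `dol2 A : Dol ℂ (smf A) (Sec (lam2 A))`, the Dolbeault complex of a surface;
* `cond_Ip`: the connection condition for the ideal of a point;
* `sub_st`: the supertrace of `I_p • Ω` is the one of `Ω` minus one;
* `exists_pt_super`: generators, resolution and superbundle of a point; its supertrace.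
-/

set_option autoImplicit false
set_option linter.unusedSectionVars false

open Set Filter Topology Complex
open scoped ContDiff ComplexConjugate Matrix
open Crest.Agent.R275.Geo Crest.Agent.R275.SmR425 Crest.Agent.R275.Smf798
open Crest.Agent.R275.LnkP2476 Crest.Agent.R275.Dg199 Crest.Agent.R275.LnkP4476
open Crest.Agent.R275.DolG763 Crest.Agent.R275.NA6b763 Crest.Agent.R275.NA7763
open Crest.Agent.R275.Lam2130 Crest.Agent.R275.NA13425 Crest.Agent.R275.Con425

namespace Crest.Agent.R275.LnkP5476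

noncomputable section

variable {M : Type} [TopologicalSpace M]

/-- adapted data give `∂̄`-closed local equations -/
theorem hol_reg {n r : ℕ} {A : Atl n M} (S : Adapted r A) [T2Space M] : Hol S.reg := by
  intro k a q hk i hi b
  show dbj b (fun z => S.uu k a ((A.e i).symm z)) (A.e i q) = 0
  refine dbj_holo ?_ b
  have hk' : q ∈ (A.e (S.ix k)).source := hk
  have hmem : (A.e i).symm (A.e i q) ∈ (A.e (S.ix k)).source := by rwa [(A.e i).left_inv hi]
  have h1 : DifferentiableAt ℂ (fun z => A.e (S.ix k) ((A.e i).symm z)) (A.e i q) :=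
    (A.holo i (S.ix k)).differentiableAt
      ((isOpen_ov _ _).mem_nhds ⟨(A.e i).map_source hi, hmem⟩)
  have h3 : DifferentiableAt ℂ (fun z => S.Φ k ((A.e i).symm z)) (A.e i q) :=
    DifferentiableAt.comp (g := S.T k) (A.e i q) (S.T k).differentiableAt (h1.sub_const _)
  fin_cases a
  · exact h3.fst
  · exact h3.snd.fst

/-- `∂̄² = 0` -/
theorem nabL_sq (A : Atl 2 M) (u : Sec (lam2 A)) : nabL (lam2 A) (nabL (lam2 A) u) = 0 :=
  LinearMap.congr_fun (FHom556.flat_of_alpha_zero (B := lam2 A) fun _ _ _ => rfl).nabL_comp u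

/-- the Dolbeault complex of a surface -/
def dol2 (A : Atl 2 M) : Dol ℂ (smf A) (Sec (lam2 A)) := dolP (nabL_sq A)

theorem dol2_d (A : Atl 2 M) (u : Sec (lam2 A)) : (dol2 A).d u = nabL (lam2 A) u := rfl
theorem dol2_T (A : Atl 2 M) (u : Sec (lam2 A)) : (dol2 A).T u = sg (lam2 A) u := rfl

theorem dol2_s (A : Atl 2 M) (f : smf A) : (dol2 A).s f = f := rfl

variable {A : Atl 2 M} {p : M} {i : A.ι} [T2Space M] [CompactSpace M]

/-- the connection condition for the ideal of a point -/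
theorem cond_Ip (P : Part A) (hp : p ∈ (A.e i).source) : (dol2 A).Cond (Ip A i p hp) := by
  refine dolL_cond (nabL_sq A) (Lift.id _) P _ fun f hf j b => ?_
  rw [← J_eq hp] at hf ⊢
  exact DD_mem (hol_reg (ptA A p)) P j b hf

theorem s_Ip (hp : p ∈ (A.e i).source) : ∀ a ∈ Ip A i p hp, (dol2 A).s a ∈ Ip A i p hp :=
  fun _ h => h

/-- **the supertrace of `I_p • Ω`** -/
theorem sub_st (hp : p ∈ (A.e i).source) (hc : (dol2 A).Cond (Ip A i p hp))
    [FiniteDimensional ℂ (dol2 A).sc.H] :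
    FiniteDimensional ℂ ((dol2 A).sub (Ip A i p hp) hc (s_Ip hp)).H ∧
      ((dol2 A).sub (Ip A i p hp) hc (s_Ip hp)).st = (dol2 A).sc.st - 1 := by
  have hSd : ∀ u, ((dol2 A).sc.d u).1 = nab (lam2 A) u.1 := fun u => rfl
  have hST : ∀ u : Sec (lam2 A), ∀ i x k, ((dol2 A).sc.T u).1 i x k =
      (-1) ^ ((lam2 A).deg k) * u.1 i x k := fun u i x k => rfl
  obtain ⟨h1, h2⟩ := LnkP3476.lam2_sub_st hp (dol2 A).sc hSd hST
  let φ : SC.Hom ((dol2 A).sub (Ip A i p hp) hc (s_Ip hp))
      (LnkP3476.sub (dol2 A).sc (LnkP3476.Fp hp (lam2 A))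
        (LnkP3476.Fp_d hp _ (fun _ _ => rfl) hSd) (LnkP3476.Fp_T hp _ fun u => hST u i)) :=
    { f :=
        { toFun := fun w => ⟨w.1, w.2⟩
          map_add' := fun _ _ => rfl
          map_smul' := fun _ _ => rfl }
      d := fun _ => rfl
      T := fun _ => rfl }
  have hφ : φ.Quasi := quasi_of_bijective φ ⟨fun v w h => by
      have h' : ((φ.f v : LnkP3476.Fp hp (lam2 A)) : Sec (lam2 A)) =
        (φ.f w : LnkP3476.Fp hp (lam2 A)) := congrArg Subtype.val h
      exact Subtype.ext h', fun w => ⟨⟨w.1, w.2⟩, rfl⟩⟩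
  exact ⟨hφ.finite', by rw [hφ.st_eq, h2]⟩

/-- **the superbundle of a point**: everything of D4 which does not involve the index theory of
idempotents -/
theorem exists_pt_super (P : Part A) (hp : p ∈ (A.e i).source)
    [FiniteDimensional ℂ (dol2 A).sc.H] :
    ∃ (h : Fin 3 → smf A) (N : ℕ) (q : Matrix (Fin N) (Fin N) (smf A))
      (io : Matrix (Fin 3) (Fin N) (smf A)),
      NA3m425.Res h q io ∧
      (∀ᶠ x in 𝓝 p, (h 0).1 x = A.e i x 0 - A.e i p 0) ∧
      (∀ᶠ x in 𝓝 p, (h 1).1 x = A.e i x 1 - A.e i p 1) ∧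
      (∀ᶠ x in 𝓝 p, (h 2).1 x = 0) ∧
      (∀ x ≠ p, ∃ a, (h a).1 x ≠ 0) ∧ Ideal.span (range h) = Ip A i p hp ∧
      ∃ X : Super (dol2 A) (Fin 3 ⊕ Fin N), X.P = Matrix.fromBlocks 1 0 0 q ∧
        X.hd = Sum.elim (fun _ => 0) (fun _ => 1) ∧ X.t = (fun _ => 1) ∧
        FiniteDimensional ℂ X.sc.H ∧ X.sc.st = (dol2 A).sc.st - 1 := by
  obtain ⟨h, N, q, io, R, h0, h1, h2, h3, h4⟩ := exists_pt (A := A) hp
  have hc := cond_Ip P hp
  obtain ⟨X, hP, hhd, ht, f, hf, -⟩ := exists_super_sec (nabL_sq A) (Lift.id _) P h q io R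
    (fun _ => 1) (fun _ => 1) (fun a => (one_smul _ _).symm)
    (fun a b => by rw [one_smul, one_smul]; rfl) (fun a b => by rw [one_smul, one_smul]; rfl)
    (Ip A i p hp) h4 hc (s_Ip hp)
  obtain ⟨h5, h6⟩ := sub_st hp hc
  refine ⟨h, N, q, io, R, h0, h1, h2, h3, h4, X, hP, hhd, ?_, ?_, ?_⟩
  · rw [ht]
    funext a
    rcases a with a | a <;> rfl
  · have : FiniteDimensional ℂ ((dolL (nabL_sq A) (Lift.id _)).sub (Ip A i p hp) hc (s_Ip hp)).H := h5
    exact hf.finite'
  · exact hf.st_eq.trans h6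

end

end Crest.Agent.R275.LnkP5476
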