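import Crest.Agent.R275.LnkP6_476
import Crest.Agent.R275.LnkG_894

/-!
R275, block LINK, leaf D4 (helper476), part 7: helper894's `PtRes` for helper683's geometric index,
and the index side of LINK without further hypotheses on points.
-/

set_option autoImplicit false
set_option linter.unusedSectionVars false

open Set Filter Topology Complex
open scoped ContDiff ComplexConjugate Matrix
open Crest.Agent.R275.Geo Crest.Agent.R275.SmR425 Crest.Agent.R275.Smf798
open Crest.Agent.R275.LnkP6476 Crest.Agent.R275.LnkF894 Crest.Agent.R275.LnkG894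
open Crest.Agent.R275.Lam2130 Crest.Agent.R275.MI683

namespace Crest.Agent.R275.LnkP7476

noncomputable section

variable {M : Type} [TopologicalSpace M] {A : Atl 2 M} {G : ModSc (smf A) (Sec (lam2 A))}
  [T2Space M] [CompactSpace M]

/-- **D4** -/
theorem nonempty_ptRes (hσ : ∀ f : smf A, G.σ f = f) (hG : IsCoh G) (P : Part A) (p : M) (c : A.ι)
    (hp : p ∈ (A.e c).source) : Nonempty (PtRes A (G.kIndex hσ) p c) := by
  obtain ⟨h, N, q, io, R, h0, h1, h2, h3, -, h5⟩ := ind_pt hσ hG P hp
  exact ⟨{ h := h, n := Fin N, q := q, io := io, res := R, h0 := h0, h1 := h1, h2 := h2, nz := h3,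
           ind := h5 }⟩

/-- the index side of LINK for the geometric index -/
theorem linkIdx (hσ : ∀ f : smf A, G.σ f = f) (hG : IsCoh G) (P : Part A) (E E' : SB798.SB A)
    [Unique E.ρ] [Unique E'.ρ] (S : StdSec880.StdPair A (gsc E) (gsc E')) :
    (G.kIndex hσ).data.indR
        ((1 - SB798.cE P (G.kIndex hσ) E) * (1 - SB798.cE P (G.kIndex hσ) E')) =
      ∑ p ∈ S.Z, if S.sg p then 1 else -1 :=
  LnkG894.linkIdx P (G.kIndex hσ) (nonempty_ptRes hσ hG P) E E' S

end

end Crest.Agent.R275.LnkP7476
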