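import Crest.Agent.R275.XNI_106
import Crest.Agent.R275.LnkI_894

/-!
# R275 (S0418), block K: LINK plugged into the constructor of `XNIn` (helper106)

* `link_of`  : `KX106.Link` from helper894's `link` and the normalisation `Nrm`;
* `xnIn'`    : `XNIn` from `CMData`, the point resolutions, and the orientation functional;
* `xnInG`    : the same for the geometric index of helper683.
-/

set_option autoImplicit false
set_option linter.unusedSectionVars false

open Set Filter Topology

namespace Crest.Agent.R275.XNI106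

open TopK106 Zig470 Geo Smf798 KR798 SB798 GC293 Core144 ASConv293 KAsm106 KZig106 PDB412 ChiM825
  NEul865 KX106 XN194 NForm945 NGeo151 NTr151 PDY945 WtY945 INX945 EBF151 Loc647 QPb635

noncomputable section

section link

variable {M : Type} [TopologicalSpace M] [CompactSpace M] [T2Space M] {A : Atl 2 M}

/-- LINK for a normalised orientation functional -/
theorem link_of (P : Part A) (I : KIndex (smf A))
    (hpt : ∀ p c, p ∈ (A.e c).source → Nonempty (LnkF894.PtRes A I p c))
    {E : (List M → ℤ) → ℝ} (D : Ev 3 E) (hN : Nrm A E) {lab : M → A.ι}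
    (hlab : Lab (UA A) lab) : Link P I E lab := by
  intro L L' c c' hc hc'
  have h := LnkH894.link P I hpt (orE D) (1 : ℝ) hc hc' (rlab_iff.2 hlab)
    (PDB2412.tau_of_nrm D hN)
  rw [zsmul_eq_mul, mul_one] at h
  exact h

/-- the geometric index of helper683 (a structure over `A`, so that it can be used at lifted atlases
without synthesising instances) -/
structure GIx (A : Atl 2 M) where
  G : MI683.ModSc (smf A) (Geo.Sec (Lam2130.lam2 A))
  hσ : ∀ f : smf A, G.σ f = f
  coh : LnkP6476.IsCoh G

/-- the index map -/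
def GIx.I (g : GIx A) : KIndex (smf A) := g.G.kIndex g.hσ

theorem GIx.ptRes (g : GIx A) (P : Part A) (p : M) (c : A.ι) (hp : p ∈ (A.e c).source) :
    Nonempty (LnkF894.PtRes A g.I p c) := LnkI894.ptRes g.hσ g.coh P p c hp

/-- LINK for the geometric index of helper683 -/
theorem GIx.link (g : GIx A) (P : Part A)
    {E : (List M → ℤ) → ℝ} (D : Ev 3 E) (hN : Nrm A E) {lab : M → A.ι}
    (hlab : Lab (UA A) lab) : Link P g.I E lab :=
  link_of P _ (g.ptRes P) D hN hlab

end link

variable {M Z Z' : Type} [TopologicalSpace M] [TopologicalSpace Z] [TopologicalSpace Z']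
  [T2Space M] [LocallyCompactSpace M] [T2Space Z] [LocallyCompactSpace Z]
  [T2Space Z'] [CompactSpace Z'] {A : Atl 2 M} [Finite A.ι] {N : ℕ}
  {C : KCov A Z ℤ} {C' : KCov A Z' (ZMod N)}

/-- **constructor of `XNIn` with LINK proved** -/
def xnIn' (hpc : PreC A) (P : Part A) (F : KHom C C') (hφ : ∀ k : ℤ, F.φ k = (k : ZMod N))
    (hN : 1 ≤ N) {I : KIndex (smf C'.lift)} {e : ℤ} (cm : CMData (liftP C' P) I e)
    (hpt : ∀ p c, p ∈ (C'.lift.e c).source → Nonempty (LnkF894.PtRes C'.lift I p c))
    {lab : Z' → A.ι × ZMod N} (hlab : Lab (UA C'.lift) lab)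
    (G : EFn Z' (fun v : A.ι × ZMod N => C'.sheet v.1 v.2) lab (jw (liftP C' P)))
    (hNrm : Nrm C'.lift G.E) (he : Rk C'.lift e) : XNIn (wtY C hpc P) N e :=
  xnIn hpc P F hφ hN cm hlab G hNrm
    (link_of (liftP C' P) I hpt (ev_of_efn G) hNrm hlab) he

/-- **constructor of `XNIn` for the geometric index** -/
def xnInG (hpc : PreC A) (P : Part A) (F : KHom C C') (hφ : ∀ k : ℤ, F.φ k = (k : ZMod N))
    (hN : 1 ≤ N) (g : GIx C'.lift) {e : ℤ} (cm : CMData (liftP C' P) g.I e)
    {lab : Z' → A.ι × ZMod N} (hlab : Lab (UA C'.lift) lab)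
    (G : EFn Z' (fun v : A.ι × ZMod N => C'.sheet v.1 v.2) lab (jw (liftP C' P)))
    (hNrm : Nrm C'.lift G.E) (he : Rk C'.lift e) : XNIn (wtY C hpc P) N e :=
  xnIn hpc P F hφ hN cm hlab G hNrm
    (g.link (liftP C' P) (ev_of_efn G) hNrm hlab) he

end

end Crest.Agent.R275.XNI106
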