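import Crest.Agent.R275.MIi_683
import Crest.Agent.R275.XNJ_106

/-!
# R275, PART I' (helper683): 106's `GIx` for the geometric index
-/

set_option autoImplicit false

namespace Crest.Agent.R275.MI683

open Geo

variable {M : Type} [TopologicalSpace M] [CompactSpace M] {A : Atl 2 M} [Finite A.ι]

/-- the geometric index in 106's form -/
noncomputable def gix (P : Part A) : XNI106.GIx A where
  G := (gmodP P (LnkP5476.nabL_sq A)).ms
  hσ := gmodP_σ P (LnkP5476.nabL_sq A)
  coh := isCoh_geo P

theorem gix_I (P : Part A) : (gix P).I = geoI P (LnkP5476.nabL_sq A) := rfl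

theorem exists_gix (P : Part A) : Nonempty (XNI106.GIx A) := ⟨gix P⟩

end Crest.Agent.R275.MI683
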