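import Crest.Agent.R275.NA13_425
import Crest.Agent.R275.Dg5_199
import Crest.Agent.R275.Lam2_130
import Crest.Agent.R275.SmRP_425

/-!
# R275, PART I', leaf NA13, part 2 (helper425): the point and the diagonal

For 199's adapted data (`ptA A p` the point, `dgA A` the diagonal of `M × M`):
* `Adapted.hol : Hol S.reg` (the local equations are `∂̄`-closed), hence `DD P i b` preserve `J^m`;
* `dg_mem_iff` : `w ∈ J^m • Sec B` iff near `(x, x)` the coefficients of `w` in the chart `(i,i)`
  are combinations of the monomials of degree `m` in `z_a(x) - z_a(y)` (783's literal `F m`);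
* `pt_mem_iff` : the same at a point;
* `τ_mem_pow` : the swap preserves `J^m`.
-/

set_option autoImplicit false
set_option linter.unusedSectionVars false

open Set Filter Topology Complex
open scoped ContDiff Matrix ComplexConjugate

namespace Crest.Agent.R275.NA13425

open Crest.Agent.R275.Geo Crest.Agent.R275.NA3m425 Crest.Agent.R275.Smf798
  Crest.Agent.R275.SmR425 Crest.Agent.R275.Con425 Crest.Agent.R275.Dg199
  Crest.Agent.R275.Prod363

noncomputable section

section adapted
variable {n r : ℕ} {M : Type} [TopologicalSpace M] {A : Atl n M}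

/-- the local equations of 199's adapted data are `∂̄`-closed -/
theorem hol_reg (S : Adapted r A) : Hol S.reg := by
  intro k a q hq i hi b
  have h1 : DifferentiableAt ℂ (fun z => A.e (S.ix k) ((A.e i).symm z)) (A.e i q) :=
    (A.holo i (S.ix k)).differentiableAt ((isOpen_ov _ _).mem_nhds (mem_ov ⟨hi, hq⟩))
  have h3 : DifferentiableAt ℂ (fun z => S.Φ k ((A.e i).symm z)) (A.e i q) :=
    DifferentiableAt.comp (g := S.T k) (A.e i q) (S.T k).differentiableAt (h1.sub_const _)
  have h4 : DifferentiableAt ℂ (fun z => S.uu k a ((A.e i).symm z)) (A.e i q) := by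
    fin_cases a
    · exact h3.fst
    · exact h3.snd.fst
  exact Crest.Agent.R275.Lam2130.dbj_holo h4 b

end adapted

/-! ### powers and the involution -/

section swap
variable {n : ℕ} {M : Type} [TopologicalSpace M] {A : Atl n M} {R : RegData A}

theorem τ_mem_pow (S : Swap R) {m : ℕ} {f : smf A} (hf : f ∈ R.J ^ m) : S.τ f ∈ R.J ^ m := by
  have h1 : Ideal.map (S.τ : smf A →+* smf A) R.J ≤ R.J := by
    rw [Ideal.map_le_iff_le_comap]
    exact fun g hg => S.τ_mem_J hg
  have h2 : S.τ f ∈ Ideal.map (S.τ : smf A →+* smf A) (R.J ^ m) := Ideal.mem_map_of_mem _ hf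
  rw [Ideal.map_pow] at h2
  exact Ideal.pow_right_mono h1 m h2

end swap

/-! ### the diagonal -/

section diag
variable {M : Type} [TopologicalSpace M] [T2Space M] [CompactSpace M] (A : Atl 2 M)

/-- the differences of coordinates -/
def ud (i : A.ι) (a : Fin 2) (q : M × M) : ℂ := A.e i q.1 a - A.e i q.2 a

theorem dg_u (i : A.ι) : (dgA A).reg.u i = ud A i := by
  funext a p
  exact dgA_uu A i a p

/-- **NA13 for the diagonal** -/
theorem dg_mem_iff (P : Part (A.prod A)) {B : FBun (A.prod A)} (m : ℕ) (w : Sec B) :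
    w ∈ (dgA A).reg.J ^ m • (⊤ : Submodule (smf (A.prod A)) (Sec B)) ↔
      ∀ i, ∀ p ∈ (A.e i).source, ∀ k,
        LSpan (A.prod A) (mono m (ud A i)) (fun q => w.1 (i, i) q k) (p, p) := by
  constructor
  · intro h i p hp k
    have h1 := (mem_smul_pow_iff P (dgA A).reg m w).1 h i (p, p) rfl ⟨hp, hp⟩ (i, i) ⟨hp, hp⟩ k
    exact (dg_u A i) ▸ h1
  · intro h
    refine mem_smul_pow_of_exists P (dgA A).reg m w ?_
    rintro ⟨x, y⟩ hq
    have hxy : x = y := hq
    subst hxy
    obtain ⟨i, hi⟩ := A.cover x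
    refine ⟨i, ⟨hi, hi⟩, (i, i), ⟨hi, hi⟩, fun l => ?_⟩
    exact (dg_u A i).symm ▸ (h i x hi l)

/-- the derivations preserve the powers of the ideal of the diagonal -/
theorem dg_DD_mem (P : Part (A.prod A)) (i : (A.prod A).ι) (b : Fin (2 + 2))
    {f : smf (A.prod A)} {m : ℕ} (hf : f ∈ (dgA A).reg.J ^ m) :
    DD P i b f ∈ (dgA A).reg.J ^ m :=
  DD_mem_pow (hol_reg (dgA A)) P i b hf

end diag

/-! ### a point -/

section pt
variable {M : Type} [TopologicalSpace M] [T2Space M] [CompactSpace M] (A : Atl 2 M)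

theorem pt_u (x : M) (k : (ptA A x).K) :
    (ptA A x).reg.u k = fun a q => A.e k.1 q a - A.e k.1 x a := by
  funext a p
  exact ptA_uu A x k a p

/-- **NA13 for a point** -/
theorem pt_mem_iff (P : Part A) (x : M) {B : FBun A} (m : ℕ) (w : Sec B) :
    w ∈ (ptA A x).reg.J ^ m • (⊤ : Submodule (smf A) (Sec B)) ↔
      ∀ i, x ∈ (A.e i).source → ∀ k,
        LSpan A (mono m fun a q => A.e i q a - A.e i x a) (fun q => w.1 i q k) x := by
  constructor
  · intro h i hi k
    have h1 := (mem_smul_pow_iff P (ptA A x).reg m w).1 h ⟨i, hi⟩ x rfl hi i hi k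
    exact (pt_u A x ⟨i, hi⟩) ▸ h1
  · intro h
    refine mem_smul_pow_of_exists P (ptA A x).reg m w ?_
    intro q hq
    have hxy : q = x := hq
    subst hxy
    obtain ⟨i, hi⟩ := A.cover q
    refine ⟨⟨i, hi⟩, hi, i, hi, fun l => ?_⟩
    exact (pt_u A q ⟨i, hi⟩).symm ▸ (h i hi l)

theorem pt_DD_mem (P : Part A) (x : M) (i : A.ι) (b : Fin 2)
    {f : smf A} {m : ℕ} (hf : f ∈ (ptA A x).reg.J ^ m) :
    DD P i b f ∈ (ptA A x).reg.J ^ m :=
  DD_mem_pow (hol_reg (ptA A x)) P i b hf

end pt

end

end Crest.Agent.R275.NA13425
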