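import Crest.Agent.R275.NA4m_783
import Crest.Agent.R275.NoeFin_890

/-!
# R275, NA4 (helper783), part n: `NoeFin890.Hac`
-/

set_option autoImplicit false
set_option maxHeartbeats 400000

open Crest.Agent.R275.Geo Crest.Agent.R275.NoeFin890

namespace Crest.Agent.R275.NA4783

variable {M : Type} [TopologicalSpace M] [T2Space M] [CompactSpace M]

theorem hac (A : Atl 2 M) : Hac A := by
  intro m q w hd h0 hn
  obtain ⟨v, -, -, h1, h2⟩ := acyc (A := A) (fun u => NoeAsm890.flat_prod u) w hd h0 hn
  exact ⟨v, h1, h2⟩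

end Crest.Agent.R275.NA4783
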