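import Crest.Agent.R275.NA4g_783
import Crest.Agent.R275.Dg5_199
import Crest.Agent.R275.ProdC_363

/-!
# R275, NA4: `rho` and the swap (helper686)

`rho_swap : rho A m (swap w) = (-1)^m • rho A m w`.
-/

set_option autoImplicit false
set_option linter.unusedSectionVars false

open Set Filter Topology Complex
open scoped ContDiff Matrix ComplexConjugate Kronecker

namespace Crest.Agent.R275.NA4sw686

open Crest.Agent.R275.Geo Crest.Agent.R275.Smf798 Crest.Agent.R275.Dg199 Crest.Agent.R275.Prod363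
open Crest.Agent.R275.SmR425 Crest.Agent.R275.Lam2130 Crest.Agent.R275.Sym585
open Crest.Agent.R275.SymBun585 Crest.Agent.R275.NA4783

noncomputable section

variable {X : Type} [TopologicalSpace X] [T2Space X] {A : Atl 2 X}

theorem RM_comm (k a b : Fin 4) : RM b k a * (-1) ^ (dg a * dg b) = RM a k b := by
  fin_cases a <;> fin_cases b <;> fin_cases k <;>
    simp [RM_zero, RM_one, RM_two, RM_three, dg]

/-- the graded swap on the fibre -/
def SF (v : (BB A).κ → ℂ) : (BB A).κ → ℂ :=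
  fun p : Fin 4 × Fin 4 => (-1 : ℂ) ^ (dg p.1 * dg p.2) * v (p.2, p.1)

theorem ResL_SF (v : (BB A).κ → ℂ) : ResL A (SF v) = ResL A v := by
  funext k
  have h1 : ∀ v : (BB A).κ → ℂ, ResL A v k = ∑ p : Fin 4 × Fin 4, NA4783.Res k p * v p :=
    fun v => rfl
  rw [h1, h1]
  refine Fintype.sum_equiv (Equiv.prodComm _ _) _ _ fun p => ?_
  obtain ⟨a, b⟩ := p
  show RM b k a * ((-1 : ℂ) ^ (dg a * dg b) * v (b, a)) = RM a k b * v (b, a)
  rw [← mul_assoc, RM_comm]

theorem ud_swap (i : A.ι) (a : Fin 2) (q : X × X) : ud A i a q.swap = -ud A i a q := by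
  unfold ud
  rw [Prod.fst_swap, Prod.snd_swap]
  ring

theorem mon_swap (m : ℕ) (i : A.ι) (c : Fin (m + 1)) (q : X × X) :
    mon A m i c q.swap = (-1) ^ m * mon A m i c q := by
  unfold mon
  rw [ud_swap, ud_swap, neg_pow, neg_pow (ud A i 1 q)]
  have h : m = (m - c : ℕ) + c := (Nat.sub_add_cancel (Nat.lt_succ_iff.1 c.2)).symm
  have h2 : (-1 : ℂ) ^ m = (-1) ^ (m - c : ℕ) * (-1) ^ (c : ℕ) := by
    rw [← pow_add, ← h]
  rw [h2]
  ring

theorem Rep.swap {m : ℕ} {F : X × X → (BB A).κ → ℂ} {i : A.ι} {p : X}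
    {g : Fin (m + 1) → X × X → (BB A).κ → ℂ} (h : Rep (A := A) m F i p g) :
    Rep (A := A) m (fun q => SF (F q.swap)) i p (fun c q => ((-1 : ℂ) ^ m) • SF (g c q.swap)) := by
  have hs : Tendsto (Prod.swap : X × X → X × X) (𝓝 (p, p)) (𝓝 (p, p)) :=
    (continuous_swap (X := X) (Y := X)).tendsto (p, p)
  refine ⟨fun c => ?_, ?_⟩
  · filter_upwards [hs.eventually (h.1 c)] with q hq
    rw [smN_pi]
    intro (k : Fin 4 × Fin 4)
    have h1 := smN_swap A (smN_pi.1 hq (k.2, k.1))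
    exact ((smN_const (A := A.prod A) ((-1 : ℂ) ^ m * (-1 : ℂ) ^ (dg k.1 * dg k.2)) q).mul
      h1).congr (Eventually.of_forall fun q => by
        show (-1 : ℂ) ^ m * ((-1 : ℂ) ^ (dg k.1 * dg k.2) * g c q.swap (k.2, k.1)) = _
        ring)
  · filter_upwards [hs.eventually h.2] with q hq
    rw [hq]
    funext (k : Fin 4 × Fin 4)
    show (-1 : ℂ) ^ (dg k.1 * dg k.2) * (∑ c, mon A m i c q.swap • g c q.swap) (k.2, k.1) =
      (∑ c, mon A m i c q • (-1 : ℂ) ^ m • SF (g c q.swap)) k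
    have hA : ∀ (s : Fin (m + 1) → (BB A).κ → ℂ) (k : (BB A).κ), (∑ c, s c) k = ∑ c, s c k :=
      fun s k => Finset.sum_apply _ _ _
    refine (congrArg (fun z => (-1 : ℂ) ^ (dg k.1 * dg k.2) * z) (hA _ (k.2, k.1))).trans ?_
    refine Eq.trans ?_ (hA _ k).symm
    rw [Finset.mul_sum]
    refine Finset.sum_congr rfl fun c _ => ?_
    rw [mon_swap]
    show (-1 : ℂ) ^ (dg k.1 * dg k.2) * ((-1) ^ m * mon A m i c q * g c q.swap (k.2, k.1)) =
      mon A m i c q * ((-1 : ℂ) ^ m * ((-1 : ℂ) ^ (dg k.1 * dg k.2) * g c q.swap (k.2, k.1)))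
    ring

/-- **swap rule** (= `NoeFin890.Hsw A`) -/
theorem rho_swap (m : ℕ) (w : Fm (BB A) m) (hw : (swpL (lam2 A) w.1 : Sec (BB A)) ∈ Fm (BB A) m) :
    rho A m ⟨swpL (lam2 A) w.1, hw⟩ = ((-1 : ℂ) ^ m) • rho A m w := by
  refine sec_ext fun i x => ?_
  by_cases hx : x ∈ (A.e i).source
  · obtain ⟨g, hg⟩ := exists_rep_sec w hx
    have h2 : Rep (A := A) m ((swpL (lam2 A) w.1 : Sec (BB A)).1 (dI i)) i x
        (fun c q => ((-1 : ℂ) ^ m) • SF (g c q.swap)) :=
      (Rep.swap hg).congr (Eventually.of_forall fun q => rfl)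
    funext k
    obtain ⟨k, c⟩ := k
    have e1 := rho_apply ⟨swpL (lam2 A) w.1, hw⟩ hx h2 k c
    have e2 := rho_apply w hx hg k c
    refine e1.trans ?_
    show ResL A (((-1 : ℂ) ^ m) • SF (g c (x, x))) k = (-1 : ℂ) ^ m * (rho A m w).1 i x (k, c)
    rw [map_smul, ResL_SF, e2]
    rfl
  · funext k
    have e : (((-1 : ℂ) ^ m) • rho A m w : Sec (CC A m)).1 i x k =
      (-1 : ℂ) ^ m * (rho A m w).1 i x k := rfl
    rw [e, rho_coe, rho_coe, rhoF_off hx, rhoF_off hx]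
    exact (mul_zero _).symm

end

end Crest.Agent.R275.NA4sw686
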