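import Crest.Agent.R275.NA8c_759
import Crest.Agent.R275.NA13c_425
import Crest.Agent.R275.SmRP_425
import Crest.Agent.R275.SymRel_585
import Crest.Agent.R275.ChiM_825

/-!
R275, PART I', NA8 (helper759), part e: Noether's formula for a compact surface in the form of
helper825's `CMData.noether`, from the remaining inputs (I4), (I5), index theorems, Serre.
-/

set_option autoImplicit false
set_option linter.unusedSectionVars false

noncomputable section

namespace Crest.Agent.R275.NA8759

open Set Filter Complex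
open Crest.Agent.R275.Geo Crest.Agent.R275.Smf798 Crest.Agent.R275.Prod363
open Crest.Agent.R275.Dg199 Crest.Agent.R275.SB798 Crest.Agent.R275.KR798
open Crest.Agent.R275.NA7763 Crest.Agent.R275.NA6763 Crest.Agent.R275.NA3m425
open Crest.Agent.R275.NA6b763 Crest.Agent.R275.NA3a759 Crest.Agent.R275.SmR425
open Crest.Agent.R275.DolG763 Crest.Agent.R275.SymBun585 Crest.Agent.R275.SymIso585
open Crest.Agent.R275.SymRel585 Crest.Agent.R275.ChiM825 Crest.Agent.R275.Core144
open Crest.Agent.R275.GC293

variable {M : Type} [TopologicalSpace M] [T2Space M] [CompactSpace M] {A : Atl 2 M}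

section

variable (P : Part A) (PP : Part (A.prod A)) (B : FBun A)
  (hBB : ∀ u : Sec (B.prod B), nabL (B.prod B) (nabL (B.prod B) u) = 0)

/-- the Dolbeault complex of `M × M` with the swap -/
def EE : Dol ℂ (smf (A.prod A)) (Sec (B.prod B)) := dolL hBB (NA13425.swLift B)

theorem EE_s (a : smf (A.prod A)) : (EE B hBB).s a = (dgS A).τ a := rfl

include PP in
theorem EE_cond : (EE B hBB).Cond (dgA A).reg.J := by
  have h := NA13425.dg_cond PP (B.prod B) hBB (NA13425.swLift B) 1
  rwa [pow_one] at h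

/-- the complexes `J^m Ω` -/
def SS (m : ℕ) := dcx A (EE B hBB) (EE_s B hBB) (EE_cond PP B hBB) m

end

/-- **Noether's formula**, in terms of `indE`. -/
theorem noether_ind (P : Part A) (PP : Part (A.prod A)) (I : KIndex (smf A))
    (B : FBun A) (hBB : ∀ u : Sec (B.prod B), nabL (B.prod B) (nabL (B.prod B) u) = 0)
    (Ix : SInd (EE B hBB)) (gr : ℕ → ℂ)
    (h0 : (EE B hBB).sc.st = (indE P I (SB.one A) : ℂ))
    (h4 : ∀ m, FiniteDimensional ℂ (SS PP B hBB m).H → FiniteDimensional ℂ (SS PP B hBB (m + 1)).H →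
      (SS PP B hBB m).st - (SS PP B hBB (m + 1)).st = (-1) ^ m * gr m)
    (hE : ∀ m, gr m = (indE P I (symV A m).sb : ℂ))
    (hK : indE P I (KV A).sb = indE P I (SB.one A)) :
    12 * indE P I (SB.one A) =
      (indE P I ((KV A).sb.mul (KV A).sb) - indE P I (SB.one A)) +
        (2 * indE P I (SB.one A) - indE P I (baseSB (coc A))) := by
  have hflat : Module.Flat (smf (A.prod A)) (Sec (B.prod B)) := flat_sec PP (B.prod B)
  refine noether_dg A (EE B hBB) Ix (EE_s B hBB) (EE_cond PP B hBB)
    (indE P I (SB.one A)) _ _ (fun m => indE P I (symV A m).sb) h0 (fun m => ?_)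
    (fun m => indE_symV (coc A) P I hK m)
  have h1 := h4 m (finite_dcx A (EE B hBB) Ix (EE_s B hBB) (EE_cond PP B hBB) m)
    (finite_dcx A (EE B hBB) Ix (EE_s B hBB) (EE_cond PP B hBB) (m + 1))
  rw [hE] at h1
  push_cast
  exact h1

/-- the canonical bundle of 144 and the determinant bundle of 585 -/
def isoKV : SB.Iso (toSB (slb (KB A))) (KV A).sb :=
  have : Unique (KV A).sb.ρ := inferInstanceAs (Unique Unit)
  isoOfFun _ _ (fun _ _ => 1) (fun _ => contDiffOn_const) (fun _ _ _ => one_ne_zero)
    (fun i j x hx => by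
      rw [one_mul, mul_one]
      show (KB A).g i j x = ((Jm A i j x).transpose).det
      rw [KB_g hx, Matrix.det_transpose])

/-- **Noether's formula** in the form of `CMData.noether`. -/
theorem noether_cm (P : Part A) (PP : Part (A.prod A)) (I : KIndex (smf A))
    (B : FBun A) (hBB : ∀ u : Sec (B.prod B), nabL (B.prod B) (nabL (B.prod B) u) = 0)
    (Ix : SInd (EE B hBB)) (gr : ℕ → ℂ)
    (h0 : (EE B hBB).sc.st = (indE P I (SB.one A) : ℂ))
    (h4 : ∀ m, FiniteDimensional ℂ (SS PP B hBB m).H → FiniteDimensional ℂ (SS PP B hBB (m + 1)).H →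
      (SS PP B hBB m).st - (SS PP B hBB (m + 1)).st = (-1) ^ m * gr m)
    (hE : ∀ m, gr m = (indE P I (symV A m).sb : ℂ))
    (hK : chiL P I (slb (KB A)) = chiL P I (SLB.triv A)) (e : ℤ)
    (he : e = chiL P I (SLB.triv A) - indE P I (OmT75.Om1 A).sb + chiL P I (slb (KB A))) :
    12 * chiL P I (SLB.triv A) = bL P I (slb (KB A)) (slb (KB A)) + e := by
  have e1 : chiL P I (SLB.triv A) = indE P I (SB.one A) := by
    rw [chiL_def, indE, indE, cE_congr isoOne]
  have e2 : chiL P I (slb (KB A)) = indE P I (KV A).sb := by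
    rw [chiL_def, indE, indE, cE_congr isoKV]
  have e3 : chiL P I ((slb (KB A)).tmul (slb (KB A))) = indE P I ((KV A).sb.mul (KV A).sb) := by
    rw [chiL, cl_tmul, indE, cE_mul, ChiM825.cl, cE_congr isoKV]
  have hK' : indE P I (KV A).sb = indE P I (SB.one A) := by rw [← e1, ← e2, hK]
  have h := noether_ind P PP I B hBB Ix gr h0 h4 hE hK'
  have e4 : indE P I (OmT75.Om1 A).sb = indE P I (baseSB (coc A)) := rfl
  rw [he, bL, e3, hK, e1, e4]
  linarith

end Crest.Agent.R275.NA8759
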