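import Crest.Agent.R275.EDR_890
import Crest.Agent.R275.BrixB_509
import Crest.Agent.R275.MIe_683
import Crest.Agent.R275.LnkP6_476
import Crest.Agent.R275.SymRel_585
import Crest.Agent.R275.ChiM_825
import Crest.Agent.R275.NA8e_759
import Crest.Agent.R275.Kun5_570

/-!
# R275, Noether assembly, part 1 (helper890)

For helper683's module index `G` on `Sec (lam2 A)` (`σ = 1`, `IsCoh G` = 683's cohesive theorem):
* `ind_eq`    : `indE P (G.kIndex hσ) E = G.ind (pr P E) 1`;
* `ind_st`    : for an integrable `E : VBun A`, `H^*(M, E)` is finite-dimensional and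
                `indE P (G.kIndex hσ) E.sb = st (Sec (tw (lam2 A) E), nab, (-1)^deg)`;
* `e_formula` : `ind 1 - ind Ω¹ + ind K = nerveChi` (block EDR).
-/

set_option autoImplicit false
set_option linter.unusedSectionVars false

open Set Filter Topology Complex
open scoped ContDiff Matrix ComplexConjugate Kronecker

namespace Crest.Agent.R275.NoeAsm890

open Geo Smf798 KR798 SB798 NA7763 NA6b763 DolG763 Brix509 MI683 Lam2130 EDR890 EDRConc585
open LnkP5476 LnkP6476

noncomputable section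

variable {M : Type} [TopologicalSpace M] {A : Atl 2 M} [CompactSpace M]

section index

variable {G : ModSc (smf A) (Sec (lam2 A))} (hσ : ∀ f : smf A, G.σ f = f) (P : Part A)

/-- the index of a bundle in 683's terms -/
theorem ind_eq (E : SB A) : indE P (G.kIndex hσ) E = G.ind (pr P E) 1 := by
  have h0 : pr P E * pr P E = pr P E := pr_idem P E
  have h1 := idem_reindex (Fintype.equivFin _) h0
  have h2 : (G.kIndex hσ).data.indR (cE P (G.kIndex hσ) E) =
      (G.kIndex hσ).ind (Matrix.reindex (Fintype.equivFin _) (Fintype.equivFin _) (pr P E)) := by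
    unfold cE
    rw [(G.kIndex hσ).c_congr h0 h1 (isoM_reindex (Fintype.equivFin _) h0), KIndex.indR_c]
  unfold indE
  rw [h2]
  obtain ⟨a, b, hab, hba⟩ := isoM_reindex (Fintype.equivFin _) h0
  exact (G.ind_iso h0 h1 (G.eqv_one hσ _) (G.eqv_one hσ _) hab hba (G.eqv_one hσ b)).symm

variable (hG : IsCoh G)

include hG in
/-- **index = Euler characteristic** for integrable bundles -/
theorem ind_st (E : VBun A)
    (hE : ∀ u : Sec (tw (lam2 A) E), nabL (tw (lam2 A) E) (nabL (tw (lam2 A) E) u) = 0) :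
    FiniteDimensional ℂ (scB (tw (lam2 A) E) hE).H ∧
      (scB (tw (lam2 A) E) hE).st = ((indE P (G.kIndex hσ) E.sb : ℤ) : ℂ) := by
  obtain ⟨h1, h2⟩ := hG _ (supE P (lam2 A) E (nabL_sq A) hE) (fun _ => le_rfl)
  have h3 : FiniteDimensional ℂ (supE P (lam2 A) E (nabL_sq A) hE).sc.H := h1
  refine ⟨finite_supE P (lam2 A) E (nabL_sq A) hE, ?_⟩
  refine (st_supE P (lam2 A) E (nabL_sq A) hE).trans (h2.trans ?_)
  rw [ind_eq hσ P]
  congr 2

end index

/-- 509's supercomplex is a Dolbeault supercomplex in the sense of EDR -/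
theorem isDol_scB {n : ℕ} {M : Type} [TopologicalSpace M] {A : Atl n M} (B : FBun A)
    (h : ∀ u : Sec B, nabL B (nabL B u) = 0) : IsDol B (scB B h) where
  d _ := rfl
  T _ _ _ _ := rfl

section formula

variable {G : ModSc (smf A) (Sec (lam2 A))} (hσ : ∀ f : smf A, G.σ f = f) (P : Part A)
  (hG : IsCoh G)

/-- holomorphic bundles are integrable -/
theorem flat_tw (E : VBun A) (ha : ∀ i b, ∀ x ∈ (A.e i).source, E.a i b x = 0)
    (u : Sec (tw (lam2 A) E)) : nabL (tw (lam2 A) E) (nabL (tw (lam2 A) E) u) = 0 :=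
  nabL_nabL_tw (fun _ _ _ => rfl) ha u

theorem flat_sym (m : ℕ) (u : Sec (tw (lam2 A) (SymBun585.symV A m))) :
    nabL (tw (lam2 A) (SymBun585.symV A m)) (nabL (tw (lam2 A) (SymBun585.symV A m)) u) = 0 :=
  flat_tw _ (fun _ _ _ _ => rfl) u

theorem flat_om (u : Sec (tw (lam2 A) (OmT75.Om1 A))) :
    nabL (tw (lam2 A) (OmT75.Om1 A)) (nabL (tw (lam2 A) (OmT75.Om1 A)) u) = 0 :=
  flat_tw _ (fun _ _ _ _ => rfl) u

theorem flat_K (u : Sec (tw (lam2 A) (SymBun585.KV A))) :
    nabL (tw (lam2 A) (SymBun585.KV A)) (nabL (tw (lam2 A) (SymBun585.KV A)) u) = 0 :=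
  flat_tw _ (fun _ _ _ _ => rfl) u

theorem indE_sym0 (I : KIndex (smf A)) :
    indE P I (SymBun585.symV A 0).sb = indE P I (SB.one A) := by
  exact congrArg I.data.indR (cE_congr (SymIso585.iso0 (SymBun585.coc A)))

include hG in
/-- **the Euler number of the nerve is `χ(O) - χ(Ω¹) + χ(K)`** -/
theorem e_formula [Fintype A.ι] (hA : GC293.GoodA A) :
    indE P (G.kIndex hσ) (SB.one A) - indE P (G.kIndex hσ) (OmT75.Om1 A).sb
      + indE P (G.kIndex hσ) (SymBun585.KV A).sb =
      nerveChi (fun i => (A.e i).source) Finset.univ := by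
  obtain ⟨f0, s0⟩ := ind_st hσ P hG (SymBun585.symV A 0) (flat_sym 0)
  obtain ⟨f1, s1⟩ := ind_st hσ P hG (OmT75.Om1 A) flat_om
  obtain ⟨f2, s2⟩ := ind_st hσ P hG (SymBun585.KV A) flat_K
  have h := edr' hA P (comp0 A) (comp1 A) (comp2 A) _ _ _ (isDol_scB _ _) (isDol_scB _ _)
    (isDol_scB _ _) f0 f1 f2
  rw [s0, s1, s2, indE_sym0] at h
  exact_mod_cast h

/-- the index of the trivial bundle -/
theorem indE_one : indE P (G.kIndex hσ) (SB.one A) = G.chi := by
  have h1 : indE P (G.kIndex hσ) (SB.one A) = (G.kIndex hσ).data.indR 1 :=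
    congrArg (G.kIndex hσ).data.indR cE_one
  rw [h1, ← (G.kIndex hσ).c_one (n := Fin 1), KR798.KIndex.indR_c]
  show G.ind (1 : Matrix (Fin 1) (Fin 1) (smf A)) 1 = _
  rw [G.ind_one]
  simp

theorem sc_dolP (B : FBun A) (hB : ∀ u : Sec B, nabL B (nabL B u) = 0) :
    (dolP hB).sc = scB B hB := rfl

include hG in
theorem st_one : (scB (lam2 A) (nabL_sq A)).st = ((indE P (G.kIndex hσ) (SB.one A) : ℤ) : ℂ) := by
  rw [indE_one]
  exact hG.st_eq

/-- flatness on the product -/
theorem flat_prod (u : Sec ((lam2 A).prod (lam2 A))) :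
    nabL ((lam2 A).prod (lam2 A)) (nabL ((lam2 A).prod (lam2 A)) u) = 0 :=
  nabL_nabL_zero (fun i p _ => by
    show (lam2 A).α i.1 p.1 ⊗ₖ (1 : Matrix (lam2 A).κ (lam2 A).κ ℂ) +
      Prod363.sg (lam2 A).deg ⊗ₖ (lam2 A).α i.2 p.2 = 0
    have h1 : (lam2 A).α i.1 p.1 = 0 := rfl
    have h2 : (lam2 A).α i.2 p.2 = 0 := rfl
    rw [h1, h2, Matrix.zero_kronecker, Matrix.kronecker_zero, add_zero]) u

open ChiM825 NA8759 in
include hG in
/-- **Noether's formula** (field `noether` of 825's `CMData`, `e` = Euler number of the nerve) -/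
theorem noether [T2Space M] [Fintype A.ι] (hA : GC293.GoodA A) (PP : Part (A.prod A))
    (Ix : SInd (EE (lam2 A) flat_prod))
    (h4 : ∀ m, FiniteDimensional ℂ (SS PP (lam2 A) flat_prod m).H →
      FiniteDimensional ℂ (SS PP (lam2 A) flat_prod (m + 1)).H →
      (SS PP (lam2 A) flat_prod m).st - (SS PP (lam2 A) flat_prod (m + 1)).st =
        (-1) ^ m * (dolP (flat_sym (A := A) m)).sc.st)
    (hK : chiL P (G.kIndex hσ) (slb (Core144.KB A)) = chiL P (G.kIndex hσ) (GC293.SLB.triv A)) :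
    12 * chiL P (G.kIndex hσ) (GC293.SLB.triv A) =
      bL P (G.kIndex hσ) (slb (Core144.KB A)) (slb (Core144.KB A)) +
        nerveChi (fun i => (A.e i).source) Finset.univ := by
  refine noether_cm P PP (G.kIndex hσ) (lam2 A) flat_prod Ix
    (fun m => (dolP (flat_sym (A := A) m)).sc.st) ?_ h4 ?_ hK _ ?_
  · rw [← st_one hσ P hG]
    exact (Kun570.kunneth_dol P (lam2 A) (nabL_sq A) flat_prod).2
  · intro m
    exact (ind_st hσ P hG (SymBun585.symV A m) (flat_sym m)).2
  · have h1 : chiL P (G.kIndex hσ) (GC293.SLB.triv A) = indE P (G.kIndex hσ) (SB.one A) := by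
      rw [chiL_def, indE, indE, cE_congr isoOne]
    have h2 : chiL P (G.kIndex hσ) (slb (Core144.KB A)) =
        indE P (G.kIndex hσ) (SymBun585.KV A).sb := by
      rw [chiL_def, indE, indE, cE_congr isoKV]
    rw [h1, h2, e_formula hσ P hG hA]

open ChiM825 Core144 Q74 in
/-- Serre duality for the index, from 825's fields `euler`, `serre0`, `serre1` -/
theorem hK_of {I : KIndex (smf A)} (euler : ∀ L : LB A, chiL P I (slb L) = chiE (isLC L))
    (serre0 : ∀ L : LB A, hq 2 L = hq 0 (Core144.KB A * L⁻¹))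
    (serre1 : ∀ L : LB A, hq 1 L = hq 1 (Core144.KB A * L⁻¹)) :
    chiL P I (slb (Core144.KB A)) = chiL P I (GC293.SLB.triv A) := by
  have h := serre_chi serre0 serre1 (1 : LB A)
  rw [inv_one, mul_one] at h
  rw [← slb_one, euler, euler, h]

open ChiM825 Core144 Q74 NA8759 in
include hG in
/-- **Noether's formula**, with `euler` and Serre duality in 825's form -/
theorem noether' [T2Space M] [Fintype A.ι] (hA : GC293.GoodA A) (PP : Part (A.prod A))
    (Ix : SInd (EE (lam2 A) flat_prod))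
    (h4 : ∀ m, FiniteDimensional ℂ (SS PP (lam2 A) flat_prod m).H →
      FiniteDimensional ℂ (SS PP (lam2 A) flat_prod (m + 1)).H →
      (SS PP (lam2 A) flat_prod m).st - (SS PP (lam2 A) flat_prod (m + 1)).st =
        (-1) ^ m * (dolP (flat_sym (A := A) m)).sc.st)
    (euler : ∀ L : LB A, chiL P (G.kIndex hσ) (slb L) = chiE (isLC L))
    (serre0 : ∀ L : LB A, hq 2 L = hq 0 (Core144.KB A * L⁻¹))
    (serre1 : ∀ L : LB A, hq 1 L = hq 1 (Core144.KB A * L⁻¹)) :
    12 * chiL P (G.kIndex hσ) (GC293.SLB.triv A) =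
      bL P (G.kIndex hσ) (slb (Core144.KB A)) (slb (Core144.KB A)) +
        nerveChi (fun i => (A.e i).source) Finset.univ :=
  noether hσ P hG hA PP Ix h4 (hK_of P euler serre0 serre1)

end formula

end

end Crest.Agent.R275.NoeAsm890
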