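import Crest.Agent.R275.Del_75
import Crest.Agent.R240.SmInt

/-!
# R275, block O/EU (helper75): local Poincaré lemma in Fock form

`κ` the fibre of all complex forms, `e a` = `dz̄_a ∧`, `f a` = `dz_a ∧`, `io a`, `jo a` the
contractions.  `Dfl u = ∑ e_a ∂̄_a u + f_a ∂_a u`.
-/

set_option autoImplicit false
set_option linter.unusedSectionVars false

open Set Filter Topology Complex MeasureTheory
open scoped ContDiff Matrix ComplexConjugate
open Crest.Agent.R240.SmJ

namespace Crest.Agent.R275.Poi75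

open Geo OmT75

noncomputable section

variable {n : ℕ}

/-- radial integral -/
def Rad (q : ℕ) (z0 : Cn n) (f : Cn n → ℂ) (z : Cn n) : ℂ :=
  ∫ t in Icc (0 : ℝ) 1, ((t : ℂ) ^ q) * f (z0 + t • (z - z0))

/-- star shaped about `z0` -/
def StarAt (z0 : Cn n) (U : Set (Cn n)) : Prop :=
  ∀ z ∈ U, ∀ t ∈ Icc (0 : ℝ) 1, z0 + t • (z - z0) ∈ U

theorem _root_.Convex.starAt {z0 : Cn n} {U : Set (Cn n)} (hU : Convex ℝ U) (h0 : z0 ∈ U) :
    StarAt z0 U := by
  intro z hz t ht
  have : z0 + t • (z - z0) = (1 - t) • z0 + t • z := by module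
  rw [this]
  exact hU h0 hz (by linarith [ht.2]) ht.1 (by ring)

/-- the integrand -/
def IG (q : ℕ) (z0 : Cn n) (f : Cn n → ℂ) (p : Cn n × ℝ) : ℂ :=
  ((p.2 : ℂ) ^ q) * f (z0 + p.2 • (p.1 - z0))

/-- the domain of the integrand -/
def SU (z0 : Cn n) (U : Set (Cn n)) : Set (Cn n × ℝ) := {p | z0 + p.2 • (p.1 - z0) ∈ U}

theorem isOpen_SU {z0 : Cn n} {U : Set (Cn n)} (hU : IsOpen U) : IsOpen (SU z0 U) :=
  hU.preimage (by fun_prop)

theorem subset_SU {z0 : Cn n} {U : Set (Cn n)} (hS : StarAt z0 U) :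
    U ×ˢ Icc (0 : ℝ) 1 ⊆ SU z0 U := fun p hp => hS p.1 hp.1 p.2 hp.2

theorem contDiffOn_IG (q : ℕ) {z0 : Cn n} {U : Set (Cn n)} {f : Cn n → ℂ}
    (hf : ContDiffOn ℝ ∞ f U) : ContDiffOn ℝ ∞ (IG q z0 f) (SU z0 U) := by
  unfold IG
  refine ContDiffOn.mul ?_ ?_
  · refine ContDiff.contDiffOn ?_
    have : ContDiff ℝ ∞ (fun p : Cn n × ℝ => ((p.2 : ℝ) : ℂ)) :=
      Complex.ofRealCLM.contDiff.comp contDiff_snd
    exact this.pow q
  · have h1 : ContDiff ℝ ∞ (fun p : Cn n × ℝ => z0 + p.2 • (p.1 - z0)) := by fun_prop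
    exact hf.comp h1.contDiffOn (fun p hp => hp)

theorem contDiffOn_Rad (q : ℕ) {z0 : Cn n} {U : Set (Cn n)} (hU : IsOpen U) (hS : StarAt z0 U)
    {f : Cn n → ℂ} (hf : ContDiffOn ℝ ∞ f U) : ContDiffOn ℝ ∞ (Rad q z0 f) U :=
  contDiffOn_integral (E := Cn n) (E' := ℝ) (V := ℂ) (g := IG q z0 f) (K := Icc (0 : ℝ) 1)
    (isOpen_SU hU) hU isCompact_Icc (subset_SU hS) volume (contDiffOn_IG q hf)

theorem dx_IG (q : ℕ) {z0 : Cn n} {U : Set (Cn n)} (hU : IsOpen U) {f : Cn n → ℂ}
    (hf : ContDiffOn ℝ ∞ f U) {z : Cn n} {t : ℝ} (hp : (z, t) ∈ SU z0 U) (v : Cn n) :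
    dx (IG q z0 f) (z, t) v
      = ((t : ℂ) ^ (q + 1)) * fderiv ℝ f (z0 + t • (z - z0)) v := by
  have hd : DifferentiableAt ℝ (IG q z0 f) (z, t) :=
    ((contDiffOn_IG q hf).contDiffAt ((isOpen_SU hU).mem_nhds hp)).differentiableAt (by simp)
  have h1 : HasFDerivAt (fun x => IG q z0 f (x, t)) (dx (IG q z0 f) (z, t)) z :=
    hasFDerivAt_dx (p := (z, t)) hd
  have hgd : DifferentiableAt ℝ f (z0 + t • (z - z0)) :=
    (hf.contDiffAt (hU.mem_nhds hp)).differentiableAt (by simp)
  have hL : HasFDerivAt (fun x : Cn n => z0 + t • (x - z0)) (t • ContinuousLinearMap.id ℝ (Cn n)) z :=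
    (((hasFDerivAt_id z).sub_const z0).const_smul t).const_add z0
  have h2 : HasFDerivAt (fun x => IG q z0 f (x, t))
      (((t : ℂ) ^ q) • ((fderiv ℝ f (z0 + t • (z - z0))).comp
        (t • ContinuousLinearMap.id ℝ (Cn n)))) z := by
    have h3 : HasFDerivAt (fun x : Cn n => f (z0 + t • (x - z0)))
        ((fderiv ℝ f (z0 + t • (z - z0))).comp (t • ContinuousLinearMap.id ℝ (Cn n))) z :=
      HasFDerivAt.comp z (by exact hgd.hasFDerivAt) hL
    change HasFDerivAt (fun x : Cn n => ((t : ℂ) ^ q) * f (z0 + t • (x - z0))) _ z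
    exact h3.const_mul _
  rw [h1.unique h2]
  rw [_root_.smul_apply, ContinuousLinearMap.comp_apply, _root_.smul_apply,
    ContinuousLinearMap.id_apply, map_smul, Complex.real_smul, smul_eq_mul, pow_succ]
  ring

theorem fderiv_cont {U : Set (Cn n)} (hU : IsOpen U) {f : Cn n → ℂ} (hf : ContDiffOn ℝ ∞ f U)
    (v : Cn n) : ContDiffOn ℝ ∞ (fun z => fderiv ℝ f z v) U :=
  (hf.fderiv_of_isOpen hU (by simp)).clm_apply contDiffOn_const

theorem fderiv_Rad (q : ℕ) {z0 : Cn n} {U : Set (Cn n)} (hU : IsOpen U) (hS : StarAt z0 U)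
    {f : Cn n → ℂ} (hf : ContDiffOn ℝ ∞ f U) {z : Cn n} (hz : z ∈ U) (v : Cn n) :
    fderiv ℝ (Rad q z0 f) z v = Rad (q + 1) z0 (fun w => fderiv ℝ f w v) z := by
  have h := hasFDerivAt_integral (E := Cn n) (E' := ℝ) (V := ℂ) (g := IG q z0 f)
    (K := Icc (0 : ℝ) 1) (isOpen_SU hU) hU isCompact_Icc (subset_SU hS) volume
    (contDiffOn_IG q hf) hz
  have h' : HasFDerivAt (Rad q z0 f) (∫ y in Icc (0 : ℝ) 1, dx (IG q z0 f) (z, y)) z := h
  rw [h'.fderiv]
  have hint : Integrable (fun s => dx (IG q z0 f) (z, s)) (volume.restrict (Icc (0 : ℝ) 1)) := by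
    have hc : ContinuousOn (fun s => dx (IG q z0 f) (z, s)) (Icc (0 : ℝ) 1) := by
      have h1 : ContinuousOn (dx (IG q z0 f)) (SU z0 U) :=
        (contDiffOn_dx (E := Cn n) (E' := ℝ) (V := ℂ) (g := IG q z0 f) (s := SU z0 U)
          (isOpen_SU hU) (contDiffOn_IG q hf)).continuousOn
      refine h1.comp (f := fun s : ℝ => (z, s)) (by fun_prop) ?_
      intro s hs
      exact subset_SU hS ⟨hz, hs⟩
    exact hc.integrableOn_Icc
  rw [ContinuousLinearMap.integral_apply hint]
  refine setIntegral_congr_fun measurableSet_Icc fun s hs => ?_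
  exact dx_IG q hU hf (subset_SU hS ⟨hz, hs⟩) v

theorem cont_line (q : ℕ) {z0 : Cn n} {U : Set (Cn n)} (hS : StarAt z0 U)
    {f : Cn n → ℂ} (hf : ContinuousOn f U) {z : Cn n} (hz : z ∈ U) :
    ContinuousOn (fun t : ℝ => ((t : ℂ) ^ q) * f (z0 + t • (z - z0))) (Icc (0 : ℝ) 1) := by
  refine ContinuousOn.mul (by fun_prop) ?_
  exact hf.comp (f := fun t : ℝ => z0 + t • (z - z0)) (by fun_prop) (fun t ht => hS z hz t ht)

theorem Rad_add (q : ℕ) {z0 : Cn n} {U : Set (Cn n)} (hS : StarAt z0 U)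
    {f g : Cn n → ℂ} (hf : ContinuousOn f U) (hg : ContinuousOn g U) {z : Cn n} (hz : z ∈ U) :
    Rad q z0 (fun w => f w + g w) z = Rad q z0 f z + Rad q z0 g z := by
  unfold Rad
  rw [← integral_add (cont_line q hS hf hz).integrableOn_Icc
    (cont_line q hS hg hz).integrableOn_Icc]
  refine setIntegral_congr_fun measurableSet_Icc fun s hs => ?_
  simp only
  ring

theorem Rad_const_mul (q : ℕ) {z0 : Cn n} (c : ℂ) (f : Cn n → ℂ) (z : Cn n) :
    Rad q z0 (fun w => c * f w) z = c * Rad q z0 f z := by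
  unfold Rad
  rw [← integral_const_mul]
  refine setIntegral_congr_fun measurableSet_Icc fun s hs => ?_
  simp only
  ring

theorem Rad_zero (q : ℕ) {z0 : Cn n} (z : Cn n) : Rad q z0 (fun _ => 0) z = 0 := by
  unfold Rad; simp

theorem Rad_sum (q : ℕ) {z0 : Cn n} {U : Set (Cn n)} (hS : StarAt z0 U) {ι : Type*}
    (s : Finset ι) {f : ι → Cn n → ℂ} (hf : ∀ k ∈ s, ContinuousOn (f k) U) {z : Cn n}
    (hz : z ∈ U) :
    Rad q z0 (fun w => ∑ k ∈ s, f k w) z = ∑ k ∈ s, Rad q z0 (f k) z := by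
  unfold Rad
  rw [← integral_finset_sum]
  · refine setIntegral_congr_fun measurableSet_Icc fun t ht => ?_
    simp only [Finset.mul_sum]
  · intro k hk
    exact (cont_line q hS (hf k hk) hz).integrableOn_Icc

theorem Rad_congr (q : ℕ) {z0 : Cn n} {U : Set (Cn n)} (hS : StarAt z0 U)
    {f g : Cn n → ℂ} (h : EqOn f g U) {z : Cn n} (hz : z ∈ U) :
    Rad q z0 f z = Rad q z0 g z := by
  unfold Rad
  refine setIntegral_congr_fun measurableSet_Icc fun t ht => ?_
  change ((t : ℂ) ^ q) * f _ = ((t : ℂ) ^ q) * g _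
  rw [h (hS z hz t ht)]

theorem dbj_Rad (q : ℕ) {z0 : Cn n} {U : Set (Cn n)} (hU : IsOpen U) (hS : StarAt z0 U)
    {f : Cn n → ℂ} (hf : ContDiffOn ℝ ∞ f U) {z : Cn n} (hz : z ∈ U) (a : Fin n) :
    dbj a (Rad q z0 f) z = Rad (q + 1) z0 (dbj a f) z := by
  have e : dbj a f = fun w => (1 / 2 : ℂ) * (fderiv ℝ f w (EuclideanSpace.single a 1) +
      I * fderiv ℝ f w (EuclideanSpace.single a I)) := by
    funext w; simp only [dbj, smul_eq_mul]
  rw [e, Rad_const_mul, Rad_add (U := U) (q + 1) hS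
    (f := fun w => fderiv ℝ f w (EuclideanSpace.single a 1))
    (g := fun w => I * fderiv ℝ f w (EuclideanSpace.single a I))
    (fderiv_cont hU hf _).continuousOn
    (continuousOn_const.mul (fderiv_cont hU hf _).continuousOn) hz, Rad_const_mul,
    ← fderiv_Rad q hU hS hf hz, ← fderiv_Rad q hU hS hf hz]
  simp only [dbj, smul_eq_mul]

theorem dj_Rad (q : ℕ) {z0 : Cn n} {U : Set (Cn n)} (hU : IsOpen U) (hS : StarAt z0 U)
    {f : Cn n → ℂ} (hf : ContDiffOn ℝ ∞ f U) {z : Cn n} (hz : z ∈ U) (a : Fin n) :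
    dj a (Rad q z0 f) z = Rad (q + 1) z0 (dj a f) z := by
  have e : dj a f = fun w => (1 / 2 : ℂ) * (fderiv ℝ f w (EuclideanSpace.single a 1) +
      (-I) * fderiv ℝ f w (EuclideanSpace.single a I)) := by
    funext w; simp only [dj, smul_eq_mul]; ring
  rw [e, Rad_const_mul, Rad_add (U := U) (q + 1) hS
    (f := fun w => fderiv ℝ f w (EuclideanSpace.single a 1))
    (g := fun w => (-I) * fderiv ℝ f w (EuclideanSpace.single a I))
    (fderiv_cont hU hf _).continuousOn
    (continuousOn_const.mul (fderiv_cont hU hf _).continuousOn) hz, Rad_const_mul,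
    ← fderiv_Rad q hU hS hf hz, ← fderiv_Rad q hU hS hf hz]
  simp only [dj, smul_eq_mul]
  ring

/-- Euler's identity, from the fundamental theorem of calculus on the segment `[z0, z]` -/
theorem Rad_euler (q : ℕ) {z0 : Cn n} {U : Set (Cn n)} (hU : IsOpen U) (hS : StarAt z0 U)
    {f : Cn n → ℂ} (hf : ContDiffOn ℝ ∞ f U) {z : Cn n} (hz : z ∈ U) :
    ((q : ℂ) + 1) * Rad q z0 f z + Rad (q + 1) z0 (fun w => fderiv ℝ f w (z - z0)) z = f z := by
  have hd : ∀ t ∈ Icc (0 : ℝ) 1, HasDerivAt (fun t : ℝ => ((t : ℂ) ^ (q + 1)) *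
      f (z0 + t • (z - z0)))
      (((q : ℂ) + 1) * (((t : ℂ) ^ q) * f (z0 + t • (z - z0)))
        + ((t : ℂ) ^ (q + 1)) * fderiv ℝ f (z0 + t • (z - z0)) (z - z0)) t := by
    intro t ht
    have hmem := hS z hz t ht
    have hfd : HasFDerivAt f (fderiv ℝ f (z0 + t • (z - z0))) (z0 + t • (z - z0)) :=
      ((hf.contDiffAt (hU.mem_nhds hmem)).differentiableAt (by simp)).hasFDerivAt
    have hline : HasDerivAt (fun t : ℝ => z0 + t • (z - z0)) (z - z0) t := by
      have := ((hasDerivAt_id t).smul_const (z - z0)).const_add z0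
      simpa using this
    have h1 : HasDerivAt (fun t : ℝ => f (z0 + t • (z - z0)))
        (fderiv ℝ f (z0 + t • (z - z0)) (z - z0)) t := hfd.comp_hasDerivAt t hline
    have h2 : HasDerivAt (fun t : ℝ => ((t : ℂ) ^ (q + 1))) (((q : ℂ) + 1) * (t : ℂ) ^ q) t := by
      have h3 : HasDerivAt (fun t : ℝ => (t : ℂ)) 1 t := Complex.ofRealCLM.hasDerivAt
      have := h3.fun_pow (q + 1)
      simpa using this
    have h4 := h2.fun_mul h1
    refine h4.congr_deriv ?_
    ring
  have hc1 : ContinuousOn (fun t : ℝ => ((t : ℂ) ^ q) * f (z0 + t • (z - z0))) (Icc (0 : ℝ) 1) :=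
    cont_line q hS hf.continuousOn hz
  have hc2 : ContinuousOn (fun t : ℝ => ((t : ℂ) ^ (q + 1)) *
      fderiv ℝ f (z0 + t • (z - z0)) (z - z0)) (Icc (0 : ℝ) 1) :=
    cont_line (q + 1) hS (f := fun w => fderiv ℝ f w (z - z0))
      (fderiv_cont hU hf _).continuousOn hz
  have hFTC := intervalIntegral.integral_eq_sub_of_hasDerivAt (a := (0 : ℝ)) (b := 1)
    (f := fun t : ℝ => ((t : ℂ) ^ (q + 1)) * f (z0 + t • (z - z0)))
    (f' := fun t : ℝ => (((q : ℂ) + 1) * (((t : ℂ) ^ q) * f (z0 + t • (z - z0)))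
        + ((t : ℂ) ^ (q + 1)) * fderiv ℝ f (z0 + t • (z - z0)) (z - z0)))
    (fun t ht => hd t (by rwa [uIcc_of_le zero_le_one] at ht))
    (by
      refine ContinuousOn.intervalIntegrable ?_
      rw [uIcc_of_le zero_le_one]
      exact (continuousOn_const.mul hc1).add hc2)
  rw [intervalIntegral.integral_of_le zero_le_one, ← integral_Icc_eq_integral_Ioc] at hFTC
  rw [integral_add (hc1.integrableOn_Icc.const_mul _) hc2.integrableOn_Icc,
    integral_const_mul] at hFTC
  unfold Rad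
  rw [hFTC]
  simp

/-! ### coordinate functions -/

/-- the coordinate `z ↦ z_b` as a real linear map -/
def prR (b : Fin n) : Cn n →L[ℝ] ℂ :=
  (EuclideanSpace.proj (𝕜 := ℂ) b : Cn n →L[ℂ] ℂ).restrictScalars ℝ

theorem prR_apply (b : Fin n) (z : Cn n) : prR b z = z b := rfl

/-- `z ↦ conj z_b` -/
def cjR (b : Fin n) : Cn n →L[ℝ] ℂ := (Complex.conjCLE : ℂ →L[ℝ] ℂ).comp (prR b)

theorem cjR_apply (b : Fin n) (z : Cn n) : cjR b z = conj (z b) := rfl

theorem dj_lin (L : Cn n →L[ℝ] ℂ) (z0 z : Cn n) (a : Fin n) :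
    dj a (fun w => L (w - z0)) z
      = (1 / 2 : ℂ) * (L (EuclideanSpace.single a 1) - I * L (EuclideanSpace.single a I)) := by
  have : HasFDerivAt (fun w => L (w - z0)) L z := by
    have := L.hasFDerivAt.comp z ((hasFDerivAt_id (𝕜 := ℝ) z).sub_const z0)
    rw [ContinuousLinearMap.comp_id] at this
    exact this
  simp only [dj, this.fderiv, smul_eq_mul]

theorem dbj_lin (L : Cn n →L[ℝ] ℂ) (z0 z : Cn n) (a : Fin n) :
    dbj a (fun w => L (w - z0)) z
      = (1 / 2 : ℂ) * (L (EuclideanSpace.single a 1) + I * L (EuclideanSpace.single a I)) := by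
  have : HasFDerivAt (fun w => L (w - z0)) L z := by
    have := L.hasFDerivAt.comp z ((hasFDerivAt_id (𝕜 := ℝ) z).sub_const z0)
    rw [ContinuousLinearMap.comp_id] at this
    exact this
  simp only [dbj, this.fderiv, smul_eq_mul]

variable {κ : Type*} [Fintype κ] [DecidableEq κ]

/-- contraction with the radial vector -/
def ct (io jo : Fin n → Matrix κ κ ℂ) (w : Cn n) : Matrix κ κ ℂ :=
  ∑ b, (conj (w b) • io b + w b • jo b)

theorem ct_apply (io jo : Fin n → Matrix κ κ ℂ) (w : Cn n) (k l : κ) :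
    ct io jo w k l = (∑ b, (io b k l • cjR b + jo b k l • prR b) : Cn n →L[ℝ] ℂ) w := by
  simp only [ct, Matrix.sum_apply, Matrix.add_apply, Matrix.smul_apply, smul_eq_mul,
    FunLike.coe_sum, Finset.sum_apply, _root_.add_apply, _root_.smul_apply, cjR_apply, prR_apply]
  exact Finset.sum_congr rfl fun b _ => by ring

theorem dj_ct (io jo : Fin n → Matrix κ κ ℂ) (z0 z : Cn n) (a : Fin n) (k l : κ) :
    dj a (fun w => ct io jo (w - z0) k l) z = jo a k l := by
  simp only [ct_apply]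
  rw [dj_lin]
  simp only [FunLike.coe_sum, Finset.sum_apply, _root_.add_apply, _root_.smul_apply, cjR_apply,
    prR_apply, PiLp.single_apply, smul_eq_mul]
  rw [Finset.mul_sum, ← Finset.sum_sub_distrib, Finset.mul_sum, Finset.sum_eq_single a]
  · simp only [if_true, map_one, conj_I]
    linear_combination (1 / 2 : ℂ) * (io a k l - jo a k l) * I_mul_I
  · intro b _ hb
    simp [hb]
  · simp

theorem dbj_ct (io jo : Fin n → Matrix κ κ ℂ) (z0 z : Cn n) (a : Fin n) (k l : κ) :
    dbj a (fun w => ct io jo (w - z0) k l) z = io a k l := by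
  simp only [ct_apply]
  rw [dbj_lin]
  simp only [FunLike.coe_sum, Finset.sum_apply, _root_.add_apply, _root_.smul_apply, cjR_apply,
    prR_apply, PiLp.single_apply, smul_eq_mul]
  rw [Finset.mul_sum, ← Finset.sum_add_distrib, Finset.mul_sum, Finset.sum_eq_single a]
  · simp only [if_true, map_one, conj_I]
    linear_combination (1 / 2 : ℂ) * (-io a k l + jo a k l) * I_mul_I
  · intro b _ hb
    simp [hb]
  · simp

theorem ct_contDiff (io jo : Fin n → Matrix κ κ ℂ) (z0 : Cn n) (k l : κ) :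
    ContDiff ℝ ∞ (fun w => ct io jo (w - z0) k l) := by
  simp only [ct_apply]
  exact (ContinuousLinearMap.contDiff _).comp (contDiff_id.sub contDiff_const)

/-! ### the Poincaré lemma -/

/-- the relations between exterior multiplications `e a` (`dz̄_a`), `f a` (`dz_a`) and the
contractions `io a`, `jo a` -/
structure CAR (deg : κ → ℕ) (e io f jo : Fin n → Matrix κ κ ℂ) : Prop where
  e_deg : ∀ a k l, e a k l ≠ 0 → deg k = deg l + 1
  io_deg : ∀ a k l, io a k l ≠ 0 → deg l = deg k + 1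
  f_deg : ∀ a k l, f a k l ≠ 0 → deg k = deg l + 1
  jo_deg : ∀ a k l, jo a k l ≠ 0 → deg l = deg k + 1
  ei : ∀ a b, e a * io b + io b * e a = if a = b then 1 else 0
  fj : ∀ a b, f a * jo b + jo b * f a = if a = b then 1 else 0
  ej : ∀ a b, e a * jo b + jo b * e a = 0
  fi : ∀ a b, f a * io b + io b * f a = 0
  num : ∑ a, (e a * io a + f a * jo a) = Matrix.diagonal (fun k => (deg k : ℂ))

/-- the flat exterior derivative in Fock form -/
def Dfl (e f : Fin n → Matrix κ κ ℂ) (u : Cn n → κ → ℂ) (z : Cn n) : κ → ℂ :=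
  ∑ a, ((e a) *ᵥ dbj a u z + (f a) *ᵥ dj a u z)

/-- radial integral of a vector of functions -/
def RV (q : ℕ) (z0 : Cn n) (u : Cn n → κ → ℂ) (z : Cn n) : κ → ℂ :=
  fun l => Rad q z0 (fun w => u w l) z

variable {deg : κ → ℕ} {e io f jo : Fin n → Matrix κ κ ℂ}

theorem CAR.e_ct (C : CAR deg e io f jo) (a : Fin n) (w : Cn n) :
    e a * ct io jo w = conj (w a) • 1 - ct io jo w * e a := by
  rw [eq_sub_iff_add_eq]
  unfold ct
  rw [Finset.mul_sum, Finset.sum_mul, ← Finset.sum_add_distrib]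
  have : ∀ b, e a * (conj (w b) • io b + w b • jo b) + (conj (w b) • io b + w b • jo b) * e a
      = conj (w b) • (if a = b then (1 : Matrix κ κ ℂ) else 0) := by
    intro b
    rw [← C.ei a b]
    have h2 := C.ej a b
    simp only [mul_add, add_mul, Matrix.mul_smul, Matrix.smul_mul, smul_add]
    have h3 : w b • (e a * jo b) + w b • (jo b * e a) = 0 := by rw [← smul_add, h2, smul_zero]
    calc _ = conj (w b) • (e a * io b) + conj (w b) • (io b * e a)
          + (w b • (e a * jo b) + w b • (jo b * e a)) := by abel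
      _ = _ := by rw [h3, add_zero]
  simp only [this]
  rw [Finset.sum_eq_single a]
  · simp
  · intro b _ hb
    rw [if_neg (Ne.symm hb), smul_zero]
  · simp

theorem CAR.f_ct (C : CAR deg e io f jo) (a : Fin n) (w : Cn n) :
    f a * ct io jo w = w a • 1 - ct io jo w * f a := by
  rw [eq_sub_iff_add_eq]
  unfold ct
  rw [Finset.mul_sum, Finset.sum_mul, ← Finset.sum_add_distrib]
  have : ∀ b, f a * (conj (w b) • io b + w b • jo b) + (conj (w b) • io b + w b • jo b) * f a
      = w b • (if a = b then (1 : Matrix κ κ ℂ) else 0) := by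
    intro b
    rw [← C.fj a b]
    have h2 := C.fi a b
    simp only [mul_add, add_mul, Matrix.mul_smul, Matrix.smul_mul, smul_add]
    have h3 : conj (w b) • (f a * io b) + conj (w b) • (io b * f a) = 0 := by
      rw [← smul_add, h2, smul_zero]
    calc _ = w b • (f a * jo b) + w b • (jo b * f a)
          + (conj (w b) • (f a * io b) + conj (w b) • (io b * f a)) := by abel
      _ = _ := by rw [h3, add_zero]
  simp only [this]
  rw [Finset.sum_eq_single a]
  · simp
  · intro b _ hb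
    rw [if_neg (Ne.symm hb), smul_zero]
  · simp

section

variable {q : ℕ} {z0 : Cn n} {U : Set (Cn n)} {u : Cn n → κ → ℂ}

/-- the homotopy operator -/
def hom (io jo : Fin n → Matrix κ κ ℂ) (q : ℕ) (z0 : Cn n) (u : Cn n → κ → ℂ) (z : Cn n) :
    κ → ℂ := ct io jo (z - z0) *ᵥ RV q z0 u z

theorem hom_apply (k : κ) (z : Cn n) : hom io jo q z0 u z k
    = ∑ l, ct io jo (z - z0) k l * Rad q z0 (fun w => u w l) z := rfl

theorem hom_contDiffOn (hU : IsOpen U) (hS : StarAt z0 U)
    (hu : ∀ l, ContDiffOn ℝ ∞ (fun w => u w l) U) (k : κ) :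
    ContDiffOn ℝ ∞ (fun z => hom io jo q z0 u z k) U := by
  simp only [hom_apply]
  exact ContDiffOn.sum fun l _ =>
    (ct_contDiff io jo z0 k l).contDiffOn.mul (contDiffOn_Rad q hU hS (hu l))

theorem cdAt {f : Cn n → ℂ} (hU : IsOpen U) (hf : ContDiffOn ℝ ∞ f U) {z : Cn n} (hz : z ∈ U) :
    DifferentiableAt ℝ f z := (hf.contDiffAt (hU.mem_nhds hz)).differentiableAt (by simp)

theorem vecDiff {f : Cn n → κ → ℂ} (hU : IsOpen U)
    (hf : ∀ l, ContDiffOn ℝ ∞ (fun w => f w l) U) {z : Cn n} (hz : z ∈ U) :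
    DifferentiableAt ℝ f z := differentiableAt_pi.2 fun l => cdAt hU (hf l) hz

theorem dbj_hom (hU : IsOpen U) (hS : StarAt z0 U)
    (hu : ∀ l, ContDiffOn ℝ ∞ (fun w => u w l) U) {z : Cn n} (hz : z ∈ U) (a : Fin n) :
    dbj a (hom io jo q z0 u) z = io a *ᵥ RV q z0 u z
      + ct io jo (z - z0) *ᵥ (fun l => Rad (q + 1) z0 (dbj a (fun w => u w l)) z) := by
  funext k
  rw [dbj_pi (vecDiff hU (fun l => hom_contDiffOn hU hS hu l) hz)]
  simp only [hom_apply]
  rw [dbj_sum (fun l _ => ((ct_contDiff io jo z0 k l).contDiffOn.mul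
    (contDiffOn_Rad q hU hS (hu l))).contDiffAt (hU.mem_nhds hz) |>.differentiableAt (by simp))]
  simp only [Pi.add_apply, Matrix.mulVec, dotProduct, RV]
  rw [← Finset.sum_add_distrib]
  refine Finset.sum_congr rfl fun l _ => ?_
  rw [dbj_mul' (((ct_contDiff io jo z0 k l).contDiffAt).differentiableAt (by simp))
    (cdAt hU (contDiffOn_Rad q hU hS (hu l)) hz), dbj_ct, dbj_Rad q hU hS (hu l) hz]

theorem dj_hom (hU : IsOpen U) (hS : StarAt z0 U)
    (hu : ∀ l, ContDiffOn ℝ ∞ (fun w => u w l) U) {z : Cn n} (hz : z ∈ U) (a : Fin n) :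
    dj a (hom io jo q z0 u) z = jo a *ᵥ RV q z0 u z
      + ct io jo (z - z0) *ᵥ (fun l => Rad (q + 1) z0 (dj a (fun w => u w l)) z) := by
  funext k
  rw [dj_pi (vecDiff hU (fun l => hom_contDiffOn hU hS hu l) hz)]
  simp only [hom_apply]
  rw [dj_sum (fun l _ => ((ct_contDiff io jo z0 k l).contDiffOn.mul
    (contDiffOn_Rad q hU hS (hu l))).contDiffAt (hU.mem_nhds hz) |>.differentiableAt (by simp))]
  simp only [Pi.add_apply, Matrix.mulVec, dotProduct, RV]
  rw [← Finset.sum_add_distrib]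
  refine Finset.sum_congr rfl fun l _ => ?_
  rw [dj_mul (((ct_contDiff io jo z0 k l).contDiffAt).differentiableAt (by simp))
    (cdAt hU (contDiffOn_Rad q hU hS (hu l)) hz), dj_ct, dj_Rad q hU hS (hu l) hz]

/-- the radial integral of the flat derivative -/
theorem sum_RV_D (hU : IsOpen U) (hS : StarAt z0 U)
    (hu : ∀ l, ContDiffOn ℝ ∞ (fun w => u w l) U) {z : Cn n} (hz : z ∈ U) :
    ∑ a, (e a *ᵥ (fun l => Rad (q + 1) z0 (dbj a (fun w => u w l)) z)
      + f a *ᵥ (fun l => Rad (q + 1) z0 (dj a (fun w => u w l)) z))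
      = RV (q + 1) z0 (Dfl e f u) z := by
  funext k
  have hb : ∀ a l, ContinuousOn (dbj a (fun w => u w l)) U := fun a l =>
    (dbj_contDiffOn hU (hu l)).continuousOn
  have hj : ∀ a l, ContinuousOn (dj a (fun w => u w l)) U := fun a l =>
    (dj_contDiffOn hU (hu l)).continuousOn
  have e1 : EqOn (fun w => Dfl e f u w k) (fun w => ∑ a, ((∑ l, e a k l * dbj a (fun w => u w l) w)
      + ∑ l, f a k l * dj a (fun w => u w l) w)) U := by
    intro w hw
    simp only [Dfl, Finset.sum_apply, Pi.add_apply, Matrix.mulVec, dotProduct]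
    refine Finset.sum_congr rfl fun a _ => ?_
    congr 1
    · exact Finset.sum_congr rfl fun l _ => by rw [dbj_pi (vecDiff hU hu hw)]
    · exact Finset.sum_congr rfl fun l _ => by rw [dj_pi (vecDiff hU hu hw)]
  show _ = Rad (q + 1) z0 (fun w => Dfl e f u w k) z
  rw [Rad_congr (q + 1) hS e1 hz]
  rw [Rad_sum (U := U) (q + 1) hS]
  · simp only [Finset.sum_apply, Pi.add_apply, Matrix.mulVec, dotProduct]
    refine Finset.sum_congr rfl fun a _ => ?_
    rw [Rad_add (U := U) (q + 1) hS (f := fun w => ∑ l, e a k l * dbj a (fun w => u w l) w)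
      (g := fun w => ∑ l, f a k l * dj a (fun w => u w l) w)
      (continuousOn_finsetSum _ fun l _ => continuousOn_const.mul (hb a l))
      (continuousOn_finsetSum _ fun l _ => continuousOn_const.mul (hj a l)) hz]
    congr 1
    · rw [Rad_sum (U := U) (q + 1) hS _ (f := fun l w => e a k l * dbj a (fun w => u w l) w)
        (fun l _ => continuousOn_const.mul (hb a l)) hz]
      exact Finset.sum_congr rfl fun l _ => (Rad_const_mul _ _ _ _).symm
    · rw [Rad_sum (U := U) (q + 1) hS _ (f := fun l w => f a k l * dj a (fun w => u w l) w)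
        (fun l _ => continuousOn_const.mul (hj a l)) hz]
      exact Finset.sum_congr rfl fun l _ => (Rad_const_mul _ _ _ _).symm
  · intro a _
    exact (continuousOn_finsetSum _ fun l _ => continuousOn_const.mul (hb a l)).add
      (continuousOn_finsetSum _ fun l _ => continuousOn_const.mul (hj a l))
  · exact hz

theorem Rad_radial (hU : IsOpen U) (hS : StarAt z0 U) {g : Cn n → ℂ} (hg : ContDiffOn ℝ ∞ g U)
    {z : Cn n} (hz : z ∈ U) (v : Cn n) :
    Rad q z0 (fun w => fderiv ℝ g w v) z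
      = ∑ b, (v b * Rad q z0 (dj b g) z + conj (v b) * Rad q z0 (dbj b g) z) := by
  have hb : ∀ a, ContinuousOn (dbj a g) U := fun a => (dbj_contDiffOn hU hg).continuousOn
  have hj : ∀ a, ContinuousOn (dj a g) U := fun a => (dj_contDiffOn hU hg).continuousOn
  have e1 : (fun w => fderiv ℝ g w v) = fun w => ∑ b, (v b * dj b g w + conj (v b) * dbj b g w) := by
    funext w
    rw [expand_fderiv]
    simp only [smul_eq_mul]
  rw [e1, Rad_sum (U := U) q hS _ (f := fun b w => v b * dj b g w + conj (v b) * dbj b g w) (fun b _ => (continuousOn_const.mul (hj b)).add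
    (continuousOn_const.mul (hb b))) hz]
  refine Finset.sum_congr rfl fun b _ => ?_
  rw [Rad_add (U := U) q hS (f := fun w => v b * dj b g w) (g := fun w => conj (v b) * dbj b g w)
    (continuousOn_const.mul (hj b)) (continuousOn_const.mul (hb b)) hz, Rad_const_mul,
    Rad_const_mul]

/-- **Poincaré lemma**, homotopy form -/
theorem D_hom (C : CAR deg e io f jo) (hU : IsOpen U) (hS : StarAt z0 U)
    (hu : ∀ l, ContDiffOn ℝ ∞ (fun w => u w l) U) (hdeg : ∀ z ∈ U, ∀ k, u z k ≠ 0 → deg k = q + 1)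
    {z : Cn n} (hz : z ∈ U) :
    Dfl e f (hom io jo q z0 u) z + ct io jo (z - z0) *ᵥ RV (q + 1) z0 (Dfl e f u) z = u z := by
  have h1 : Dfl e f (hom io jo q z0 u) z
      = (∑ a, (e a * io a + f a * jo a)) *ᵥ RV q z0 u z
        + (∑ a, ((conj ((z - z0) a)) • (fun l => Rad (q + 1) z0 (dbj a (fun w => u w l)) z)
          + ((z - z0) a) • (fun l => Rad (q + 1) z0 (dj a (fun w => u w l)) z)))
        - ct io jo (z - z0) *ᵥ RV (q + 1) z0 (Dfl e f u) z := by
    rw [← sum_RV_D (q := q) hU hS hu hz, Matrix.mulVec_sum, Matrix.sum_mulVec,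
      ← Finset.sum_add_distrib, ← Finset.sum_sub_distrib]
    unfold Dfl
    refine Finset.sum_congr rfl fun a _ => ?_
    rw [dbj_hom hU hS hu hz, dj_hom hU hS hu hz]
    simp only [Matrix.mulVec_add, Matrix.mulVec_mulVec, Matrix.add_mulVec]
    rw [C.e_ct, C.f_ct]
    simp only [Matrix.sub_mulVec, Matrix.smul_mulVec, Matrix.one_mulVec]
    abel
  rw [h1, sub_add_cancel, C.num]
  funext k
  simp only [Pi.add_apply, Finset.sum_apply, Pi.smul_apply, smul_eq_mul, Matrix.mulVec_diagonal]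
  have h2 : (deg k : ℂ) * RV q z0 u z k = ((q : ℂ) + 1) * Rad q z0 (fun w => u w k) z := by
    by_cases hk : deg k = q + 1
    · rw [hk]; push_cast; rfl
    · have h0 : EqOn (fun w => u w k) (fun _ => 0) U := by
        intro w hw
        by_contra hne
        exact hk (hdeg w hw k hne)
      have h3 : Rad q z0 (fun w => u w k) z = 0 := by
        rw [Rad_congr q hS h0 hz, Rad_zero]
      rw [h3, mul_zero]
      show (deg k : ℂ) * Rad q z0 (fun w => u w k) z = 0
      rw [h3, mul_zero]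
  have h4 := Rad_euler q hU hS (hu k) hz
  rw [Rad_radial (q := q + 1) hU hS (hu k) hz (z - z0)] at h4
  rw [← h4, h2]
  congr 1
  exact Finset.sum_congr rfl fun b _ => by ring

theorem hom_deg (C : CAR deg e io f jo) (hS : StarAt z0 U)
    (hdeg : ∀ z ∈ U, ∀ k, u z k ≠ 0 → deg k = q + 1) {z : Cn n} (hz : z ∈ U) (k : κ)
    (hk : hom io jo q z0 u z k ≠ 0) : deg k = q := by
  rw [hom_apply] at hk
  obtain ⟨l, _, hl⟩ := Finset.exists_ne_zero_of_sum_ne_zero hk
  have h1 := left_ne_zero_of_mul hl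
  have h2 := right_ne_zero_of_mul hl
  have hdl : deg l = q + 1 := by
    by_contra hne
    apply h2
    have h0 : EqOn (fun w => u w l) (fun _ => 0) U := by
      intro w hw
      by_contra hne'
      exact hne (hdeg w hw l hne')
    rw [Rad_congr q hS h0 hz, Rad_zero]
  have h3 : deg l = deg k + 1 := by
    by_contra hne
    apply h1
    simp only [ct, Matrix.sum_apply, Matrix.add_apply, Matrix.smul_apply, smul_eq_mul]
    refine Finset.sum_eq_zero fun b _ => ?_
    have e1 : io b k l = 0 := by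
      by_contra h; exact hne (C.io_deg b k l h)
    have e2 : jo b k l = 0 := by
      by_contra h; exact hne (C.jo_deg b k l h)
    rw [e1, e2]; simp
  omega

/-- **Poincaré lemma** in positive degree, on an open set star shaped about `z0` -/
theorem poincare_succ (C : CAR deg e io f jo) (hU : IsOpen U) (hS : StarAt z0 U)
    (hu : ∀ l, ContDiffOn ℝ ∞ (fun w => u w l) U) (hdeg : ∀ z ∈ U, ∀ k, u z k ≠ 0 → deg k = q + 1)
    (hD : ∀ z ∈ U, Dfl e f u z = 0) :
    ∃ v : Cn n → κ → ℂ, (∀ l, ContDiffOn ℝ ∞ (fun w => v w l) U) ∧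
      (∀ z ∈ U, ∀ k, v z k ≠ 0 → deg k = q) ∧ ∀ z ∈ U, Dfl e f v z = u z := by
  refine ⟨hom io jo q z0 u, fun l => hom_contDiffOn hU hS hu l,
    fun z hz k hk => hom_deg C hS hdeg hz k hk, fun z hz => ?_⟩
  have h := D_hom C hU hS hu hdeg hz
  have h0 : RV (q + 1) z0 (Dfl e f u) z = 0 := by
    funext k
    show Rad (q + 1) z0 (fun w => Dfl e f u w k) z = 0
    have : EqOn (fun w => Dfl e f u w k) (fun _ => 0) U := fun w hw => by
      simp only [hD w hw, Pi.zero_apply]
    rw [Rad_congr (q + 1) hS this hz, Rad_zero]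
  rw [h0, Matrix.mulVec_zero, add_zero] at h
  exact h

/-- degree `0`: closed means locally constant -/
theorem fderiv_eq_zero_of_D (C : CAR deg e io f jo) (hU : IsOpen U)
    (hu : ∀ l, ContDiffOn ℝ ∞ (fun w => u w l) U) (hdeg : ∀ z ∈ U, ∀ k, u z k ≠ 0 → deg k = 0)
    {z : Cn n} (hz : z ∈ U) (hD : Dfl e f u z = 0) (k : κ) :
    fderiv ℝ (fun w => u w k) z = 0 := by
  have hd0b : ∀ a l, deg l ≠ 0 → dbj a (fun w => u w l) z = 0 := by
    intro a l hl
    have h0 : (fun w => u w l) =ᶠ[𝓝 z] fun _ => 0 := by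
      filter_upwards [hU.mem_nhds hz] with w hw
      by_contra hne; exact hl (hdeg w hw l hne)
    rw [dbj_congr h0]; simp [dbj]
  have hd0 : ∀ a l, deg l ≠ 0 → dj a (fun w => u w l) z = 0 := by
    intro a l hl
    have h0 : (fun w => u w l) =ᶠ[𝓝 z] fun _ => 0 := by
      filter_upwards [hU.mem_nhds hz] with w hw
      by_contra hne; exact hl (hdeg w hw l hne)
    rw [dj_congr h0]; simp [dj]
  have hib : ∀ b a, io b *ᵥ dbj a u z = 0 := by
    intro b a
    funext k
    simp only [Matrix.mulVec, dotProduct, Pi.zero_apply]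
    refine Finset.sum_eq_zero fun l _ => ?_
    rw [dbj_pi (vecDiff hU hu hz)]
    by_cases hl : deg l = 0
    · have : io b k l = 0 := by
        by_contra h; have := C.io_deg b k l h; omega
      rw [this, zero_mul]
    · rw [hd0b a l hl, mul_zero]
  have hij : ∀ b a, io b *ᵥ dj a u z = 0 := by
    intro b a
    funext k
    simp only [Matrix.mulVec, dotProduct, Pi.zero_apply]
    refine Finset.sum_eq_zero fun l _ => ?_
    rw [dj_pi (vecDiff hU hu hz)]
    by_cases hl : deg l = 0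
    · have : io b k l = 0 := by
        by_contra h; have := C.io_deg b k l h; omega
      rw [this, zero_mul]
    · rw [hd0 a l hl, mul_zero]
  have hjb : ∀ b a, jo b *ᵥ dbj a u z = 0 := by
    intro b a
    funext k
    simp only [Matrix.mulVec, dotProduct, Pi.zero_apply]
    refine Finset.sum_eq_zero fun l _ => ?_
    rw [dbj_pi (vecDiff hU hu hz)]
    by_cases hl : deg l = 0
    · have : jo b k l = 0 := by
        by_contra h; have := C.jo_deg b k l h; omega
      rw [this, zero_mul]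
    · rw [hd0b a l hl, mul_zero]
  have hjj : ∀ b a, jo b *ᵥ dj a u z = 0 := by
    intro b a
    funext k
    simp only [Matrix.mulVec, dotProduct, Pi.zero_apply]
    refine Finset.sum_eq_zero fun l _ => ?_
    rw [dj_pi (vecDiff hU hu hz)]
    by_cases hl : deg l = 0
    · have : jo b k l = 0 := by
        by_contra h; have := C.jo_deg b k l h; omega
      rw [this, zero_mul]
    · rw [hd0 a l hl, mul_zero]
  have hb : ∀ b, dbj b u z = 0 := by
    intro b
    have h := congrArg (fun v => io b *ᵥ v) hD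
    simp only [Dfl, Matrix.mulVec_zero, Matrix.mulVec_sum, Matrix.mulVec_add,
      Matrix.mulVec_mulVec] at h
    have h1 : ∀ a, (io b * e a) *ᵥ dbj a u z + (io b * f a) *ᵥ dj a u z
        = if a = b then dbj a u z else 0 := by
      intro a
      have e1 : io b * e a = (if a = b then 1 else 0) - e a * io b := by
        rw [← C.ei a b]; abel
      have e2 : io b * f a = - (f a * io b) := by
        rw [eq_neg_iff_add_eq_zero, add_comm]; exact C.fi a b
      rw [e1, e2, Matrix.sub_mulVec, Matrix.neg_mulVec, ← Matrix.mulVec_mulVec,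
        ← Matrix.mulVec_mulVec, hib, hij]
      split_ifs <;> simp
    simp only [h1] at h
    simpa using h
  have hj : ∀ b, dj b u z = 0 := by
    intro b
    have h := congrArg (fun v => jo b *ᵥ v) hD
    simp only [Dfl, Matrix.mulVec_zero, Matrix.mulVec_sum, Matrix.mulVec_add,
      Matrix.mulVec_mulVec] at h
    have h1 : ∀ a, (jo b * e a) *ᵥ dbj a u z + (jo b * f a) *ᵥ dj a u z
        = if a = b then dj a u z else 0 := by
      intro a
      have e1 : jo b * f a = (if a = b then 1 else 0) - f a * jo b := by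
        rw [← C.fj a b]; abel
      have e2 : jo b * e a = - (e a * jo b) := by
        rw [eq_neg_iff_add_eq_zero, add_comm]; exact C.ej a b
      rw [e1, e2, Matrix.sub_mulVec, Matrix.neg_mulVec, ← Matrix.mulVec_mulVec,
        ← Matrix.mulVec_mulVec, hjb, hjj]
      split_ifs <;> simp
    simp only [h1] at h
    simpa using h
  ext v
  rw [expand_fderiv]
  have h1 : ∀ b, dj b (fun w => u w k) z = 0 := fun b => by
    rw [← dj_pi (vecDiff hU hu hz), hj b]; rfl
  have h2 : ∀ b, dbj b (fun w => u w k) z = 0 := fun b => by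
    rw [← dbj_pi (vecDiff hU hu hz), hb b]; rfl
  simp [h1, h2]

/-- **Poincaré lemma** in degree `0` on a preconnected open set -/
theorem poincare_zero (C : CAR deg e io f jo) (hU : IsOpen U) (hc : IsPreconnected U)
    (hu : ∀ l, ContDiffOn ℝ ∞ (fun w => u w l) U) (hdeg : ∀ z ∈ U, ∀ k, u z k ≠ 0 → deg k = 0)
    (hD : ∀ z ∈ U, Dfl e f u z = 0) {z w : Cn n} (hz : z ∈ U) (hw : w ∈ U) : u z = u w := by
  funext k
  exact hU.is_const_of_fderiv_eq_zero hc ((hu k).differentiableOn (by simp))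
    (fun x hx => fderiv_eq_zero_of_D C hU hu hdeg hx (hD x hx) k) hz hw

end

end

end Crest.Agent.R275.Poi75
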