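import Mathlib.LinearAlgebra.FiniteDimensional.Lemmas
import Mathlib.LinearAlgebra.Dimension.RankNullity
import Mathlib.LinearAlgebra.Quotient.Basic

/-!
# R275, block N (helper74): relative cohomology of three-term complexes, definitions

A three-term complex is given unbundled: `d0 : V0 →ₗ V1`, `d1 : V1 →ₗ V2`, `d1 (d0 x) = 0`.
A subcomplex is a triple of submodules `A0 A1 A2` with `d0 A0 ⊆ A1`, `d1 A1 ⊆ A2`.
`HQ Z B` is the subquotient `Z / (B ∩ Z)`.  The cohomology of the quotient complex `V/A` is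
  `H^0 = HQ (A1.comap d0) A0`, `H^1 = HQ (A2.comap d1) (A1 ⊔ range d0)`,
  `H^2 = HQ ⊤ (A2 ⊔ range d1)`.
`FinQ` : these three spaces are finite-dimensional, `chiQ` : their Euler characteristic.
The absolute cohomology is the case `A = ⊥`.
-/

set_option autoImplicit false

namespace Crest.Agent.R275.Q74

variable {K : Type*} [Field K]

/-- the subquotient `Z / (B ∩ Z)` -/
abbrev HQ {V : Type*} [AddCommGroup V] [Module K V] (Z B : Submodule K V) : Type _ :=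
  ↥Z ⧸ (B.comap Z.subtype)

section

variable {V0 V1 V2 : Type*} [AddCommGroup V0] [Module K V0] [AddCommGroup V1] [Module K V1]
  [AddCommGroup V2] [Module K V2]

/-- `H^0` of the quotient complex `V/A` -/
abbrev H0 (d0 : V0 →ₗ[K] V1) (A0 : Submodule K V0) (A1 : Submodule K V1) : Type _ :=
  HQ (A1.comap d0) A0

/-- `H^1` of the quotient complex `V/A` -/
abbrev H1 (d0 : V0 →ₗ[K] V1) (d1 : V1 →ₗ[K] V2) (A1 : Submodule K V1) (A2 : Submodule K V2) :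
    Type _ :=
  HQ (A2.comap d1) (A1 ⊔ LinearMap.range d0)

/-- `H^2` of the quotient complex `V/A` -/
abbrev H2 (d1 : V1 →ₗ[K] V2) (A2 : Submodule K V2) : Type _ :=
  HQ (⊤ : Submodule K V2) (A2 ⊔ LinearMap.range d1)

/-- finite-dimensional cohomology of the quotient complex `V/A` -/
def FinQ (d0 : V0 →ₗ[K] V1) (d1 : V1 →ₗ[K] V2) (A0 : Submodule K V0) (A1 : Submodule K V1)
    (A2 : Submodule K V2) : Prop :=
  FiniteDimensional K (H0 d0 A0 A1) ∧ FiniteDimensional K (H1 d0 d1 A1 A2) ∧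
    FiniteDimensional K (H2 d1 A2)

/-- Euler characteristic of the quotient complex `V/A` -/
noncomputable def chiQ (d0 : V0 →ₗ[K] V1) (d1 : V1 →ₗ[K] V2) (A0 : Submodule K V0)
    (A1 : Submodule K V1) (A2 : Submodule K V2) : ℤ :=
  (Module.finrank K (H0 d0 A0 A1) : ℤ) - Module.finrank K (H1 d0 d1 A1 A2)
    + Module.finrank K (H2 d1 A2)

/-- `A` is a subcomplex -/
structure IsSub (d0 : V0 →ₗ[K] V1) (d1 : V1 →ₗ[K] V2) (A0 : Submodule K V0)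
    (A1 : Submodule K V1) (A2 : Submodule K V2) : Prop where
  s0 : ∀ x ∈ A0, d0 x ∈ A1
  s1 : ∀ x ∈ A1, d1 x ∈ A2

end

/-- The data of Theorem X.  `V` (complex, sub `A ≤ B`), `V'` (complex, sub `A' ≤ B'`), and maps
`f : V → V'` which commute with `d` modulo `A'`.  `B` = "vanishing near `P` modulo `A`". -/
structure DataX {V0 V1 V2 V0' V1' V2' W : Type*}
    [AddCommGroup V0] [Module K V0] [AddCommGroup V1] [Module K V1] [AddCommGroup V2] [Module K V2]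
    [AddCommGroup V0'] [Module K V0'] [AddCommGroup V1'] [Module K V1'] [AddCommGroup V2']
    [Module K V2'] [AddCommGroup W] [Module K W]
    (d0 : V0 →ₗ[K] V1) (d1 : V1 →ₗ[K] V2) (A0 B0 : Submodule K V0) (A1 B1 : Submodule K V1)
    (A2 B2 : Submodule K V2)
    (d0' : V0' →ₗ[K] V1') (d1' : V1' →ₗ[K] V2') (A0' B0' : Submodule K V0')
    (A1' B1' : Submodule K V1') (A2' B2' : Submodule K V2')
    (f0 : V0 →ₗ[K] V0') (f1 : V1 →ₗ[K] V1') (f2 : V2 →ₗ[K] V2')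
    (e : ↥(B1'.comap d0') →ₗ[K] W) : Prop where
  dd : ∀ x, d1 (d0 x) = 0
  dd' : ∀ x, d1' (d0' x) = 0
  sA : IsSub d0 d1 A0 A1 A2
  sB : IsSub d0 d1 B0 B1 B2
  sA' : IsSub d0' d1' A0' A1' A2'
  sB' : IsSub d0' d1' B0' B1' B2'
  le0 : A0 ≤ B0
  le1 : A1 ≤ B1
  le2 : A2 ≤ B2
  le0' : A0' ≤ B0'
  le1' : A1' ≤ B1'
  le2' : A2' ≤ B2'
  fA0 : ∀ x ∈ A0, f0 x ∈ A0'
  fA1 : ∀ x ∈ A1, f1 x ∈ A1'
  fA2 : ∀ x ∈ A2, f2 x ∈ A2'
  fB0 : ∀ x ∈ B0, f0 x ∈ B0'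
  fB1 : ∀ x ∈ B1, f1 x ∈ B1'
  fB2 : ∀ x ∈ B2, f2 x ∈ B2'
  /-- chain map modulo `A'` -/
  fd0 : ∀ x, d0' (f0 x) - f1 (d0 x) ∈ A1'
  fd1 : ∀ x, d1' (f1 x) - f2 (d1 x) ∈ A2'
  /-- `f : B/A → B'/A'` is bijective -/
  inj0 : ∀ x ∈ B0, f0 x ∈ A0' → x ∈ A0
  inj1 : ∀ x ∈ B1, f1 x ∈ A1' → x ∈ A1
  inj2 : ∀ x ∈ B2, f2 x ∈ A2' → x ∈ A2
  sur0 : ∀ y ∈ B0', ∃ x ∈ B0, y - f0 x ∈ A0'
  sur1 : ∀ y ∈ B1', ∃ x ∈ B1, y - f1 x ∈ A1'
  sur2 : ∀ y ∈ B2', ∃ x ∈ B2, y - f2 x ∈ A2'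
  /-- `H^1` and `H^2` of `V/B` and of `V'/B'` vanish -/
  ac1 : ∀ x, d1 x ∈ B2 → ∃ c, x - d0 c ∈ B1
  ac2 : ∀ x : V2, ∃ c, x - d1 c ∈ B2
  ac1' : ∀ x, d1' x ∈ B2' → ∃ c, x - d0' c ∈ B1'
  ac2' : ∀ x : V2', ∃ c, x - d1' c ∈ B2'
  /-- `f` is injective on `H^0(V/B)` -/
  ker : ∀ x, d0 x ∈ B1 → f0 x ∈ B0' → x ∈ B0
  /-- `W` is the cokernel of `H^0(V/B) → H^0(V'/B')` -/
  e_sur : Function.Surjective e
  e_ker : ∀ y : ↥(B1'.comap d0'), e y = 0 ↔ ∃ x, d0 x ∈ B1 ∧ (y : V0') - f0 x ∈ B0'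

end Crest.Agent.R275.Q74
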