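import Crest.Agent.R275.SkelX_328
import Crest.Agent.R275.KDual_106
import Crest.Agent.R275.IndR_151
import Crest.Agent.R275.KXN_865

/-!
R275 (S0418), X-SIDE (helper328), part 2: `Forms` on the nerve of `Y` and the index on `X_n`.

* `exists_kap`, `hb2_big` : the canonical cocycle and `b₂ > 0` on the big balls;
* `FData G F`   : how `F` was built (partition `Pb`, cocycle `κ`);
* `XnD`         : the inputs on `X_n` (`CMData` and the rank bound) on `(xc G n).lift`;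
* `exists_forms` : `F : Forms G.Pn` from `XnD` for all `n`;
* `q0_xc`       : the reduced index on `(nlift G.N (xc G n)).at' ρ` (938, 151).
-/

set_option autoImplicit false

open Set Filter Topology Metric
open scoped Manifold ContDiff

noncomputable section

namespace Crest.Agent.R275.SkelX328

open Crest.AlgGeometry.Surface
open Geo GC293 NAtl938 Core144 Lt893 ZC352 XN194 YCneg630 FL884 Base144 PartN194
open ChiM825 Loc647 NTr151 NGeo151 EBF151 Smf798 KR798 XNI106 QPb635 WtY945 KX106 Q74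

variable {X : Type} [TopologicalSpace X] [ChartedSpace C2 X] (G : XGeo X)

/-- the canonical cocycle on the big balls -/
theorem exists_kap : ∃ κ, IsC1 (slb (KB G.N.big)) κ :=
  exists_isC1 (good_at G G.N.r_le_R le_rfl) _

/-- `b₂ > 0` -/
theorem hb2_big (hb₂ : Nontrivial (Crest.Topology.RationalHomology.rationalHomology X 2)) :
    ∃ c : GC293.Z2 G.N.big ℤ, ∀ m : ℤ, m • c.1 ∈ GC293.B2 G.N.big ℤ → m = 0 :=
  KXN865.hb2_int (good_at G G.N.r_le_R le_rfl) hb₂

variable [IsManifold 𝓘(ℂ, C2) 1 X]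

section forms

variable [CompactSpace X] [T2Space X]

/-- how the forms were built -/
structure FData (F : Forms G.Pn) (Pb : Part G.N.big) (κ : G.N.ι → G.N.ι → G.N.ι → ℤ) : Prop where
  hκ : IsC1 (slb (KB G.N.big)) κ
  hIY : F.IY = (wtY G.C G.preC Pb).IYR
  hIN : F.IN = (wtY G.C G.preC Pb).INZ
  hkap : F.kap = kapY G.C G.preC κ

variable {Pb : Part G.N.big}

/-- the inputs on `X_n` (helper615's `cmXC`, helper865's rank bound) -/
structure XnD (Pb : Part G.N.big) (n : ℕ) [NeZero n] (g : GIx (xc G n).lift) (e : ℤ) : Prop where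
  cm : CMData (liftP (xc G n) Pb) g.I e
  rk : Rk (xc G n).lift e

/-- **helper647's `Forms` on helper144's base** -/
theorem exists_forms (hb₂ : Nontrivial (Crest.Topology.RationalHomology.rationalHomology X 2))
    {κ : G.N.ι → G.N.ι → G.N.ι → ℤ} (hκ : IsC1 (slb (KB G.N.big)) κ)
    (hX : ∀ (n : ℕ) [NeZero n], ∃ g e, XnD G Pb n g e) : ∃ F : Forms G.Pn, FData G F Pb κ :=
  ⟨formsK (C := G.C) (good_at G G.N.r_le_R le_rfl) G.preC Pb hκ (fun n hn => by
    have : NeZero n := ⟨by omega⟩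
    obtain ⟨g, e, H⟩ := hX n
    exact ⟨e, nonempty_xnIn G.preC Pb (yx G n) (yx_φ G n) hn g H.cm H.rk⟩) (hb2_big G hb₂),
    hκ, rfl, rfl, rfl⟩

/-- **the reduced index on `X_n`** -/
theorem q0_xc {F : Forms G.Pn} {κ : G.N.ι → G.N.ι → G.N.ι → ℤ} (H : FData G F Pb κ)
    (hX : ∀ (n : ℕ) [NeZero n], ∃ g e, XnD G Pb n g e)
    {c : C2 (G.N.ι × ℤ)} (hc : c ∈ G.Pn.Z2c) :
    ∃ N₀ : ℕ, ∀ n : ℕ, N₀ < n → ∀ (hn : 1 ≤ n) [NeZero n] {ρ : ℝ} (hρ : G.N.r ≤ ρ)
      (Ps : Part ((nlift G.N (xc G n)).at' ρ hρ)) (Is : KIndex (smf ((nlift G.N (xc G n)).at' ρ hρ))),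
      (∀ L : LB ((nlift G.N (xc G n)).at' ρ hρ), chiL Ps Is (slb L) = chiE (isLC L)) →
      EB938.q0 F c = chi Ps Is ((RAD151.Refine.liftR G.N (xc G n) hρ).resZ
        (dn (yx G n) (yx_φ G n) G.preC (G.Pn.per n c) (G.Pn.per_mem hn hc))) - chi Ps Is 0 := by
  obtain ⟨N₀, h0⟩ := IndR151.q0_eq_chi_res (W := wtY G.C G.preC Pb) (hpc := G.preC) (F := F)
    (fun N c d => by rw [H.hIN]) H.hκ H.hkap hc
  refine ⟨N₀, fun n hn0 hn _ ρ hρ Ps Is eu => ?_⟩
  obtain ⟨g, e, D⟩ := hX n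
  obtain ⟨lab, hlab, Gf, hNrm⟩ := exists_efn (xc G n) G.preC Pb
  exact h0 n hn0 hn e (xnInG G.preC Pb (yx G n) (yx_φ G n) hn g D.cm hlab Gf hNrm D.rk)
    (RAD151.Refine.liftR G.N (xc G n) hρ) Ps Is eu

end forms

end Crest.Agent.R275.SkelX328
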