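import Crest.Agent.R275.SkelXC_328
import Crest.Agent.R275.IxG_615
import Crest.Agent.R275.NA4sw_686

/-!
R275 (S0418), X-SIDE (helper328), part 4: `IxAll` from the acyclicity of the graded pieces
(helper783); the swap rule is helper686's `rho_swap`.
-/

set_option autoImplicit false

noncomputable section

namespace Crest.Agent.R275.SkelX328

open Geo GC293 CM615 NoeFin890

/-- 783's acyclicity on all good atlases -/
def HacAll : Prop :=
  ∀ (M : Type) [TopologicalSpace M] [T2Space M] [CompactSpace M] (A : Atl 2 M) [Finite A.ι]
    (_ : Part A), GoodA A → Hac A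

theorem hsw_all {M : Type} [TopologicalSpace M] [T2Space M] (A : Atl 2 M) : Hsw A :=
  fun m w hw => NA4sw686.rho_swap m w hw

/-- **the index theoretic input from the acyclicity** -/
theorem ixAll_of_hac (h : HacAll) : IxAll := by
  intro M _ _ _ A _ P hA
  let _ : Fintype A.ι := Fintype.ofFinite A.ι
  have h1 := ix_geo hA P P ⟨h M A P hA, hsw_all A⟩
  have h2 : EDR890.nerveChi (fun i => (A.e i).source) Finset.univ = eA A := eA_eq A
  rw [← h2]
  exact h1

end Crest.Agent.R275.SkelX328
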