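import Crest.Agent.R275.SkelXE_328
import Crest.Agent.R275.ExcOK_130

/-!
R275 (S0418), X-SIDE (helper328), part 6: helper130's `ExcOK` on `G.yBase` from the excision
identities on `X_n = XC n G.u` and the data of the X side.
-/

set_option autoImplicit false

open Set Filter Topology
open scoped Manifold ContDiff

noncomputable section

namespace Crest.Agent.R275.SkelX328

open Crest.AlgGeometry.Surface
open Geo NAtl938 Core144 Base144 XN194 Loc647 NTr151 NGeo151 ChiM825 KR798 Smf798 ZC352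
open Lam2130 LauB681 PartN194 QPb635 KX106 XNI106 EBF151 YBG812 WY681 Gau511 Fred685 EulW130
open IndZ130 IndY130 EcV938 IndW938 CIdx509 ExcOK130 RAD151
open Crest.Agent.R275.GC293 (Z2 IsC1)

variable {X : Type} [TopologicalSpace X] [ChartedSpace C2 X] [IsManifold 𝓘(ℂ, C2) 1 X]
  [CompactSpace X] [T2Space X] {G : XGeo X}

/-- **`ExcOK`** from the excision identities on the coverings `xc G n` -/
theorem excOK_of {F : Forms G.Pn} {Pb : Part G.N.big} {κ : G.N.ι → G.N.ι → G.N.ι → ℤ}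
    (H : FData G F Pb κ) (hX : ∀ (n : ℕ) [NeZero n], ∃ g e, XnD G Pb n g e)
    (hE : ∀ (c : C2 (G.N.ι × ℤ)) (hc : c ∈ G.Pn.Z2c), ∃ N₁ : ℕ, ∀ n : ℕ, N₁ < n →
      ∀ (hn : 1 ≤ n) [NeZero n], ExcAt G (yx G n) (yx_φ G n) hc hn) : ExcOK G.yBase F := by
  intro c hc hcs hf a b D D0 hD hD0
  obtain ⟨N₀, h0⟩ := q0_xc G H hX hc
  obtain ⟨N₁, h1⟩ := hE c hc
  obtain ⟨n, hn⟩ : ∃ n, max N₀ N₁ < n := ⟨_, Nat.lt_succ_self _⟩
  have hN0 : N₀ < n := lt_of_le_of_lt (le_max_left _ _) hn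
  have hN1 : N₁ < n := lt_of_le_of_lt (le_max_right _ _) hn
  have hN' : 1 ≤ n := by omega
  have : NeZero n := ⟨by omega⟩
  have hfin : Finite (AN G (xc G n)).ι := inferInstanceAs (Finite (G.N.ι × ZMod n))
  have h2 := h1 n hN1 hN' hcs hf a b D D0 hD hD0
  have h3 := h0 n hN0 hN' le_rfl (PN G (xc G n)) (geo2 (PN G (xc G n)))
    (fun L => euler_geo (PN G (xc G n)) L)
  have h4 := indB_sub (PN G (xc G n)) (PN G (xc G n)) (PN G (xc G n))
    (memN le_rfl (yx G n) (yx_φ G n) G.preC hc hN') (zero_mem (Z2 (AN G (xc G n)) ℤ))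
  have h5 : EB938.q0 F c = _ := h3.trans h4.symm
  have h6 : D.ind = D0.ind + (indB (PN G (xc G n)) (tw (lam2 (AN G (xc G n)))
        (EcV (PN G (xc G n)) (memN le_rfl (yx G n) (yx_φ G n) G.preC hc hN'))) -
      indB (PN G (xc G n)) (tw (lam2 (AN G (xc G n))) (EcV (PN G (xc G n))
        (zero_mem (Z2 (AN G (xc G n)) ℤ))))) := by
    linarith
  exact h6.trans (congrArg (fun t => D0.ind + t) h5.symm)

/-- the same from `XData` -/
theorem excOK_xData [ConnectedSpace X] {F : Forms G.Pn} (H : XData G F)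
    (hE : ∀ (c : C2 (G.N.ι × ℤ)) (hc : c ∈ G.Pn.Z2c), ∃ N₁ : ℕ, ∀ n : ℕ, N₁ < n →
      ∀ (hn : 1 ≤ n) [NeZero n], ExcAt G (yx G n) (yx_φ G n) hc hn) : ExcOK G.yBase F := by
  obtain ⟨Pb, κ, hF, hX⟩ := H.forms
  exact excOK_of hF hX hE

end Crest.Agent.R275.SkelX328
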