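import Crest.Agent.R275.SkelEndY_69
import Crest.Agent.R275.SkelXC_328
import Crest.Agent.R275.NefG_672
import Crest.Agent.R275.IterHypY_572
import Crest.Agent.R275.ODX_473
import Crest.Agent.R275.IndY_130

/-!
# R275, helper144: the composition of all the halves

`shell_of_rest` : the theorem of S0418 from three inputs, each in the literal form of its producer
* `IxAll` (328; = 130 euler + 890 Noether);
* `ExcOK` for every `G`, `F` with `XData G F` (328 / 130);
* `YAn` on `G.yBase` with 160's weighted complexes (352).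
-/

set_option autoImplicit false
set_option linter.unusedSectionVars false

open Set Filter Topology Metric
open scoped Manifold ContDiff

namespace Crest.Agent.R275.TopC144

open Crest.AlgGeometry.Surface
open Geo NAtl938 Core144 ZC352 Base144 FL884 Loc647 Smf798 KR798 ODX473 SkelY144 TInA672
open SkelEnd69 Sol352 Cls938 EB938 SkelX328 Xin473
open Crest.Agent.R275.EReg572 (iterHyp_yan)

noncomputable section

variable {X : Type} [TopologicalSpace X] [T2Space X] [CompactSpace X] [ConnectedSpace X]
    [ChartedSpace C2 X] [IsManifold 𝓘(ℂ, C2) 1 X]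

/-- block D on `G.yBase` (352's `YInst`) -/
def YInst (G : XGeo X) (F : Forms G.Pn) : Prop :=
  ∀ d : ℝ, 0 < d → (∀ r, 0 < r → r < d → NonSp (YC.dk G.u) (-r)) →
    ∃ S : YAn G.yBase.N.sm G.yBase.K G.yBase.h (PP G.yBase.N G.yBase.h) (qL F G.yBase.h) d,
      ∀ L (hL : L ∈ PP G.yBase.N G.yBase.h) (hB : L ∈ YBG812.BG G.yBase),
        (S.F L (S.bgP L hL)).W = FamY160.wY G.yBase L hB

/-- **the Y side and the END half** -/
theorem shell_of_xData {G : XGeo X} {F : Forms G.Pn} (D : XData G F)
    (hLE : letI : MeasurableSpace (YC G.u) := borel (YC G.u); LargeEnd (YC.dk G.u) (YC.ht G.u))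
    (hY : YInst G F) : HasGlobalSphericalShell X := by
  have := D.cov.conn
  let _ : MeasurableSpace (YC G.u) := borel (YC G.u)
  have : BorelSpace (YC G.u) := ⟨rfl⟩
  obtain ⟨d₀, hd₀, hns₀⟩ := exists_gap (G := G)
  obtain ⟨S, hSF⟩ := hY d₀ hd₀ hns₀
  have J := idx_of_yan S G.yBase.K_sub one_pos
  obtain ⟨b, E, s, yo⟩ := exists_yOut G F S.sol (fun b E s H =>
    ⟨H.genus J, H.inter J, H.n8i J, H.n8ii J⟩) D.link D.nonneg
  refine shell_of_yOut G F yo (spec_le hLE) (fun d hd hns => ?_) ?_
  · obtain ⟨S', -⟩ := hY d hd hns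
    exact S'.sol
  · intro O m N h1 h2 h3 h4 _ _
    exact iterHyp_yan yo.tin O yo.pre.hasS (yo.pre.links J)
      (fun L hL => YBG812.mem_BG_of_PG (PP_le hL)) S hSF m N h1 h2 h3 h4

/-- **the theorem**, from the three remaining inputs -/
theorem shell_of_rest (hb₁ : Crest.Topology.RationalHomology.rationalBettiNumber X 1 = 1)
    (hb₂ : Nontrivial (Crest.Topology.RationalHomology.rationalHomology X 2))
    (hκ : PlurigeneraVanish X) (hmin : IsMinimal X) (HI : IxAll)
    (hE : ∀ (G : XGeo X) (F : Forms G.Pn), XData G F → IndY130.ExcOK G.yBase F)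
    (hY : ∀ (G : XGeo X) (F : Forms G.Pn), XData G F →
      (letI : MeasurableSpace (YC G.u) := borel (YC G.u);
        LargeEnd (YC.dk G.u) (YC.ht G.u)) →
      IndY130.ExcOK G.yBase F → YInst G F) : HasGlobalSphericalShell X := by
  obtain ⟨G, F, D, hLE⟩ := exists_top X hb₁ hb₂ hκ hmin HI
  exact shell_of_xData D hLE (hY G F D hLE (hE G F D))

end

end Crest.Agent.R275.TopC144
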